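import Vale.Agent.RM.Ind

open MeasureTheory ProbabilityTheory
open scoped RealInnerProductSpace Pointwise

namespace Vale.Agent.RM

/-- `ball_subset_vor`, `gm_ball`, `1 - x ≥ exp(-2x)` for `x ≤ 1/2`. -/
theorem Q_base {N : ℕ} {t : ℝ} (ht : 0 < t) (h : 8 * (N : ℝ) ≤ t ^ 2) : Q N t (8 / t ^ 2) := by
  intro E _ _ _ _ _ hE L hL
  have h1 := gm_mono (ball_subset_vor (L := L) (t := t) fun y hy h0 => hL.norm_le ht.le hy h0)
  have h2 := gm_ball (E := E) (t := t / 2) (by positivity)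
  have ha : (Module.finrank ℝ E : ℝ) ≤ N := by exact_mod_cast hE
  obtain ⟨x, hx⟩ : ∃ x : ℝ, x = Module.finrank ℝ E / (t / 2) ^ 2 := ⟨_, rfl⟩
  have hx0 : 0 ≤ x := by rw [hx]; positivity
  have hx1 : x ≤ 1 / 2 := by
    rw [hx, div_le_iff₀ (by positivity)]
    nlinarith
  have e : 8 / t ^ 2 * Module.finrank ℝ E = 2 * x := by
    rw [hx]; field_simp; ring
  rw [e]
  rw [← hx] at h2
  have h3 : Real.exp (-(2 * x)) ≤ 1 - x := by
    rw [Real.exp_neg, inv_le_iff_one_le_mul₀ (Real.exp_pos _)]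
    have h4 := Real.add_one_le_exp (2 * x)
    nlinarith [mul_le_mul_of_nonneg_left h4 (by linarith : 0 ≤ 1 - x)]
  linarith

theorem Q.mono {N : ℕ} {t t' β β' : ℝ} (h : Q N t β) (h0 : 0 ≤ t) (ht : t ≤ t') (hβ : β ≤ β') :
    Q N t' β' := by
  intro E _ _ _ _ _ hE L hL
  refine le_trans (Real.exp_le_exp.2 ?_) (h E hE L (hL.mono h0 ht))
  exact neg_le_neg (mul_le_mul_of_nonneg_right hβ (Nat.cast_nonneg _))

/-- Downward induction over the scales `(1+η)^j t`. -/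
theorem Q_iter {N : ℕ} (hN : 1 ≤ N) {η β : ℝ} (hη : 0 < η) (hη1 : η ≤ 1 / 2) (hβ : 0 ≤ β)
    (J : ℕ) {t : ℝ} (ht : T0 N η ≤ t) (hQ : Q N ((1 + η) ^ J * t) β) :
    Q N t (β + 3 * η ^ 2 * J) := by
  induction J generalizing t with
  | zero => simpa using hQ
  | succ J ih =>
    have h2 := two_le_T0 hN hη hη1
    have h3 : T0 N η ≤ (1 + η) * t := by nlinarith
    have h4 := ih h3 (by rwa [pow_succ, mul_assoc] at hQ)
    have h5 := ind_step hN hη hη1 ht (by positivity) h4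
    have e : β + 3 * η ^ 2 * ((J + 1 : ℕ) : ℝ) = β + 3 * η ^ 2 * J + 3 * η ^ 2 := by
      push_cast; ring
    rwa [e]

theorem main_exp {x : ℝ} (h0 : 0 ≤ x) (h1 : x ≤ 1) : Real.exp x ≤ (1 + x) ^ 2 := by
  have h2 : Real.exp (x / 2) ≤ 1 + x := by
    have h3 := Real.add_one_le_exp (-(x / 2))
    have h4 : Real.exp (x / 2) * Real.exp (-(x / 2)) = 1 := by rw [← Real.exp_add]; simp
    have h5 := Real.exp_pos (x / 2)
    have h6 : Real.exp (x / 2) * (1 - x / 2) ≤ 1 := by nlinarith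
    by_contra hc
    have h7 := mul_lt_mul_of_pos_right (not_le.1 hc) (by linarith : 0 < 1 - x / 2)
    nlinarith
  calc Real.exp x = Real.exp (x / 2) ^ 2 := by rw [← Real.exp_nat_mul]; congr 1; push_cast; ring
    _ ≤ _ := pow_le_pow_left₀ (Real.exp_pos _).le h2 2

theorem main_log {N : ℕ} (hN : 2 ≤ N) : 1 / 2 ≤ Real.log N := by
  have h1 : (2 : ℝ) ≤ N := by exact_mod_cast hN
  have h2 := Real.log_le_log (by norm_num) h1
  have h3 := Real.log_two_gt_d9
  linarith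

theorem main_T0 {N : ℕ} (hN : 2 ≤ N) {c : ℝ} (hc : 0 < c) (hc1 : c ≤ 1 / 4) :
    T0 N (c / Real.log N) ≤ 10 ^ 7 * 125 * (44 + 12 / c) ^ 2 / c ^ 4 * Real.log N ^ 9 := by
  have h1 : (2 : ℝ) ≤ N := by exact_mod_cast hN
  have hl := main_log hN
  obtain ⟨l, hl'⟩ : ∃ l, l = Real.log N := ⟨_, rfl⟩
  have a1 : Real.log (2 * N + 2) ≤ 3 * l := by
    have : Real.log ((N : ℝ) ^ 3) = 3 * l := by rw [Real.log_pow, hl']; norm_num
    rw [← this]
    refine Real.log_le_log (by positivity) ?_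
    nlinarith [mul_le_mul h1 h1 (by norm_num) (by linarith)]
  have a0 : 0 ≤ Real.log (2 * N + 2) := Real.log_nonneg (by linarith)
  rw [← hl'] at hl ⊢
  have l0 : 0 < l := by linarith
  have a2 : Real.log (N / (c / l)) ≤ 2 * l + 2 * l / c := by
    have e : (N : ℝ) / (c / l) = N * l * c⁻¹ := by field_simp
    rw [e, Real.log_mul (by positivity) (by positivity), Real.log_mul (by positivity) l0.ne',
      ← hl']
    have b1 := Real.log_le_sub_one_of_pos l0
    have b2 := Real.log_le_sub_one_of_pos (inv_pos.2 hc)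
    have b3 : c⁻¹ ≤ 2 * l / c := by
      rw [div_eq_mul_inv]
      nlinarith [inv_pos.2 hc]
    linarith
  have a3 : 0 ≤ Real.log (N / (c / l)) := by
    refine Real.log_nonneg ?_
    rw [le_div_iff₀ (by positivity), one_mul, div_le_iff₀ l0]
    nlinarith
  have b1 : (Real.log (2 * N + 2) + 1) ^ 3 ≤ (5 * l) ^ 3 :=
    pow_le_pow_left₀ (by positivity) (by linarith) 3
  have b2 : (6 * Real.log (N / (c / l)) + 16) ^ 2 ≤ ((44 + 12 / c) * l) ^ 2 := by
    refine pow_le_pow_left₀ (by positivity) ?_ 2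
    have : (44 + 12 / c) * l = 44 * l + 6 * (2 * l / c) := by ring
    linarith
  unfold T0
  calc _ ≤ 10 ^ 7 * (5 * l) ^ 3 * ((44 + 12 / c) * l) ^ 2 / (c / l) ^ 4 := by gcongr
    _ = _ := by field_simp; ring

theorem main_Q {η : ℝ} (hη : 0 < η) (hη1 : η ≤ 1) :
    ∃ C > (0 : ℝ), ∀ N : ℕ, 2 ≤ N → Q N (C * Real.log N ^ 9) η := by
  obtain ⟨D, hD⟩ : ∃ D, D = Real.log (16 / η) := ⟨_, rfl⟩
  have hD0 : 0 ≤ D := by
    rw [hD]
    refine Real.log_nonneg ?_
    rw [le_div_iff₀ hη]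
    linarith
  obtain ⟨c, hc⟩ : ∃ c, c = η / (6 * (2 * D + 3)) := ⟨_, rfl⟩
  have hc0 : 0 < c := by rw [hc]; positivity
  have hc2 : c * (6 * (2 * D + 3)) = η := by rw [hc]; field_simp
  have hc1 : c ≤ 1 / 4 := by nlinarith [mul_nonneg hc0.le hD0]
  refine ⟨10 ^ 7 * 125 * (44 + 12 / c) ^ 2 / c ^ 4, by positivity, fun N hN => ?_⟩
  have hT := main_T0 hN hc0 hc1
  have h1 : (2 : ℝ) ≤ N := by exact_mod_cast hN
  have hl := main_log hN
  obtain ⟨l, hl'⟩ : ∃ l, l = Real.log N := ⟨_, rfl⟩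
  rw [← hl'] at hl hT ⊢
  have l0 : 0 < l := by linarith
  obtain ⟨e, he⟩ : ∃ e, e = c / l := ⟨_, rfl⟩
  rw [← he] at hT
  have e0 : 0 < e := by rw [he]; positivity
  have el : e * l = c := by rw [he]; field_simp
  have e2 : e ≤ 2 * c := by nlinarith
  have e1 : e ≤ 1 / 2 := by linarith
  have hN1 : 1 ≤ N := by omega
  have t2 := two_le_T0 hN1 e0 e1
  obtain ⟨t, ht⟩ : ∃ t, t = T0 N e := ⟨_, rfl⟩
  rw [← ht] at hT t2
  obtain ⟨J, hJ⟩ : ∃ J : ℕ, J = ⌈(D + l) / e⌉₊ := ⟨_, rfl⟩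
  have j1 : D + l ≤ J * e := by
    rw [← div_le_iff₀ e0, hJ]
    exact Nat.le_ceil _
  have j2 : J * e ≤ D + l + e := by
    have : (J : ℝ) ≤ (D + l) / e + 1 := by
      rw [hJ]
      exact (Nat.ceil_lt_add_one (by positivity)).le
    have h2 := mul_le_mul_of_nonneg_right this e0.le
    rwa [add_mul, div_mul_cancel₀ _ e0.ne', one_mul] at h2
  have k1 : 16 / η * N ≤ ((1 + e) ^ J * t) ^ 2 := by
    have k2 : 16 / η * N = Real.exp (D + l) := by
      rw [Real.exp_add, hD, hl', Real.exp_log (by positivity), Real.exp_log (by positivity)]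
    have k3 : Real.exp (J * e) ≤ ((1 + e) ^ J) ^ 2 := by
      rw [Real.exp_nat_mul, ← pow_mul, mul_comm J 2, pow_mul]
      exact pow_le_pow_left₀ (Real.exp_pos _).le (main_exp e0.le (by linarith)) J
    have k4 : 1 ≤ t ^ 2 := by nlinarith
    rw [k2, mul_pow]
    exact ((Real.exp_le_exp.2 j1).trans k3).trans (le_mul_of_one_le_right (by positivity) k4)
  have k5 : 16 ≤ 16 / η := by
    rw [le_div_iff₀ hη]
    linarith
  have tp : 0 < (1 + e) ^ J * t := by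
    have : 0 < t := by linarith
    positivity
  have q1 := Q_base (N := N) tp (by nlinarith)
  have q2 : Q N ((1 + e) ^ J * t) (η / 2) := by
    refine q1.mono tp.le le_rfl ?_
    rw [div_le_iff₀ (by positivity)]
    have k6 : η / 2 * (16 / η * N) = 8 * N := by field_simp; ring
    nlinarith [mul_le_mul_of_nonneg_left k1 (by positivity : 0 ≤ η / 2)]
  have q3 := Q_iter hN1 e0 e1 (by positivity) J ht.ge q2
  refine q3.mono (by linarith) hT ?_
  have m1 : 3 * e ^ 2 * J = 3 * e * (J * e) := by ring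
  have m2 := mul_le_mul_of_nonneg_left j2 (by positivity : 0 ≤ 3 * e)
  have m3 := mul_le_mul_of_nonneg_right e2 hD0
  have m4 : e * e ≤ 2 * c := by nlinarith
  nlinarith

/-- WLOG `η ≤ 1`. `T² = 16 N/η`, `η₁ = c/ log N` with `c = c(η)` small,
`J = ⌈2 log T/η₁⌉`, `T0 N η₁ ≤ C (log N)^9`. -/
theorem rm_Q {η : ℝ} (hη : 0 < η) :
    ∃ C > (0 : ℝ), ∀ N : ℕ, 2 ≤ N → Q N (C * Real.log N ^ 9) η := by
  obtain ⟨C, hC, h⟩ := main_Q (lt_min hη one_pos) (min_le_right _ _)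
  refine ⟨C, hC, fun N hN => (h N hN).mono ?_ le_rfl (min_le_left _ _)⟩
  have := main_log hN
  positivity

/-- Reverse Minkowski inequality. Rescale by `t₀/t` (`Stab.lsc`), use `rm_Q` with `η/2`,
`count_le` for `K = s • vor` with `s^a ≥ exp(-η a/2)` (`pack_vor`, `gm_smul`); put the Borel
structure on `E` with `borelize E`. -/
theorem count {η : ℝ} (hη : 0 < η) :
    ∃ C > (0 : ℝ), ∀ N : ℕ, 2 ≤ N →
      ∀ (E : Type) [NormedAddCommGroup E] [InnerProductSpace ℝ E] [FiniteDimensional ℝ E],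
        Module.finrank ℝ E ≤ N → ∀ (L : Submodule ℤ E) (t R : ℝ), 0 < t → Stab L t →
          ∀ S : Finset E, (∀ y ∈ S, y ∈ L ∧ ‖y‖ ≤ R) →
            (S.card : ℝ) ≤ Real.exp (η * N + (C * Real.log N ^ 9 * R / t) ^ 2) := by
  obtain ⟨C, hC, h⟩ := rm_Q (half_pos hη)
  refine ⟨C, hC, fun N hN E _ _ _ hE L t R ht hL S hS => ?_⟩
  borelize E
  classical
  have hl := main_log hN
  obtain ⟨t₀, ht₀⟩ : ∃ t₀, t₀ = C * Real.log N ^ 9 := ⟨_, rfl⟩
  have t0 : 0 < t₀ := by rw [ht₀]; positivity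
  have hq := h N hN
  rw [← ht₀] at hq ⊢
  have hs : 0 < t₀ / t := by positivity
  have hL' := hL.lsc hs
  rw [div_mul_cancel₀ _ ht.ne'] at hL'
  have g1 := hq E hE _ hL'
  have hV : MeasurableSet (vor (lsc (t₀ / t) L)) := (isClosed_vor _).measurableSet
  have s0 := Real.exp_pos (-(η / 2))
  have s1 : Real.exp (-(η / 2)) < 1 := Real.exp_lt_one_iff.2 (by linarith)
  have g2 := gm_smul _ hV s0 s1.le
  have g3 := count_le (hV.const_smul₀ _) (pack_vor _ s0 s1)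
    (by
      rintro _ ⟨x, hx, rfl⟩
      exact ⟨-x, neg_mem_vor hx, smul_neg _ _⟩)
    (S.image fun y => (t₀ / t) • y) (R := t₀ * R / t) (by
      intro y hy
      obtain ⟨x, hx, rfl⟩ := Finset.mem_image.1 hy
      refine ⟨mem_lsc.2 ⟨x, (hS x hx).1, rfl⟩, ?_⟩
      rw [norm_smul, Real.norm_of_nonneg hs.le, mul_div_right_comm]
      exact mul_le_mul_of_nonneg_left (hS x hx).2 hs.le)
  rw [Finset.card_image_of_injective _ (smul_right_injective E hs.ne')] at g3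
  have ha : (Module.finrank ℝ E : ℝ) ≤ N := by exact_mod_cast hE
  have g4 : Real.exp (-(η * N)) ≤ gm (Real.exp (-(η / 2)) • vor (lsc (t₀ / t) L)) := by
    refine le_trans ?_ ((mul_le_mul_of_nonneg_left g1 (by positivity)).trans g2)
    rw [← Real.exp_nat_mul, ← Real.exp_add]
    exact Real.exp_le_exp.2 (by nlinarith)
  have g5 := (mul_le_mul_of_nonneg_left g4 (by positivity)).trans g3
  rw [mul_assoc, ← Real.exp_add, ← le_div_iff₀ (Real.exp_pos _), one_div, ← Real.exp_neg] at g5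
  exact g5.trans (Real.exp_le_exp.2 (by nlinarith [sq_nonneg (t₀ * R / t)]))

end Vale.Agent.RM
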