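import Vale.Agent.RM.Sup

open MeasureTheory ProbabilityTheory
open scoped RealInnerProductSpace Pointwise

namespace Vale.Agent.RM

variable {E : Type} [NormedAddCommGroup E] [InnerProductSpace ℝ E] [FiniteDimensional ℝ E]
  [MeasurableSpace E] [BorelSpace E]

/-- weights of biased bits -/
noncomputable def cmpW {a : ℕ} (c : Fin a → ℝ) (δ : Fin a → Bool) : ℝ :=
  ∏ i, (1 + c i * sg (δ i)) / 2

theorem cmp_sum {a : ℕ} (f : Fin a → Bool → ℝ) :
    ∑ δ : Fin a → Bool, ∏ i, f i (δ i) = ∏ i, (f i true + f i false) := by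
  have h := Finset.prod_univ_sum (fun _ : Fin a => (Finset.univ : Finset Bool)) f
  rw [Fintype.piFinset_univ] at h
  rw [← h]
  exact Finset.prod_congr rfl fun i _ => Fintype.sum_bool _

theorem cmp_W_nonneg {a : ℕ} {c : Fin a → ℝ} (hc : ∀ i, |c i| ≤ 1) (δ : Fin a → Bool) :
    0 ≤ cmpW c δ := by
  refine Finset.prod_nonneg fun i _ => ?_
  have h := abs_le.1 (hc i)
  cases δ i <;> simp only [sg, if_true, Bool.false_eq_true, if_false] <;> linarith [h.1, h.2]

theorem cmp_W_sum {a : ℕ} (c : Fin a → ℝ) : ∑ δ, cmpW c δ = 1 := by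
  unfold cmpW
  rw [cmp_sum fun i b => (1 + c i * sg b) / 2]
  refine Finset.prod_eq_one fun i _ => ?_
  simp only [sg, if_true, Bool.false_eq_true, if_false]
  ring

theorem cmp_W_mean {a : ℕ} (c : Fin a → ℝ) (j : Fin a) : ∑ δ, cmpW c δ * sg (δ j) = c j := by
  have h1 : ∀ δ : Fin a → Bool, cmpW c δ * sg (δ j) =
      ∏ i, ((1 + c i * sg (δ i)) / 2 * if i = j then sg (δ i) else 1) := fun δ => by
    rw [Finset.prod_mul_distrib, Finset.prod_ite_eq' Finset.univ j fun i => sg (δ i),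
      if_pos (Finset.mem_univ j)]
    rfl
  rw [Finset.sum_congr rfl fun δ _ => h1 δ,
    cmp_sum fun i b => (1 + c i * sg b) / 2 * if i = j then sg b else 1]
  have h2 : ∀ i : Fin a, ((1 + c i * sg true) / 2 * (if i = j then sg true else 1) +
      (1 + c i * sg false) / 2 * if i = j then sg false else 1) = if i = j then c i else 1 := by
    intro i
    simp only [sg, if_true, Bool.false_eq_true, if_false]
    split_ifs <;> ring
  rw [Finset.prod_congr rfl fun i _ => h2 i, Finset.prod_ite_eq' Finset.univ j c,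
    if_pos (Finset.mem_univ j)]

theorem cmp_conv {N : E → ℝ} {R : ℝ} (h : SubL N R) {a : ℕ} (v : Fin a → E) (c t : Fin a → ℝ)
    (hc : ∀ i, |c i| ≤ 1) :
    N (∑ i, (c i * t i) • v i) ≤ ∑ δ, cmpW c δ * N (∑ i, (t i * sg (δ i)) • v i) := by
  have h1 : ∑ i, (c i * t i) • v i = ∑ δ, cmpW c δ • ∑ i, (t i * sg (δ i)) • v i := by
    simp only [Finset.smul_sum, smul_smul]
    rw [Finset.sum_comm]
    refine Finset.sum_congr rfl fun i _ => ?_
    rw [← Finset.sum_smul, ← cmp_W_mean c i, Finset.sum_mul]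
    congr 1
    exact Finset.sum_congr rfl fun δ _ => by ring
  rw [h1]
  exact h.sum_le _ _ (fun δ _ => cmp_W_nonneg hc δ) _

/-- multiplication of signs by a fixed sign vector -/
def cmpX {a : ℕ} (δ : Fin a → Bool) : (Fin a → Bool) ≃ (Fin a → Bool) :=
  Function.Involutive.toPerm (fun ε i => ε i == δ i) fun ε => by
    funext i
    change ((ε i == δ i) == δ i) = ε i
    cases ε i <;> cases δ i <;> rfl

theorem cmp_X {a : ℕ} (δ ε : Fin a → Bool) (i : Fin a) :
    sg (cmpX δ ε i) = sg (ε i) * sg (δ i) := by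
  change sg (ε i == δ i) = _
  cases ε i <;> cases δ i <;> simp [sg]

theorem cmp_mp {a : ℕ} (ε : Fin a → Bool) :
    MeasurePreserving (fun (g : Fin a → ℝ) i => g i * sg (ε i)) (gp a) (gp a) := by
  refine measurePreserving_pi _ _ (f := fun i x => x * sg (ε i)) fun i => ⟨by fun_prop, ?_⟩
  cases ε i
  · have h := gaussianReal_map_neg (μ := 0) (v := 1)
    simpa [sg] using h
  · simp [sg]

theorem cmp_int {a : ℕ} {F : (Fin a → ℝ) → ℝ} (hF : Integrable F (gp a)) (ε : Fin a → Bool) :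
    Integrable (fun g : Fin a → ℝ => F fun i => g i * sg (ε i)) (gp a) :=
  (cmp_mp ε).integrable_comp_of_integrable hF

theorem cmp_flip {a : ℕ} {F : (Fin a → ℝ) → ℝ} (hF : Integrable F (gp a)) (ε : Fin a → Bool) :
    ∫ g : Fin a → ℝ, F (fun i => g i * sg (ε i)) ∂(gp a) = ∫ g, F g ∂(gp a) := by
  have h := integral_map (cmp_mp ε).measurable.aemeasurable
    (f := F) (by rw [(cmp_mp ε).map_eq]; exact hF.1)
  rw [(cmp_mp ε).map_eq] at h
  exact h.symm

theorem cmp_exp_int {a : ℕ} (i : Fin a) (t : ℝ) :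
    Integrable (fun g : Fin a → ℝ => Real.exp (t * g i)) (gp a) :=
  integrable_comp_eval (μ := fun _ : Fin a => gaussianReal 0 1) (i := i)
    (f := fun x : ℝ => Real.exp (t * x)) (integrable_exp_mul_gaussianReal t)

theorem cmp_exp {a : ℕ} (i : Fin a) {t : ℝ} (ht : t ^ 2 = 1) :
    ∫ g : Fin a → ℝ, Real.exp (t * g i) ∂(gp a) ≤ 2 := by
  rw [integral_comp_eval (μ := fun _ : Fin a => gaussianReal 0 1) (i := i)
    (f := fun x : ℝ => Real.exp (t * x)) (integrable_exp_mul_gaussianReal t).1]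
  have h := congrFun (mgf_fun_id_gaussianReal (μ := 0) (v := 1)) t
  simp only [mgf, ht, zero_mul, zero_add, NNReal.coe_one, mul_one] at h
  rw [h]
  have h1 : Real.exp (1 / 2) ^ 2 ≤ 2 ^ 2 := by
    rw [← Real.exp_nat_mul]
    have := Real.exp_one_lt_d9
    norm_num
    linarith
  exact (pow_le_pow_iff_left₀ (Real.exp_pos _).le zero_le_two two_ne_zero).1 h1

theorem cmp_norm_le {a : ℕ} (g : Fin a → ℝ) {M : ℝ} (hM : 0 < M) :
    ‖g‖ ≤ Real.log M - 1 + (1 + ∑ i, (Real.exp (1 * g i) + Real.exp (-1 * g i))) / M := by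
  set S := 1 + ∑ i, (Real.exp (1 * g i) + Real.exp (-1 * g i)) with hS
  have h0 : 0 ≤ ∑ i, (Real.exp (1 * g i) + Real.exp (-1 * g i)) :=
    Finset.sum_nonneg fun i _ => by positivity
  have h1 : 1 ≤ S := by linarith
  have h2 : ‖g‖ ≤ Real.log S := by
    refine (pi_norm_le_iff_of_nonneg (Real.log_nonneg h1)).2 fun i => ?_
    have h3 : Real.exp (1 * g i) + Real.exp (-1 * g i) ≤
        ∑ i, (Real.exp (1 * g i) + Real.exp (-1 * g i)) :=
      Finset.single_le_sum (f := fun i => Real.exp (1 * g i) + Real.exp (-1 * g i))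
        (fun i _ => by positivity) (Finset.mem_univ i)
    have h4 := Real.exp_pos (1 * g i)
    have h5 := Real.exp_pos (-1 * g i)
    rw [Real.le_log_iff_exp_le (by linarith), Real.norm_eq_abs]
    rw [one_mul] at h3 h4
    rw [neg_one_mul] at h3 h5
    simp only [one_mul, neg_one_mul] at hS h3
    rcases abs_choice (g i) with h6 | h6 <;> rw [h6] <;> linarith
  have h6 := Real.log_le_sub_one_of_pos (div_pos (by linarith : 0 < S) hM)
  rw [Real.log_div (by linarith) hM.ne'] at h6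
  linarith

/-- Contraction principle. `c i = E sg(ε' i)` for independent biased bits with weights
`p ε' = ∏ (1 + c i sg(ε' i))/2`; use `SubL.sum_le` and the bijection `ε ↦ ε xor-not ε'` of the
cube. (Or change one coordinate at a time by convexity.) -/
theorem cav_contr {N : E → ℝ} {R : ℝ} (h : SubL N R) {a : ℕ} (v : Fin a → E) (c : Fin a → ℝ)
    (hc : ∀ i, |c i| ≤ 1) :
    cav (fun ε => N (∑ i, (c i * sg (ε i)) • v i)) ≤ cav (fun ε => N (∑ i, sg (ε i) • v i)) := by
  unfold cav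
  refine div_le_div_of_nonneg_right ?_ (by positivity)
  refine (Finset.sum_le_sum fun ε _ => cmp_conv h v c (fun i => sg (ε i)) hc).trans (le_of_eq ?_)
  rw [Finset.sum_comm]
  have h1 : ∀ δ : Fin a → Bool, ∑ ε : Fin a → Bool,
      cmpW c δ * N (∑ i, (sg (ε i) * sg (δ i)) • v i) =
        cmpW c δ * ∑ ε : Fin a → Bool, N (∑ i, sg (ε i) • v i) := fun δ => by
    rw [← Finset.mul_sum, ← (cmpX δ).sum_comp fun ε => N (∑ i, sg (ε i) • v i)]
    simp only [cmp_X]
  rw [Finset.sum_congr rfl fun δ _ => h1 δ, ← Finset.sum_mul, cmp_W_sum, one_mul]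

/-- The map `g ↦ (sg (ε i) * g i)` preserves `gp a`. -/
theorem gp_eq_cav {a : ℕ} (F : (Fin a → ℝ) → ℝ) (hF : Integrable F (gp a)) :
    ∫ g, F g ∂(gp a) = ∫ g, cav (fun ε => F (fun i => g i * sg (ε i))) ∂(gp a) := by
  unfold cav
  rw [integral_div, integral_finsetSum _ fun ε _ => cmp_int hF ε,
    Finset.sum_congr rfl fun ε _ => cmp_flip hF ε, Finset.sum_const, Finset.card_univ,
    Fintype.card_fun, Fintype.card_bool, Fintype.card_fin, nsmul_eq_mul]
  push_cast
  field_simp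

theorem gp_contr {N : E → ℝ} {R : ℝ} (h : SubL N R) {a : ℕ} (v : Fin a → E) (c : Fin a → ℝ)
    (hc : ∀ i, |c i| ≤ 1) :
    ∫ g, N (∑ i, (c i * g i) • v i) ∂(gp a) ≤ ∫ g, N (∑ i, g i • v i) ∂(gp a) := by
  have hF := h.integrable_gp v
  have h1 : Integrable (fun g : Fin a → ℝ =>
      ∑ δ, cmpW c δ * N (∑ i, (g i * sg (δ i)) • v i)) (gp a) :=
    integrable_finsetSum _ fun δ _ => (cmp_int hF δ).const_mul _
  refine (integral_mono_of_nonneg (Filter.Eventually.of_forall fun g => h.1 _) h1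
    (Filter.Eventually.of_forall fun g => cmp_conv h v c g hc)).trans (le_of_eq ?_)
  rw [integral_finsetSum _ fun δ _ => (cmp_int hF δ).const_mul _]
  have h2 : ∀ δ : Fin a → Bool, ∫ g : Fin a → ℝ,
      cmpW c δ * N (∑ i, (g i * sg (δ i)) • v i) ∂(gp a) =
        cmpW c δ * ∫ g, N (∑ i, g i • v i) ∂(gp a) := fun δ => by
    rw [integral_const_mul, cmp_flip hF δ]
  rw [Finset.sum_congr rfl fun δ _ => h2 δ, ← Finset.sum_mul, cmp_W_sum, one_mul]

/-- With `m = ‖g‖` (sup norm), `cav_contr` for `c = g/m` bounds the inner average by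
`m * cav ..`, and `m ≤ log M - 1 + (1 + ∑ exp |g i|)/M` with `M = 2a+2`,
`E exp |g| ≤ 2 exp (1/2) ≤ 4`. -/
theorem gp_le_cav {N : E → ℝ} {R : ℝ} (h : SubL N R) {a : ℕ} (v : Fin a → E) :
    ∫ g, N (∑ i, g i • v i) ∂(gp a) ≤
      (Real.log (2 * a + 2) + 1) * cav (fun ε => N (∑ i, sg (ε i) • v i)) := by
  set A := cav (fun ε => N (∑ i, sg (ε i) • v i)) with hA
  have hA0 : 0 ≤ A := div_nonneg (Finset.sum_nonneg fun _ _ => h.1 _) (by positivity)
  have hM : (0 : ℝ) < 2 * a + 2 := by positivity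
  have h1 : ∀ g : Fin a → ℝ, cav (fun ε => N (∑ i, (g i * sg (ε i)) • v i)) ≤ ‖g‖ * A := by
    intro g
    have h2 : ∀ i, |g i / ‖g‖| ≤ 1 := fun i => by
      rw [abs_div, abs_norm]
      exact div_le_one_of_le₀ (norm_le_pi_norm g i) (norm_nonneg _)
    have h3 : ∀ i, g i = ‖g‖ * (g i / ‖g‖) := fun i => by
      by_cases h0 : g = 0
      · simp [h0]
      · have := norm_ne_zero_iff.2 h0
        field_simp
    have h4 : ∀ ε : Fin a → Bool, N (∑ i, (g i * sg (ε i)) • v i) =
        ‖g‖ * N (∑ i, (g i / ‖g‖ * sg (ε i)) • v i) := fun ε => by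
      have h5 := h.2.2.1 ‖g‖ (∑ i, (g i / ‖g‖ * sg (ε i)) • v i)
      rw [abs_norm, Finset.smul_sum] at h5
      rw [← h5]
      congr 1
      refine Finset.sum_congr rfl fun i _ => ?_
      rw [smul_smul, ← mul_assoc, ← h3 i]
    refine le_trans (le_of_eq ?_)
      (mul_le_mul_of_nonneg_left (cav_contr h v _ h2) (norm_nonneg g))
    unfold cav
    rw [Finset.sum_congr rfl fun ε _ => h4 ε, ← Finset.mul_sum, mul_div_assoc]
  have i1 : ∀ i : Fin a, Integrable
      (fun g : Fin a → ℝ => Real.exp (1 * g i) + Real.exp (-1 * g i)) (gp a) := fun i =>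
    (cmp_exp_int i 1).add (cmp_exp_int i (-1))
  have i2 : Integrable (fun g : Fin a → ℝ =>
      ∑ i, (Real.exp (1 * g i) + Real.exp (-1 * g i))) (gp a) :=
    integrable_finsetSum _ fun i _ => i1 i
  have i3 : Integrable (fun g : Fin a → ℝ =>
      (1 + ∑ i, (Real.exp (1 * g i) + Real.exp (-1 * g i))) / (2 * a + 2)) (gp a) :=
    ((integrable_const 1).add i2).div_const _
  have i4 : Integrable (fun g : Fin a → ℝ => Real.log (2 * a + 2) - 1 +
      (1 + ∑ i, (Real.exp (1 * g i) + Real.exp (-1 * g i))) / (2 * a + 2)) (gp a) :=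
    (integrable_const _).add i3
  rw [gp_eq_cav _ (h.integrable_gp v)]
  refine (integral_mono_of_nonneg (Filter.Eventually.of_forall fun g =>
    div_nonneg (Finset.sum_nonneg fun _ _ => h.1 _) (by positivity)) (i4.mul_const A)
    (Filter.Eventually.of_forall fun g => (h1 g).trans
      (mul_le_mul_of_nonneg_right (cmp_norm_le g hM) hA0))).trans ?_
  rw [integral_mul_const]
  refine mul_le_mul_of_nonneg_right ?_ hA0
  rw [integral_add (integrable_const _) i3, integral_div, integral_add (integrable_const _) i2,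
    integral_finsetSum _ fun i _ => i1 i]
  have h6 : ∑ i : Fin a, ∫ g : Fin a → ℝ,
      (Real.exp (1 * g i) + Real.exp (-1 * g i)) ∂(gp a) ≤ ∑ _i : Fin a, (4 : ℝ) := by
    refine Finset.sum_le_sum fun i _ => ?_
    rw [integral_add (cmp_exp_int i 1) (cmp_exp_int i (-1))]
    have k1 := cmp_exp i (t := 1) (by norm_num)
    have k2 := cmp_exp i (t := -1) (by norm_num)
    linarith
  rw [Finset.sum_const, Finset.card_univ, Fintype.card_fin, nsmul_eq_mul] at h6
  simp only [integral_const, probReal_univ, smul_eq_mul, one_mul] at h6 ⊢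
  have h7 : (1 + ∑ i : Fin a, ∫ g : Fin a → ℝ,
      (Real.exp (g i) + Real.exp (-1 * g i)) ∂(gp a)) / (2 * a + 2) ≤ 2 := by
    rw [div_le_iff₀ hM]
    linarith
  linarith

end Vale.Agent.RM
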