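import Mathlib

/-! Reverse Minkowski inequality with polylogarithmic loss: definitions. -/

open MeasureTheory ProbabilityTheory
open scoped RealInnerProductSpace Pointwise

namespace Vale.Agent.RM

section
variable {E : Type} [NormedAddCommGroup E] [InnerProductSpace ℝ E]

/-- Gram determinant of a finite family. -/
noncomputable def gd {r : ℕ} (b : Fin r → E) : ℝ := (Matrix.gram ℝ b).det

/-- Every linearly independent family of `r` vectors of `L` has Gram determinant `≥ t^(2r)`. -/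
def Stab (L : Submodule ℤ E) (t : ℝ) : Prop :=
  ∀ (r : ℕ) (b : Fin r → E), (∀ i, b i ∈ L) → LinearIndependent ℝ b → t ^ (2 * r) ≤ gd b

/-- All nonzero vectors of `L` have norm at least one. -/
def Sep (L : Submodule ℤ E) : Prop := ∀ y ∈ L, y ≠ 0 → 1 ≤ ‖y‖

/-- Closed Voronoi cell. -/
def vor (L : Submodule ℤ E) : Set E := {x | ∀ y ∈ L, 2 * ⟪x, y⟫ ≤ ‖y‖ ^ 2}

/-- Packing set: no two of its points differ by a nonzero vector of `L`. -/
def Pack (L : Submodule ℤ E) (K : Set E) : Prop := ∀ x ∈ K, ∀ y ∈ L, y ≠ 0 → x + y ∉ K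

/-- Image of a lattice under a real linear map. -/
def lmap {F : Type} [NormedAddCommGroup F] [InnerProductSpace ℝ F] (g : E →ₗ[ℝ] F)
    (L : Submodule ℤ E) : Submodule ℤ F := L.map (g.restrictScalars ℤ)

/-- The lattice scaled by `s`. -/
def lsc (s : ℝ) (L : Submodule ℤ E) : Submodule ℤ E := lmap (s • LinearMap.id) L

/-- The part of `L` inside `U`, as a lattice of `U`. -/
def lsub (U : Submodule ℝ E) (L : Submodule ℤ E) : Submodule ℤ U :=
  L.comap (U.subtype.restrictScalars ℤ)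

/-- The orthogonal projection of `L` onto `Uᗮ`, as a lattice of `Uᗮ`. -/
noncomputable def lquo [FiniteDimensional ℝ E] (U : Submodule ℝ E) (L : Submodule ℤ E) :
    Submodule ℤ (Uᗮ : Submodule ℝ E) :=
  lmap ((Uᗮ).orthogonalProjectionOnto : E →L[ℝ] (Uᗮ : Submodule ℝ E)).toLinearMap L

/-- The map multiplying the `u` coordinate by `s` and the `v` coordinate by `1/s`. -/
noncomputable def sq (s : ℝ) (u v : E) : E →ₗ[ℝ] E :=
  LinearMap.id + (s - 1) • ((innerₛₗ ℝ u).smulRight u : E →ₗ[ℝ] E)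
    + (s⁻¹ - 1) • ((innerₛₗ ℝ v).smulRight v : E →ₗ[ℝ] E)

/-- Support function of a set. -/
noncomputable def supf (S : Set E) (x : E) : ℝ := sSup ((fun ξ => ⟪ξ, x⟫) '' S)

/-- A symmetric set containing `0`, inside the ball of radius `R`. -/
def SymB (S : Set E) (R : ℝ) : Prop := (0 : E) ∈ S ∧ (∀ ξ ∈ S, -ξ ∈ S) ∧ ∀ ξ ∈ S, ‖ξ‖ ≤ R

/-- The polar set. -/
def pol (S : Set E) : Set E := {x | ∀ ξ ∈ S, ⟪ξ, x⟫ ≤ 1}

/-- Sublinear, nonnegative, even and Lipschitz function. -/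
def SubL (N : E → ℝ) (R : ℝ) : Prop :=
  (∀ x, 0 ≤ N x) ∧ (∀ x y, N (x + y) ≤ N x + N y) ∧ (∀ (c : ℝ) x, N (c • x) = |c| * N x) ∧
    ∀ x, N x ≤ R * ‖x‖

/-- Sign attached to a bit. -/
def sg (b : Bool) : ℝ := if b then 1 else -1

/-- Average over the discrete cube. -/
noncomputable def cav {a : ℕ} (f : (Fin a → Bool) → ℝ) : ℝ := (∑ ε, f ε) / 2 ^ a

/-- Degree one Walsh coefficient of a vector valued function. -/
noncomputable def wh {a : ℕ} (X : (Fin a → Bool) → E) (i : Fin a) : E :=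
  ((2 : ℝ) ^ a)⁻¹ • ∑ ε, sg (ε i) • X ε

end

/-- Standard Gaussian on coefficient vectors. -/
noncomputable abbrev gp (d : ℕ) : Measure (Fin d → ℝ) := Measure.pi fun _ => gaussianReal 0 1

section
variable {E : Type} [NormedAddCommGroup E] [InnerProductSpace ℝ E] [FiniteDimensional ℝ E]
  [MeasurableSpace E] [BorelSpace E]

/-- Gaussian measure of a set. -/
noncomputable def gm (K : Set E) : ℝ := (stdGaussian E).real K

/-- Gaussian second moment of the coordinate `u` on `K` (not normalised). -/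
noncomputable def mom (K : Set E) (u : E) : ℝ := ∫ x in K, ⟪u, x⟫ ^ 2 ∂(stdGaussian E)

/-- Gaussian density. -/
noncomputable def dens (x : E) : ℝ :=
  (Real.sqrt (2 * Real.pi))⁻¹ ^ (Module.finrank ℝ E) * Real.exp (-‖x‖ ^ 2 / 2)

end

/-- Every `t`-stable lattice in dimension `≤ N` has a Voronoi cell of Gaussian mass
at least `exp (-β dim)`. -/
def Q (N : ℕ) (t β : ℝ) : Prop :=
  ∀ (E : Type) [NormedAddCommGroup E] [InnerProductSpace ℝ E] [FiniteDimensional ℝ E]
    [MeasurableSpace E] [BorelSpace E], Module.finrank ℝ E ≤ N → ∀ L : Submodule ℤ E, Stab L t →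
      Real.exp (-(β * Module.finrank ℝ E)) ≤ gm (vor L)

/-- The polylogarithmic threshold. -/
noncomputable def T0 (N : ℕ) (η : ℝ) : ℝ :=
  10 ^ 7 * (Real.log (2 * N + 2) + 1) ^ 3 * (6 * Real.log (N / η) + 16) ^ 2 / η ^ 4

theorem mem_lmap {E F : Type} [NormedAddCommGroup E] [InnerProductSpace ℝ E]
    [NormedAddCommGroup F] [InnerProductSpace ℝ F] {g : E →ₗ[ℝ] F} {L : Submodule ℤ E} {y : F} :
    y ∈ lmap g L ↔ ∃ x ∈ L, g x = y := Iff.rfl

theorem mem_lsc {E : Type} [NormedAddCommGroup E] [InnerProductSpace ℝ E]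
    {s : ℝ} {L : Submodule ℤ E} {y : E} : y ∈ lsc s L ↔ ∃ x ∈ L, s • x = y := Iff.rfl

theorem mem_lsub {E : Type} [NormedAddCommGroup E] [InnerProductSpace ℝ E]
    {U : Submodule ℝ E} {L : Submodule ℤ E} {y : U} : y ∈ lsub U L ↔ (y : E) ∈ L := Iff.rfl

theorem mem_lquo {E : Type} [NormedAddCommGroup E] [InnerProductSpace ℝ E]
    [FiniteDimensional ℝ E] {U : Submodule ℝ E} {L : Submodule ℤ E}
    {y : (Uᗮ : Submodule ℝ E)} :
    y ∈ lquo U L ↔ ∃ x ∈ L, (Uᗮ).orthogonalProjectionOnto x = y := Iff.rfl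

theorem sq_apply {E : Type} [NormedAddCommGroup E] [InnerProductSpace ℝ E] (s : ℝ) (u v x : E) :
    sq s u v x = x + ((s - 1) * ⟪u, x⟫) • u + ((s⁻¹ - 1) * ⟪v, x⟫) • v := by
  simp [sq, smul_smul]

end Vale.Agent.RM
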