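import Vale.Agent.RM.Defs

open MeasureTheory ProbabilityTheory
open scoped RealInnerProductSpace Pointwise

namespace Vale.Agent.RM

variable {E : Type} [NormedAddCommGroup E] [InnerProductSpace ℝ E] [FiniteDimensional ℝ E]
  [MeasurableSpace E] [BorelSpace E]

theorem dens_pos (x : E) : 0 < dens x := by
  unfold dens
  positivity

theorem continuous_dens : Continuous (dens : E → ℝ) := by
  unfold dens
  fun_prop

theorem Dens_pi (d : ℕ) : (Measure.pi fun _ : Fin d => gaussianReal 0 1) =
    volume.withDensity fun x => ENNReal.ofReal (∏ i, gaussianPDFReal 0 1 (x i)) := by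
  apply Measure.pi_eq
  intro s hs
  have hms : MeasurableSet (Set.univ.pi s) := MeasurableSet.univ_pi hs
  have hint : Integrable (fun x : Fin d → ℝ => ∏ i, gaussianPDFReal 0 1 (x i)) :=
    Integrable.fintype_prod fun _ => integrable_gaussianPDFReal 0 1
  rw [withDensity_apply _ hms, ← ofReal_integral_eq_lintegral_ofReal hint.integrableOn
    (Filter.Eventually.of_forall fun x => Finset.prod_nonneg fun i _ =>
      gaussianPDFReal_nonneg 0 1 _), volume_pi, Measure.restrict_pi_pi,
    integral_fintype_prod_eq_prod (fun _ => gaussianPDFReal 0 1),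
    ENNReal.ofReal_prod_of_nonneg fun i _ => integral_nonneg (gaussianPDFReal_nonneg 0 1)]
  exact Finset.prod_congr rfl fun i _ => (gaussianReal_apply_eq_integral 0 one_ne_zero _).symm

/-- `stdGaussian_eq_map_pi_orthonormalBasis`, `gaussianReal_of_var_ne_zero`, a product of
densities is the density of the product (`Measure.pi_eq`), and
`OrthonormalBasis.measurePreserving_repr_symm`, `PiLp.volume_preserving_toLp`. -/
theorem std_eq : stdGaussian E = volume.withDensity (fun x => ENNReal.ofReal (dens x)) := by
  have hm : Measurable fun x : E => ENNReal.ofReal (dens x) :=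
    continuous_dens.measurable.ennreal_ofReal
  let b := stdOrthonormalBasis ℝ E
  have hp := b.measurePreserving_repr_symm.comp
    (PiLp.volume_preserving_toLp (Fin (Module.finrank ℝ E)))
  have e : (fun x : Fin (Module.finrank ℝ E) → ℝ => ∑ i, x i • b i) =
      b.repr.symm ∘ WithLp.toLp 2 := by
    funext x
    exact b.sum_repr_symm (WithLp.toLp 2 x)
  rw [stdGaussian_eq_map_pi_orthonormalBasis b, Dens_pi, e]
  ext A hA
  rw [Measure.map_apply hp.measurable hA, withDensity_apply _ (hp.measurable hA),
    withDensity_apply _ hA, ← hp.setLIntegral_comp_preimage hA hm]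
  refine lintegral_congr fun x => congrArg _ ?_
  simp only [dens, gaussianPDFReal, Function.comp, LinearIsometryEquiv.norm_map,
    EuclideanSpace.real_norm_sq_eq, Finset.prod_mul_distrib, Finset.prod_const, Finset.card_univ,
    Fintype.card_fin, ← Real.exp_sum, NNReal.coe_one, mul_one, sub_zero, ← Finset.sum_div,
    Finset.sum_neg_distrib]

theorem setIntegral_std (K : Set E) (hK : MeasurableSet K) (f : E → ℝ) :
    ∫ x in K, f x ∂(stdGaussian E) = ∫ x in K, dens x * f x := by
  rw [std_eq, restrict_withDensity hK, integral_withDensity_eq_integral_toReal_smul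
    continuous_dens.measurable.ennreal_ofReal (by simp)]
  refine integral_congr_ae (Filter.Eventually.of_forall fun x => ?_)
  simp only [smul_eq_mul, ENNReal.toReal_ofReal (dens_pos x).le]

theorem integrable_std_iff (f : E → ℝ) :
    Integrable f (stdGaussian E) ↔ Integrable (fun x => dens x * f x) := by
  rw [std_eq, integrable_withDensity_iff_integrable_smul'
    continuous_dens.measurable.ennreal_ofReal (by simp)]
  simp only [smul_eq_mul, ENNReal.toReal_ofReal (dens_pos _).le]

theorem gm_eq (K : Set E) (hK : MeasurableSet K) : gm K = ∫ x in K, dens x := by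
  simpa [gm] using setIntegral_std K hK fun _ => 1

theorem gm_nonneg (K : Set E) : 0 ≤ gm K := by
  exact measureReal_nonneg

theorem gm_le_one (K : Set E) : gm K ≤ 1 := by
  exact measureReal_le_one

theorem gm_mono {K K' : Set E} (h : K ⊆ K') : gm K ≤ gm K' := by
  exact measureReal_mono h

theorem gm_univ : gm (Set.univ : Set E) = 1 := by
  simp [gm]

/-- Gaussian integrals with a wider or narrower weight (scale `x`; `integral_comp_smul`). -/
theorem integral_dens_smul {c : ℝ} (hc : 0 < c) :
    Integrable (fun x : E => dens (c • x)) ∧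
      ∫ x : E, dens (c • x) = (c⁻¹) ^ (Module.finrank ℝ E) := by
  have h1 : Integrable (dens : E → ℝ) := by
    simpa using (integrable_std_iff fun _ : E => (1 : ℝ)).1 (integrable_const 1)
  have h2 : ∫ x : E, dens x = 1 := by
    rw [← gm_univ (E := E), gm_eq _ MeasurableSet.univ, Measure.restrict_univ]
  refine ⟨h1.comp_smul hc.ne', ?_⟩
  rw [Measure.integral_comp_smul, h2, abs_of_pos (by positivity), smul_eq_mul, mul_one, inv_pow]

/-- Change of variables `x = s • z`. -/
theorem setIntegral_smul_set (K : Set E) (hK : MeasurableSet K) {s : ℝ} (hs : 0 < s)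
    (f : E → ℝ) :
    ∫ x in s • K, f x = s ^ (Module.finrank ℝ E) * ∫ z in K, f (s • z) := by
  have _ := hK
  rw [Measure.setIntegral_comp_smul_of_pos volume f K hs, smul_eq_mul, ← mul_assoc,
    mul_inv_cancel₀ (by positivity), one_mul]

theorem gm_smul (K : Set E) (hK : MeasurableSet K) {s : ℝ} (h0 : 0 < s) (h1 : s ≤ 1) :
    s ^ (Module.finrank ℝ E) * gm K ≤ gm (s • K) := by
  have h2 : Integrable (dens : E → ℝ) := by
    simpa using (integral_dens_smul (E := E) one_pos).1
  rw [gm_eq K hK, gm_eq _ (hK.const_smul₀ s), setIntegral_smul_set K hK h0]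
  refine mul_le_mul_of_nonneg_left (setIntegral_mono h2.integrableOn
    (integral_dens_smul h0).1.integrableOn fun x => ?_) (by positivity)
  refine mul_le_mul_of_nonneg_left (Real.exp_le_exp.2 ?_) (by positivity)
  rw [norm_smul, mul_pow, Real.norm_eq_abs, sq_abs]
  nlinarith [sq_nonneg ‖x‖, mul_le_one₀ h1 h0.le h1]

end Vale.Agent.RM
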