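import Vale.Agent.RM.Defs

open MeasureTheory ProbabilityTheory
open scoped RealInnerProductSpace Pointwise

namespace Vale.Agent.RM

variable {E : Type} [NormedAddCommGroup E] [InnerProductSpace ℝ E]

theorem gd_nonneg {r : ℕ} (b : Fin r → E) : 0 ≤ gd b := by
  exact (Matrix.posSemidef_gram ℝ b).det_nonneg

theorem gd_zero (b : Fin 0 → E) : gd b = 1 := by
  exact Matrix.det_fin_zero

theorem gd_one (x : E) : gd ![x] = ‖x‖ ^ 2 := by
  simp [gd]

theorem gd_pos_iff {r : ℕ} (b : Fin r → E) : 0 < gd b ↔ LinearIndependent ℝ b := by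
  rw [← Matrix.det_gram_ne_zero_iff_linearIndependent, (gd_nonneg b).lt_iff_ne, ne_comm, gd]

open Matrix in
theorem Gd_one_le {n : ℕ} {P : Matrix (Fin n) (Fin n) ℝ} (hP : P.PosSemidef) :
    1 ≤ (1 + P).det := by
  have h := hP.1.spectral_theorem
  rw [Unitary.conjStarAlgAut_apply] at h
  have h2 := Unitary.coe_star_mul_self hP.1.eigenvectorUnitary
  generalize (hP.1.eigenvectorUnitary : Matrix (Fin n) (Fin n) ℝ) = U at h h2
  have e : 1 + P = U * (1 + diagonal (RCLike.ofReal ∘ hP.1.eigenvalues)) * star U := by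
    rw [mul_add, add_mul, mul_one, ← h, mul_eq_one_comm.1 h2]
  rw [e, det_mul_comm, ← mul_assoc, h2, one_mul, ← diagonal_one, diagonal_add, det_diagonal]
  exact Finset.one_le_prod fun i _ => by simpa using hP.eigenvalues_nonneg i

open Matrix in
open scoped MatrixOrder in
theorem Gd_det_le {n : ℕ} {H G : Matrix (Fin n) (Fin n) ℝ} (hH : H.PosSemidef)
    (hG : G.PosSemidef) : H.det ≤ (H + G).det := by
  rcases hH.det_nonneg.eq_or_lt with h0 | h0
  · rw [← h0]
    exact (hH.add hG).det_nonneg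
  obtain ⟨B, rfl⟩ := CStarAlgebra.nonneg_iff_eq_star_mul_self.mp hH.nonneg
  have hi : B⁻¹ * B = 1 := nonsing_inv_mul B (isUnit_iff_ne_zero.2 fun hb => by
    rw [det_mul, hb, mul_zero] at h0
    exact lt_irrefl _ h0)
  have hi' : star B * B⁻¹ᴴ = 1 := by
    rw [star_eq_conjTranspose, ← conjTranspose_mul, hi, conjTranspose_one]
  have e : star B * B + G = star B * ((1 + B⁻¹ᴴ * G * B⁻¹) * B) := by
    rw [add_mul, one_mul, mul_add, mul_assoc, hi, mul_one, ← mul_assoc, hi', one_mul]
  rw [e, det_mul _ (_ * B), det_mul (1 + _) B, mul_left_comm, ← det_mul]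
  exact le_mul_of_one_le_left h0.le (Gd_one_le (hG.conjTranspose_mul_mul_same B⁻¹))

/-- Monotonicity of the determinant in the Loewner order. If `gd b = 0` trivial; otherwise
diagonalise `B^{-1/2} C B^{-1/2}` (eigenvalues `≥ 1`), or induct on `r` with Schur complements. -/
theorem gd_mono {F : Type} [NormedAddCommGroup F] [InnerProductSpace ℝ F] {r : ℕ}
    (b : Fin r → E) (c : Fin r → F)
    (h : ∀ w : Fin r → ℝ, ‖∑ i, w i • b i‖ ≤ ‖∑ i, w i • c i‖) : gd b ≤ gd c := by
  have e := Gd_det_le (Matrix.posSemidef_gram ℝ b) (G := Matrix.gram ℝ c - Matrix.gram ℝ b)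
    (.of_dotProduct_mulVec_nonneg ((Matrix.isHermitian_gram ℝ c).sub
      (Matrix.isHermitian_gram ℝ b)) fun w => by
        rw [Matrix.sub_mulVec, dotProduct_sub, Matrix.star_dotProduct_gram_mulVec,
          Matrix.star_dotProduct_gram_mulVec, real_inner_self_eq_norm_sq,
          real_inner_self_eq_norm_sq, sub_nonneg]
        exact pow_le_pow_left₀ (norm_nonneg _) (h w) 2)
  rwa [add_sub_cancel] at e

theorem gd_smul {r : ℕ} (s : ℝ) (b : Fin r → E) :
    gd (fun i => s • b i) = s ^ (2 * r) * gd b := by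
  have e : Matrix.gram ℝ (fun i => s • b i) = s ^ 2 • Matrix.gram ℝ b := by
    ext i j
    simp only [Matrix.gram_apply, real_inner_smul_left, real_inner_smul_right, Matrix.smul_apply,
      smul_eq_mul, pow_two, mul_assoc]
  rw [gd, e, Matrix.det_smul, Fintype.card_fin, ← pow_mul, gd]

theorem gd_coe {r : ℕ} (U : Submodule ℝ E) (b : Fin r → U) :
    gd (fun i => (b i : E)) = gd b := by
  rfl

theorem Gd_comb {ι : Type} [Fintype ι] [DecidableEq ι] (T : Matrix ι ι ℝ) (v : ι → E) :
    (Matrix.gram ℝ fun j => ∑ i, T i j • v i).det = T.det ^ 2 * (Matrix.gram ℝ v).det := by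
  have e : (Matrix.gram ℝ fun j => ∑ i, T i j • v i) = T.transpose * (Matrix.gram ℝ v * T) := by
    ext j k
    simp only [Matrix.gram_apply, sum_inner, real_inner_smul_left, Matrix.mul_apply,
      Matrix.transpose_apply]
    simp only [inner_sum, real_inner_smul_right, mul_comm]
  rw [e, Matrix.det_mul, Matrix.det_mul, Matrix.det_transpose]
  ring

/-- Write `c j = p j + ∑ i, M i j • b i` with `p j` the projection; the Gram matrix of `(b, c)`
is `Tᵀ * fromBlocks (gram b) 0 0 (gram p) * T` with `T` block unitriangular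
(reindex by `finSumFinEquiv`). -/
theorem gd_append [FiniteDimensional ℝ E] {r r' : ℕ} (b : Fin r → E) (c : Fin r' → E) :
    gd (Fin.append b c) = gd b *
      gd (fun j => (Submodule.span ℝ (Set.range b))ᗮ.orthogonalProjectionOnto (c j)) := by
  rw [← gd_coe]
  set p := fun j => ((Submodule.span ℝ (Set.range b))ᗮ.orthogonalProjectionOnto (c j) : E)
  have h0 : ∀ i j, ⟪b i, p j⟫ = 0 := fun i j =>
    Submodule.inner_right_of_mem_orthogonal (Submodule.subset_span (Set.mem_range_self i)) (Subtype.prop _)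
  have h1 : ∀ j, ∃ m : Fin r → ℝ, ∑ i, m i • b i = c j - p j := fun j => by
    rw [← Submodule.mem_span_range_iff_exists_fun,
      ← (Submodule.span ℝ (Set.range b)).orthogonal_orthogonal]
    exact Submodule.sub_starProjection_mem_orthogonal _
  choose M hM using h1
  have e := Gd_comb (Matrix.fromBlocks 1 (Matrix.of fun i j => M j i) 0 1) (Sum.elim b p)
  have e1 : Matrix.gram ℝ (Sum.elim b p) =
      Matrix.fromBlocks (Matrix.gram ℝ b) 0 0 (Matrix.gram ℝ p) := by
    ext (i | i) (j | j) <;> simp [h0, real_inner_comm (b _) (p _)]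
  rw [e1, Matrix.det_fromBlocks_zero₂₁, Matrix.det_fromBlocks_zero₂₁, Matrix.det_one,
    Matrix.det_one, one_mul, one_pow, one_mul] at e
  rw [gd, gd, gd, ← e, ← Matrix.det_submatrix_equiv_self finSumFinEquiv]
  refine congrArg (fun v => (Matrix.gram ℝ v).det)
    (?_ : Fin.append b c ∘ finSumFinEquiv = _)
  ext (j | j) <;> simp [Matrix.one_apply, hM]

/-- `Matrix.gram_eq_conjTranspose_mul` with an orthonormal basis indexed by `Fin r`. -/
theorem gd_map_full [FiniteDimensional ℝ E] {r : ℕ} (hr : r = Module.finrank ℝ E)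
    (g : E →ₗ[ℝ] E) (b : Fin r → E) :
    gd (fun i => g (b i)) = (LinearMap.det g) ^ 2 * gd b := by
  subst hr
  have e : ∀ v, gd v = (stdOrthonormalBasis ℝ E).toBasis.det v ^ 2 := fun v => by
    rw [gd, Matrix.gram_eq_conjTranspose_mul (stdOrthonormalBasis ℝ E), Matrix.det_mul,
      Matrix.det_conjTranspose, star_trivial, pow_two]
    rfl
  rw [e, e, ← mul_pow, ← Module.Basis.det_comp]
  rfl

end Vale.Agent.RM
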