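import Vale.Agent.RM.Defs

open MeasureTheory ProbabilityTheory
open scoped RealInnerProductSpace Pointwise

namespace Vale.Agent.RM

variable {E : Type} [NormedAddCommGroup E] [InnerProductSpace ℝ E]

theorem cav_inner {a : ℕ} (Y : (Fin a → Bool) → E) (v : Fin a → E) :
    cav (fun ε => ⟪Y ε, ∑ i, sg (ε i) • v i⟫) = ∑ i, ⟪wh Y i, v i⟫ := by
  simp only [cav, wh, inner_sum, sum_inner, real_inner_smul_left, real_inner_smul_right]
  rw [← Finset.mul_sum, Finset.sum_comm, div_eq_inv_mul]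

/-- Markov type bound: apply `Polynomial.Chebyshev.eval_iterate_derivative_le_of_forall_abs_le_one`
(`k = 1`, `x = 1`, `T_l'(1) = l²`) to `P(x) = p((x-1)/4)/2`. -/
theorem coeff_one_le (p : Polynomial ℝ) {l : ℕ} (hp : p.natDegree ≤ l)
    (h : ∀ r : ℝ, |r| ≤ 1 / 2 → |p.eval r| ≤ 2) : p.coeff 1 ≤ 8 * (l : ℝ) ^ 2 := by
  have hd : (Polynomial.C (1 / 2 : ℝ) * p.comp
      (Polynomial.C (1 / 4 : ℝ) * Polynomial.X + Polynomial.C (-1 / 4))).natDegree ≤ l := by
    refine (Polynomial.natDegree_C_mul_le _ _).trans (Polynomial.natDegree_comp_le.trans ?_)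
    exact (Nat.mul_le_mul hp Polynomial.natDegree_linear_le).trans (mul_one l).le
  have k := Polynomial.Chebyshev.eval_iterate_derivative_le_of_forall_abs_le_one (k := 1)
    (x := 1) le_rfl (Polynomial.degree_le_of_natDegree_le hd) fun x hx => by
      have := h (1 / 4 * x + -1 / 4) (abs_le.2 ⟨by linarith [hx.1], by linarith [hx.2]⟩)
      simp only [Polynomial.eval_mul, Polynomial.eval_C, Polynomial.eval_comp, Polynomial.eval_add,
        Polynomial.eval_X, abs_mul]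
      rw [abs_of_pos (by norm_num : (0 : ℝ) < 1 / 2)]
      linarith
  simp only [Function.iterate_one, Polynomial.Chebyshev.derivative_T_eval_one,
    Polynomial.derivative_C_mul, Polynomial.derivative_comp, Polynomial.eval_mul,
    Polynomial.eval_C, Polynomial.eval_comp, Polynomial.eval_add, Polynomial.eval_X,
    Polynomial.derivative_add, Polynomial.derivative_X, Polynomial.derivative_C,
    Polynomial.eval_one, Polynomial.eval_zero, Int.cast_natCast] at k
  rw [show (1 / 4 : ℝ) * 1 + -1 / 4 = 0 by norm_num, ← Polynomial.coeff_zero_eq_eval_zero,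
    Polynomial.coeff_derivative] at k
  norm_num at k
  linarith

namespace KC

/-- Walsh coefficient. -/
noncomputable def hat {a : ℕ} (X : (Fin a → Bool) → E) (T : Finset (Fin a)) : E :=
  ((2 : ℝ) ^ a)⁻¹ • ∑ ε, (∏ i ∈ T, sg (ε i)) • X ε

theorem expand {a : ℕ} (X Y : (Fin a → Bool) → E) (r : ℝ) :
    ∑ T : Finset (Fin a), ⟪hat Y T, hat X T⟫ * r ^ T.card = ((2 : ℝ) ^ a)⁻¹ * (((2 : ℝ) ^ a)⁻¹ *
      ∑ ε, ∑ ε', (∏ i, (1 + r * (sg (ε i) * sg (ε' i)))) * ⟪Y ε, X ε'⟫) := by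
  simp only [hat, inner_sum, sum_inner, real_inner_smul_left, real_inner_smul_right,
    Finset.prod_one_add, Finset.powerset_univ, Finset.prod_mul_distrib, Finset.prod_const,
    Finset.sum_mul, Finset.mul_sum]
  rw [Finset.sum_comm, Finset.sum_comm (s := Finset.univ) (t := Finset.univ)
    (f := fun ε ε' : Fin a → Bool => ∑ T : Finset (Fin a), _)]
  refine Finset.sum_congr rfl fun ε _ => ?_
  rw [Finset.sum_comm]
  exact Finset.sum_congr rfl fun ε' _ => Finset.sum_congr rfl fun T _ => by ring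

theorem mass {a : ℕ} (r : ℝ) (ε : Fin a → Bool) :
    ∑ ε' : Fin a → Bool, ∏ i, (1 + r * (sg (ε i) * sg (ε' i))) = 2 ^ a := by
  rw [← Fintype.piFinset_univ,
    ← Finset.prod_univ_sum (fun _ => Finset.univ) fun i b => 1 + r * (sg (ε i) * sg b)]
  have : ∀ i, ∑ b : Bool, (1 + r * (sg (ε i) * sg b)) = 2 := fun i => by
    simp [sg]
    ring
  simp only [this, Finset.prod_const, Finset.card_univ, Fintype.card_fin]

theorem nonneg {r : ℝ} (hr : |r| ≤ 1) (b c : Bool) : 0 ≤ 1 + r * (sg b * sg c) := by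
  obtain ⟨h1, h2⟩ := abs_le.1 hr
  cases b <;> cases c <;> simp [sg] <;> linarith

theorem bound {a : ℕ} {c : (Fin a → Bool) → (Fin a → Bool) → ℝ} {r B : ℝ} (hr : |r| ≤ 1)
    (h : ∀ ε ε', |c ε ε'| ≤ B) :
    |((2 : ℝ) ^ a)⁻¹ * (((2 : ℝ) ^ a)⁻¹ *
      ∑ ε, ∑ ε', (∏ i, (1 + r * (sg (ε i) * sg (ε' i)))) * c ε ε')| ≤ B := by
  have h2 : (0 : ℝ) < 2 ^ a := by positivity
  have k : |∑ ε, ∑ ε', (∏ i, (1 + r * (sg (ε i) * sg (ε' i)))) * c ε ε'| ≤ 2 ^ a * (2 ^ a * B) := by
    refine (Finset.abs_sum_le_sum_abs _ _).trans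
      ((Finset.sum_le_sum (g := fun _ => 2 ^ a * B) fun ε _ => ?_).trans (by simp))
    rw [← mass r ε, Finset.sum_mul]
    refine (Finset.abs_sum_le_sum_abs _ _).trans (Finset.sum_le_sum fun ε' _ => ?_)
    have h0 : 0 ≤ ∏ i, (1 + r * (sg (ε i) * sg (ε' i))) :=
      Finset.prod_nonneg fun i _ => nonneg hr _ _
    rw [abs_mul, abs_of_nonneg h0]
    exact mul_le_mul_of_nonneg_left (h ε ε') h0
  rw [abs_mul, abs_mul, abs_of_pos (inv_pos.2 h2), inv_mul_le_iff₀ h2, inv_mul_le_iff₀ h2]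
  exact k

theorem parseval {a : ℕ} {X : (Fin a → Bool) → E} {B : ℝ} (h : ∀ ε, ‖X ε‖ ≤ B) :
    ∑ T : Finset (Fin a), ‖hat X T‖ ^ 2 ≤ B ^ 2 := by
  have e := expand X X 1
  simp only [one_pow, mul_one, real_inner_self_eq_norm_sq] at e
  rw [e]
  refine (le_abs_self _).trans (bound (r := 1) (by simp) fun ε ε' => ?_)
  rw [pow_two]
  exact (abs_real_inner_le_norm _ _).trans
    (mul_le_mul (h _) (h _) (norm_nonneg _) ((norm_nonneg _).trans (h ε)))

end KC

/-- K-convexity. `f r = 4^(-a) ∑ ε ε', ∏ i (1 + r sg(ε i) sg(ε' i)) ⟪Y ε, X ε'⟫` has `|f r| ≤ 1`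
for `|r| ≤ 1` (nonnegative weights of total mass one). Expanding (`Finset.prod_one_add`),
`f r = ∑ T, r^|T| ⟪Yh T, Xh T⟫` with Walsh coefficients `Xh T = 2^(-a) ∑ ε (∏ i ∈ T, sg(ε i)) • X ε`;
Parseval (`∑ T ∏_{i∈T} sg(ε i) sg(ε' i) = 2^a [ε = ε']`) and Cauchy-Schwarz give
`∑ T |⟪Yh T, Xh T⟫| ≤ 2^l`. Truncate at `|T| ≤ l` and use `coeff_one_le`. -/
theorem kconv {a : ℕ} (X Y : (Fin a → Bool) → E) {l : ℕ} (hl : 1 ≤ l)
    (hXY : ∀ ε ε', |⟪Y ε, X ε'⟫| ≤ 1) (hX : ∀ ε, ‖X ε‖ ≤ 2 ^ l) (hY : ∀ ε, ‖Y ε‖ ≤ 1) :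
    ∑ i, ⟪wh Y i, wh X i⟫ ≤ 8 * (l : ℝ) ^ 2 := by
  classical
  have hs : ∑ T : Finset (Fin a), ‖KC.hat Y T‖ * ‖KC.hat X T‖ ≤ 2 ^ l := by
    refine le_of_sq_le_sq ((Finset.sum_mul_sq_le_sq_mul_sq _ _ _).trans ?_) (by positivity)
    have := mul_le_mul (KC.parseval hY) (KC.parseval hX)
      (Finset.sum_nonneg fun _ _ => sq_nonneg _) (sq_nonneg _)
    rwa [one_pow, one_mul] at this
  have k := coeff_one_le (∑ T ∈ Finset.univ.filter fun T : Finset (Fin a) => T.card ≤ l,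
    Polynomial.monomial T.card ⟪KC.hat Y T, KC.hat X T⟫) (l := l)
    (Polynomial.natDegree_sum_le_of_forall_le _ _ fun T hT =>
      (Polynomial.natDegree_monomial_le _).trans (Finset.mem_filter.1 hT).2) fun r hr => by
      have e := Finset.sum_filter_add_sum_filter_not Finset.univ
        (fun T : Finset (Fin a) => T.card ≤ l) fun T => ⟪KC.hat Y T, KC.hat X T⟫ * r ^ T.card
      have b1 := KC.bound (a := a) (r := r) (hr.trans (by norm_num)) hXY
      rw [← KC.expand, ← e] at b1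
      have b2 : |∑ T ∈ Finset.univ.filter fun T : Finset (Fin a) => ¬T.card ≤ l,
          ⟪KC.hat Y T, KC.hat X T⟫ * r ^ T.card| ≤ 1 := by
        refine (Finset.abs_sum_le_sum_abs _ _).trans ((Finset.sum_le_sum
          (g := fun T => ‖KC.hat Y T‖ * ‖KC.hat X T‖ * (1 / 2) ^ l) fun T hT => ?_).trans ?_)
        · rw [abs_mul, abs_pow]
          refine mul_le_mul (abs_real_inner_le_norm _ _) ?_ (by positivity) (by positivity)
          exact (pow_le_pow_left₀ (abs_nonneg r) hr _).trans (pow_le_pow_of_le_one (by norm_num)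
            (by norm_num) (not_le.1 (Finset.mem_filter.1 hT).2).le)
        · rw [← Finset.sum_mul]
          refine (mul_le_mul_of_nonneg_right ((Finset.sum_le_sum_of_subset_of_nonneg
            (Finset.filter_subset _ _) fun _ _ _ => by positivity).trans hs)
            (by positivity)).trans (le_of_eq ?_)
          rw [← mul_pow]
          norm_num
      simp only [Polynomial.eval_finsetSum, Polynomial.eval_monomial]
      rw [abs_le] at b1 b2 ⊢
      constructor <;> linarith [b1.1, b1.2, b2.1, b2.2]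
  refine le_of_eq_of_le ?_ k
  simp only [Polynomial.finsetSum_coeff, Polynomial.coeff_monomial]
  rw [← Finset.sum_filter, Finset.filter_filter]
  have : (Finset.univ.filter fun T : Finset (Fin a) => T.card ≤ l ∧ T.card = 1) =
      Finset.univ.map ⟨fun i => {i}, Finset.singleton_injective⟩ := by
    ext T
    simp only [Finset.mem_filter, Finset.mem_univ, true_and, Finset.mem_map,
      Function.Embedding.coeFn_mk]
    refine ⟨fun h => ?_, ?_⟩
    · obtain ⟨i, hi⟩ := Finset.card_eq_one.1 h.2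
      exact ⟨i, hi.symm⟩
    · rintro ⟨i, rfl⟩
      simpa using hl
  rw [this, Finset.sum_map]
  simp [KC.hat, wh]

end Vale.Agent.RM
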