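import Vale.Agent.RM.Cmp

open MeasureTheory ProbabilityTheory
open scoped RealInnerProductSpace Pointwise

namespace Vale.Agent.RM

variable {E : Type} [NormedAddCommGroup E] [InnerProductSpace ℝ E] [FiniteDimensional ℝ E]
  [MeasurableSpace E] [BorelSpace E]

theorem weak_l1_aux {a : ℕ} (σ : Fin a → ℝ) {B : ℝ} (hB : 0 ≤ B) :
    ∀ (n : ℕ) (S : Finset (Fin a)), S.card = n →
      (∀ s : ℝ, 0 < s → s * ((S.filter fun j => s ≤ σ j).card : ℝ) ≤ B) →
      ∑ j ∈ S, σ j ≤ B * (harmonic n : ℝ) := by
  intro n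
  induction n with
  | zero =>
    intro S hS _
    rw [Finset.card_eq_zero] at hS
    subst hS
    simp
  | succ n ih =>
    intro S hS h
    have hne : S.Nonempty := by
      rw [← Finset.card_pos]; omega
    obtain ⟨j0, hj0, hmin⟩ := S.exists_min_image σ hne
    have h1 : ∑ j ∈ S.erase j0, σ j ≤ B * (harmonic n : ℝ) := by
      refine ih (S.erase j0) (by rw [Finset.card_erase_of_mem hj0]; omega) ?_
      intro s hs
      refine le_trans ?_ (h s hs)
      refine mul_le_mul_of_nonneg_left ?_ hs.le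
      exact_mod_cast Finset.card_le_card
        (Finset.filter_subset_filter _ (Finset.erase_subset _ _))
    have hn : (0 : ℝ) < ((n + 1 : ℕ) : ℝ) := by positivity
    have h2 : σ j0 ≤ B * (((n + 1 : ℕ) : ℝ))⁻¹ := by
      rcases le_or_gt (σ j0) 0 with h0 | h0
      · exact h0.trans (by positivity)
      · have h3 := h (σ j0) h0
        rw [Finset.filter_true_of_mem (fun j hj => hmin j hj), hS] at h3
        rw [← div_eq_mul_inv, le_div_iff₀ hn]
        exact h3
    rw [← Finset.add_sum_erase S σ hj0, harmonic_succ]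
    push_cast at h2 ⊢
    nlinarith

/-- If the count `card {j | s ≤ σ j} * s ≤ B` for all `s > 0` then the `k`-th largest value is `≤ B/k`
(`Tuple.sort`, or induct on `a` removing the smallest value); `harmonic_le_one_add_log`. -/
theorem weak_l1 {a : ℕ} (σ : Fin a → ℝ) {B : ℝ} (hB : 0 ≤ B)
    (h : ∀ s : ℝ, 0 < s → s * ((Finset.univ.filter fun j => s ≤ σ j).card : ℝ) ≤ B) :
    ∑ j, σ j ≤ B * (Real.log a + 1) := by
  have h1 := weak_l1_aux σ hB a Finset.univ (by simp) h
  refine h1.trans (mul_le_mul_of_nonneg_left ?_ hB)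
  have := harmonic_le_one_add_log a
  linarith

/-- Marginal of the product Gaussian on an injective family of coordinates. -/
theorem gp_marginal {a d : ℕ} (k : Fin d → Fin a) (hk : Function.Injective k) :
    (gp a).map (fun g : Fin a → ℝ => fun j => g (k j)) = gp d := by
  have h1 : iIndepFun (fun (i : Fin a) (ω : Fin a → ℝ) => ω i) (gp a) :=
    iIndepFun_pi (μ := fun _ : Fin a => gaussianReal 0 1) (X := fun _ => id)
      (fun _ => aemeasurable_id)
  have h2 := h1.precomp hk
  rw [iIndepFun_iff_map_fun_eq_pi_map (fun j => (measurable_pi_apply (k j)).aemeasurable)] at h2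
  rw [h2]
  refine congrArg Measure.pi (funext fun j => ?_)
  exact (measurePreserving_eval (fun _ : Fin a => gaussianReal 0 1) (k j)).map_eq

theorem int_onb {a : ℕ} (b : OrthonormalBasis (Fin a) ℝ E) {F : E → ℝ} (hF : Continuous F) :
    ∫ g, F (∑ i, g i • b i) ∂(gp a) = ∫ x, F x ∂(stdGaussian E) := by
  rw [stdGaussian_eq_map_pi_orthonormalBasis b, integral_map
    (Measurable.aemeasurable (by fun_prop)) hF.aestronglyMeasurable]

/-- Let `A` be the linear map with `A (e i) = v i`, `f` an eigenvector basis of `A† A`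
(`LinearMap.IsSymmetric.eigenvectorBasis`), `σ j = ‖A (f j)‖`; the `A (f j)` are orthogonal.
`∑ ⟪e i, A e i⟫ = trace A = ∑ ⟪f j, A f j⟫ ≤ ∑ σ j`. Both `∑ g i • e i` and `∑ g j • f j` have law
`stdGaussian E`, so `∫ N (∑ g j • A f j) ≤ κ`. For `s > 0`, `T = {j | s ≤ σ j}` nonempty:
`gp_contr` with `c j = s/σ j` on `T`, `0` off `T`, and the marginal on `T`
(`T.orderEmbOfFin`, `measurePreserving_piFinsetUnion` or `Measure.pi` restriction) give
`∫ N ((s/κ) • ∑ g j • u j) ≤ 1` with `u j = A f j / σ j`. Conclude with `weak_l1`. -/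
theorem trace_le {N : E → ℝ} {R : ℝ} (h : SubL N R) {a : ℕ} (e : OrthonormalBasis (Fin a) ℝ E)
    (v : Fin a → E) {κ B : ℝ} (hκ : 0 < κ) (hB : 0 ≤ B)
    (hv : ∫ g, N (∑ i, g i • v i) ∂(gp a) ≤ κ)
    (H : ∀ (d : ℕ) (u : Fin d → E) (s : ℝ), 1 ≤ d → Orthonormal ℝ u → 0 < s →
      ∫ g : Fin d → ℝ, N (s • ∑ j, g j • u j) ∂(gp d) ≤ 1 → s * d ≤ B) :
    ∑ i, ⟪e i, v i⟫ ≤ κ * B * (Real.log a + 1) := by
  classical
  set A : E →ₗ[ℝ] E := e.toBasis.constr ℝ v with hA
  have hAe : ∀ i, A (e i) = v i := fun i => by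
    have := e.toBasis.constr_basis ℝ v i
    rw [OrthonormalBasis.coe_toBasis] at this
    exact this
  have hn : Module.finrank ℝ E = a := by
    rw [Module.finrank_eq_card_basis e.toBasis, Fintype.card_fin]
  have hT := LinearMap.isSymmetric_adjoint_comp_self A
  set f := hT.eigenvectorBasis hn with hf
  have horth : ∀ i j, i ≠ j → ⟪A (f i), A (f j)⟫ = 0 := by
    intro i j hij
    have h1 := hT.apply_eigenvectorBasis hn j
    rw [← hf, LinearMap.comp_apply] at h1
    rw [← LinearMap.adjoint_inner_right, h1, inner_smul_right, f.orthonormal.2 hij, mul_zero]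
  set σ : Fin a → ℝ := fun j => ‖A (f j)‖ with hσ
  have htr : ∑ i, ⟪e i, v i⟫ ≤ ∑ j, σ j := by
    have h1 : ∑ i, ⟪e i, v i⟫ = ∑ j, ⟪f j, A (f j)⟫ := by
      rw [← LinearMap.trace_eq_sum_inner A f, LinearMap.trace_eq_sum_inner A e]
      exact Finset.sum_congr rfl fun i _ => by rw [hAe]
    rw [h1]
    refine Finset.sum_le_sum fun j _ => ?_
    have := real_inner_le_norm (f j) (A (f j))
    rw [f.orthonormal.1 j, one_mul] at this
    exact this
  have hAc : Continuous A := A.continuous_of_finiteDimensional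
  have hNc : Continuous N := h.continuous
  have hint : ∫ g, N (∑ j, g j • A (f j)) ∂(gp a) ≤ κ := by
    have h1 := int_onb e (F := fun x => N (A x)) (hNc.comp hAc)
    have h2 := int_onb f (F := fun x => N (A x)) (hNc.comp hAc)
    simp only [map_sum, map_smul, hAe] at h1 h2
    rw [h2, ← h1]
    exact hv
  refine htr.trans ?_
  refine weak_l1 σ (mul_nonneg hκ.le hB) ?_
  intro s hs
  set T := Finset.univ.filter fun j => s ≤ σ j with hTdef
  rcases Nat.eq_zero_or_pos T.card with h0 | h0
  · rw [h0]; simpa using mul_nonneg hκ.le hB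
  set k : Fin T.card → Fin a := fun j => T.orderEmbOfFin rfl j with hk
  have hkinj : Function.Injective k := (T.orderEmbOfFin rfl).injective
  have hkT : ∀ j, s ≤ σ (k j) := fun j => by
    exact (Finset.mem_filter.1 (T.orderEmbOfFin_mem rfl j)).2
  have hσpos : ∀ j, 0 < σ (k j) := fun j => hs.trans_le (hkT j)
  set u : Fin T.card → E := fun j => (σ (k j))⁻¹ • A (f (k j)) with hu
  have huo : Orthonormal ℝ u := by
    refine ⟨fun j => ?_, fun i j hij => ?_⟩
    · have h1 := hσpos j
      simp only [hu, norm_smul, norm_inv, Real.norm_eq_abs, abs_of_pos h1]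
      exact inv_mul_cancel₀ h1.ne'
    · simp only [hu, inner_smul_left, inner_smul_right]
      rw [horth _ _ (hkinj.ne hij)]
      simp
  set c : Fin a → ℝ := fun j => if s ≤ σ j then s / σ j else 0 with hc
  have hc1 : ∀ j, |c j| ≤ 1 := by
    intro j
    simp only [hc]
    split_ifs with hj
    · have h1 : 0 < σ j := hs.trans_le hj
      rw [abs_of_nonneg (by positivity), div_le_one h1]
      exact hj
    · simp
  have hcontr := gp_contr h (fun j => A (f j)) c hc1
  have hsum : ∀ g : Fin a → ℝ,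
      ∑ i, (c i * g i) • A (f i) = s • ∑ j, g (k j) • u j := by
    intro g
    have h1 : ∑ i, (c i * g i) • A (f i) = ∑ i ∈ T, (c i * g i) • A (f i) := by
      symm
      refine Finset.sum_subset (Finset.subset_univ _) ?_
      intro i _ hi
      rw [hTdef, Finset.mem_filter] at hi
      have : ¬ s ≤ σ i := fun h' => hi ⟨Finset.mem_univ _, h'⟩
      simp only [hc, if_neg this, zero_mul, zero_smul]
    have h2 : T = Finset.univ.map ⟨k, hkinj⟩ := by
      ext i
      simp only [Finset.mem_map, Finset.mem_univ, true_and, Function.Embedding.coeFn_mk]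
      constructor
      · intro hi
        have : i ∈ Set.range (T.orderEmbOfFin rfl) := by
          rw [Finset.range_orderEmbOfFin]; exact hi
        exact this
      · rintro ⟨j, rfl⟩
        exact T.orderEmbOfFin_mem rfl j
    rw [h1, Finset.smul_sum]
    refine (Finset.sum_congr h2 (fun _ _ => rfl)).trans ?_
    rw [Finset.sum_map]
    refine Finset.sum_congr rfl fun j _ => ?_
    simp only [Function.Embedding.coeFn_mk, hu, hc, if_pos (hkT j), smul_smul]
    congr 1
    rw [div_eq_mul_inv]; ring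
  simp only [hsum] at hcontr
  have hmarg : ∫ g : Fin a → ℝ, N (s • ∑ j, g (k j) • u j) ∂(gp a)
      = ∫ g : Fin T.card → ℝ, N (s • ∑ j, g j • u j) ∂(gp T.card) := by
    rw [← gp_marginal k hkinj, integral_map (Measurable.aemeasurable (by fun_prop))]
    exact (hNc.comp (by fun_prop)).aestronglyMeasurable
  have hH := H T.card u (s / κ) h0 huo (div_pos hs hκ) ?_
  · rw [div_mul_eq_mul_div, div_le_iff₀ hκ] at hH
    linarith
  · have h1 : ∀ g : Fin T.card → ℝ, N ((s / κ) • ∑ j, g j • u j)
        = κ⁻¹ * N (s • ∑ j, g j • u j) := by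
      intro g
      rw [div_eq_inv_mul, mul_smul, h.2.2.1, abs_of_pos (inv_pos.2 hκ)]
    simp only [h1]
    rw [integral_const_mul, ← hmarg, inv_mul_le_iff₀ hκ, mul_one]
    exact hcontr.trans hint

end Vale.Agent.RM
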