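import Vale.Agent.RM.Defs

open MeasureTheory ProbabilityTheory
open scoped RealInnerProductSpace Pointwise

namespace Vale.Agent.RM

variable {E : Type} [NormedAddCommGroup E] [InnerProductSpace ℝ E] [FiniteDimensional ℝ E]
  [MeasurableSpace E] [BorelSpace E]

omit [FiniteDimensional ℝ E] [MeasurableSpace E] [BorelSpace E] in
theorem sup_bdd {S : Set E} {R : ℝ} (h : SymB S R) (x : E) :
    BddAbove ((fun ξ => ⟪ξ, x⟫) '' S) := by
  refine ⟨R * ‖x‖, ?_⟩
  rintro _ ⟨ξ, hξ, rfl⟩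
  exact (real_inner_le_norm ξ x).trans (mul_le_mul_of_nonneg_right (h.2.2 ξ hξ) (norm_nonneg x))

theorem le_supf {S : Set E} {R : ℝ} (h : SymB S R) {ξ : E} (hξ : ξ ∈ S) (x : E) :
    ⟪ξ, x⟫ ≤ supf S x := by
  exact le_csSup (sup_bdd h x) (Set.mem_image_of_mem _ hξ)

theorem supf_le {S : Set E} {R : ℝ} (h : SymB S R) {x : E} {c : ℝ} (hc : ∀ ξ ∈ S, ⟪ξ, x⟫ ≤ c) :
    supf S x ≤ c := by
  refine csSup_le ⟨_, Set.mem_image_of_mem _ h.1⟩ ?_
  rintro _ ⟨ξ, hξ, rfl⟩
  exact hc ξ hξ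

theorem supf_near {S : Set E} {R : ℝ} (h : SymB S R) (x : E) {e : ℝ} (he : 0 < e) :
    ∃ ξ ∈ S, supf S x ≤ ⟪ξ, x⟫ + e := by
  obtain ⟨_, ⟨ξ, hξ, rfl⟩, hlt⟩ := exists_lt_of_lt_csSup
    (⟨_, Set.mem_image_of_mem _ h.1⟩ : ((fun ξ => ⟪ξ, x⟫) '' S).Nonempty)
    (sub_lt_self (supf S x) he)
  exact ⟨ξ, hξ, by linarith⟩

theorem supf_subL {S : Set E} {R : ℝ} (h : SymB S R) : SubL (supf S) R := by
  have h0 : ∀ x, 0 ≤ supf S x := fun x => by simpa using le_supf h h.1 x
  have h1 : ∀ (c : ℝ) x, supf S (c • x) ≤ |c| * supf S x := fun c x => by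
    refine supf_le h fun ξ hξ => ?_
    have h2 : |⟪ξ, x⟫| ≤ supf S x := abs_le'.2 ⟨le_supf h hξ x, by
      simpa using le_supf h (h.2.1 ξ hξ) x⟩
    rw [real_inner_smul_right]
    exact (le_abs_self _).trans
      ((abs_mul _ _).le.trans (mul_le_mul_of_nonneg_left h2 (abs_nonneg _)))
  refine ⟨h0, fun x y => supf_le h fun ξ hξ => ?_, fun c x => le_antisymm (h1 c x) ?_,
    fun x => supf_le h fun ξ hξ => ?_⟩
  · rw [inner_add_right]
    exact add_le_add (le_supf h hξ x) (le_supf h hξ y)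
  · rcases eq_or_ne c 0 with rfl | hc
    · simpa using h0 0
    · have h2 := h1 c⁻¹ (c • x)
      rw [inv_smul_smul₀ hc, abs_inv] at h2
      exact (le_inv_mul_iff₀ (abs_pos.2 hc)).1 h2
  · exact (real_inner_le_norm ξ x).trans
      (mul_le_mul_of_nonneg_right (h.2.2 ξ hξ) (norm_nonneg x))

theorem mem_pol_iff {S : Set E} {R : ℝ} (h : SymB S R) (x : E) : x ∈ pol S ↔ supf S x ≤ 1 := by
  exact ⟨fun hx => supf_le h hx, fun hx ξ hξ => (le_supf h hξ x).trans hx⟩

theorem isClosed_pol (S : Set E) : IsClosed (pol S) := by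
  have : pol S = ⋂ ξ ∈ S, {x | ⟪ξ, x⟫ ≤ 1} := by
    ext x; simp [pol]
  rw [this]
  exact isClosed_biInter fun ξ _ => isClosed_le (by fun_prop) continuous_const

theorem convex_pol (S : Set E) : Convex ℝ (pol S) := by
  intro x hx y hy a b ha hb hab ξ hξ
  rw [inner_add_right, real_inner_smul_right, real_inner_smul_right]
  nlinarith [hx ξ hξ, hy ξ hξ]

theorem neg_mem_pol {S : Set E} {R : ℝ} (h : SymB S R) {x : E} (hx : x ∈ pol S) :
    -x ∈ pol S := by
  intro ξ hξ
  simpa using hx _ (h.2.1 ξ hξ)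

theorem ball_subset_pol {S : Set E} (h : SymB S 1) : Metric.closedBall (0 : E) 1 ⊆ pol S := by
  intro x hx ξ hξ
  exact (real_inner_le_norm ξ x).trans
    (mul_le_one₀ (h.2.2 ξ hξ) (norm_nonneg x) (mem_closedBall_zero_iff.1 hx))

theorem SubL.continuous {N : E → ℝ} {R : ℝ} (h : SubL N R) : Continuous N := by
  refine (LipschitzWith.of_le_add_mul' R fun x y => ?_).continuous
  have h1 := h.2.1 y (x - y)
  rw [add_sub_cancel] at h1
  rw [dist_eq_norm]
  exact h1.trans (add_le_add le_rfl (h.2.2.2 _))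

theorem SubL.sum_le {N : E → ℝ} {R : ℝ} (h : SubL N R) {ι : Type} (s : Finset ι) (c : ι → ℝ)
    (hc : ∀ i ∈ s, 0 ≤ c i) (x : ι → E) : N (∑ i ∈ s, c i • x i) ≤ ∑ i ∈ s, c i * N (x i) := by
  classical
  induction s using Finset.induction_on with
  | empty => simpa using h.2.2.2 0
  | insert a s ha ih =>
    rw [Finset.sum_insert ha, Finset.sum_insert ha]
    refine (h.2.1 _ _).trans (add_le_add ?_ (ih fun i hi => hc i (Finset.mem_insert_of_mem hi)))
    rw [h.2.2.1, abs_of_nonneg (hc a (Finset.mem_insert_self a s))]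

theorem SubL.integrable_gp {N : E → ℝ} {R : ℝ} (h : SubL N R) {d : ℕ} (v : Fin d → E) :
    Integrable (fun g : Fin d → ℝ => N (∑ j, g j • v j)) (gp d) := by
  have h1 : Integrable (fun g : Fin d → ℝ => ∑ j, g j • v j) (gp d) :=
    integrable_finsetSum _ fun j _ =>
      (integrable_eval (μ := fun _ : Fin d => gaussianReal 0 1) (i := j)
        IsGaussian.integrable_id).smul_const (v j)
  refine (h1.norm.const_mul R).mono' (h.continuous.comp (by fun_prop)).aestronglyMeasurable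
    (ae_of_all _ fun g => ?_)
  rw [Real.norm_of_nonneg (h.1 _)]
  exact h.2.2.2 _

theorem SubL.integrable_std {N : E → ℝ} {R : ℝ} (h : SubL N R) :
    Integrable N (stdGaussian E) := by
  have h1 : Integrable (fun x : E => x) (stdGaussian E) := IsGaussian.integrable_id
  refine (h1.norm.const_mul R).mono' h.continuous.aestronglyMeasurable (ae_of_all _ fun g => ?_)
  rw [Real.norm_of_nonneg (h.1 _)]
  exact h.2.2.2 _

theorem integral_abs_gp : ∫ g : Fin 1 → ℝ, |g 0| ∂(gp 1) ≤ 1 := by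
  rw [integral_comp_eval (μ := fun _ : Fin 1 => gaussianReal 0 1) (i := 0) (f := fun x => |x|)
    continuous_abs.aestronglyMeasurable]
  have h2 : MemLp (fun x : ℝ => x) 2 (gaussianReal 0 1) := memLp_id_gaussianReal' 2 (by simp)
  have h1 : ∫ x, x ^ 2 ∂(gaussianReal 0 1) = 1 := by
    have := variance_fun_id_gaussianReal (μ := 0) (v := 1)
    rw [variance_of_integral_eq_zero aemeasurable_id' integral_id_gaussianReal] at this
    simpa using this
  have h3 : ∫ x, |x| ∂(gaussianReal 0 1) ≤ ∫ x, (1 / 2 + 1 / 2 * x ^ 2) ∂(gaussianReal 0 1) :=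
    integral_mono (h2.integrable one_le_two).abs
      ((integrable_const _).add (h2.integrable_sq.const_mul _)) fun x => by
        have := sq_nonneg (|x| - 1)
        have := sq_abs x
        simp only
        nlinarith
  rw [integral_add (integrable_const _) (h2.integrable_sq.const_mul _), integral_const_mul, h1]
    at h3
  simp only [integral_const, probReal_univ, smul_eq_mul] at h3
  linarith

end Vale.Agent.RM
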