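import Vale.Agent.RM.Step
import Vale.Agent.RM.Sup

open MeasureTheory ProbabilityTheory
open scoped RealInnerProductSpace Pointwise

namespace Vale.Agent.RM

variable {E : Type} [NormedAddCommGroup E] [InnerProductSpace ℝ E]

/-- The normalised Wills weight. -/
noncomputable def willsF (K : Set E) (c : ℝ) (z : E) : ℝ :=
  (Real.sqrt (2 * Real.pi))⁻¹ ^ (Module.finrank ℝ E) *
    Real.exp (-(Metric.infDist z (c • K)) ^ 2 / 2)

theorem wills_nonneg (K : Set E) (c : ℝ) (z : E) : 0 ≤ willsF K c z := by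
  unfold willsF; positivity

theorem wills_cont (K : Set E) (c : ℝ) : Continuous (willsF K c) := by
  have := Metric.continuous_infDist_pt (c • K)
  unfold willsF
  fun_prop

theorem wills_half {K : Set E} (h0 : (0 : E) ∈ K) (c : ℝ) (x y : E) :
    Metric.infDist ((1 / 2 : ℝ) • (x + y)) ((c / 2) • K) ≤
      (Metric.infDist x (c • K) + ‖y‖) / 2 := by
  have hne : (c • K).Nonempty := ⟨_, Set.smul_mem_smul_set h0⟩
  have : 2 * Metric.infDist ((1 / 2 : ℝ) • (x + y)) ((c / 2) • K) - ‖y‖ ≤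
      Metric.infDist x (c • K) := by
    refine (Metric.le_infDist hne).2 ?_
    rintro _ ⟨k, hk, rfl⟩
    have h1 : Metric.infDist ((1 / 2 : ℝ) • (x + y)) ((c / 2) • K) ≤
        dist ((1 / 2 : ℝ) • (x + y)) ((c / 2) • k) :=
      Metric.infDist_le_dist_of_mem (Set.smul_mem_smul_set hk)
    have e : (1 / 2 : ℝ) • (x + y) - (c / 2) • k = (1 / 2 : ℝ) • ((x - c • k) + y) := by
      module
    rw [dist_eq_norm, e, norm_smul, Real.norm_of_nonneg (by norm_num)] at h1
    simp only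
    rw [dist_eq_norm]
    linarith [norm_add_le (x - c • k) y]
  linarith

theorem wills_mid {K : Set E} (h0 : (0 : E) ∈ K) (c : ℝ) (x y : E) :
    willsF K c x * dens y ≤ willsF K (c / 2) ((1 / 2 : ℝ) • (x + y)) ^ 2 := by
  have h1 := pow_le_pow_left₀ Metric.infDist_nonneg (wills_half h0 c x y) 2
  have h2 : Real.exp (-(Metric.infDist x (c • K)) ^ 2 / 2) * Real.exp (-‖y‖ ^ 2 / 2) ≤
      Real.exp (-(Metric.infDist ((1 / 2 : ℝ) • (x + y)) ((c / 2) • K)) ^ 2 / 2) ^ 2 := by
    rw [pow_two (Real.exp _), ← Real.exp_add, ← Real.exp_add]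
    refine Real.exp_le_exp.2 ?_
    nlinarith [sq_nonneg (Metric.infDist x (c • K) - ‖y‖)]
  simp only [willsF, dens]
  rw [mul_pow, mul_mul_mul_comm, ← pow_two]
  exact mul_le_mul_of_nonneg_left h2 (by positivity)

theorem wills_exp_le {t : ℝ} (ht : 0 ≤ t) : Real.exp t ≤ 1 + t + t ^ 2 * Real.exp t := by
  have h1 : Real.exp t ≤ 1 + t * Real.exp t := by
    have h2 := mul_le_mul_of_nonneg_right (Real.add_one_le_exp (-t)) (Real.exp_pos t).le
    rw [← Real.exp_add, neg_add_cancel, Real.exp_zero] at h2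
    linarith
  nlinarith [mul_le_mul_of_nonneg_left h1 ht]

theorem wills_exp_norm (r s : ℝ) :
    Real.exp (r * s) ≤ Real.exp (r ^ 2) * Real.exp (1 / 4 * s ^ 2) := by
  rw [← Real.exp_add]
  exact Real.exp_le_exp.2 (by nlinarith [sq_nonneg (r - s / 2)])

variable [FiniteDimensional ℝ E] [MeasurableSpace E] [BorelSpace E]

theorem wills_le {K : Set E} {R : ℝ} (hK : SymB K R) {δ : ℝ} (hδ : 0 ≤ δ) (z : E) :
    willsF K δ z ≤ dens z * Real.exp (δ * supf K z) := by
  have hne : (δ • K).Nonempty := ⟨_, Set.smul_mem_smul_set hK.1⟩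
  have h1 : Real.sqrt (‖z‖ ^ 2 - 2 * (δ * supf K z)) ≤ Metric.infDist z (δ • K) := by
    refine (Metric.le_infDist hne).2 ?_
    rintro _ ⟨k, hk, rfl⟩
    refine Real.sqrt_le_iff.2 ⟨dist_nonneg, ?_⟩
    simp only
    rw [dist_eq_norm, norm_sub_sq_real, real_inner_smul_right, real_inner_comm]
    nlinarith [mul_le_mul_of_nonneg_left (le_supf hK hk z) hδ, sq_nonneg ‖δ • k‖]
  have h2 := (Real.sqrt_le_iff.1 h1).2
  simp only [willsF, dens]
  rw [mul_assoc, ← Real.exp_add]
  exact mul_le_mul_of_nonneg_left (Real.exp_le_exp.2 (by linarith)) (by positivity)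

theorem wills_int_exp {K : Set E} {R : ℝ} (hK : SymB K R) {δ : ℝ} (hδ : 0 ≤ δ) :
    Integrable (fun z => Real.exp (δ * supf K z)) (stdGaussian E) := by
  have hN := supf_subL hK
  refine ((integrable_exp_normsq (E := E) (c := 1 / 4) (by norm_num)).const_mul
    (Real.exp ((δ * R) ^ 2))).mono' ?_ (ae_of_all _ fun z => ?_)
  · have := hN.continuous
    exact Continuous.aestronglyMeasurable (by fun_prop)
  · rw [Real.norm_of_nonneg (Real.exp_pos _).le]
    refine le_trans (Real.exp_le_exp.2 ?_) (wills_exp_norm (δ * R) ‖z‖)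
    rw [mul_assoc]
    exact mul_le_mul_of_nonneg_left (hN.2.2.2 z) hδ

theorem wills_int {K : Set E} {R : ℝ} (hK : SymB K R) {δ : ℝ} (hδ : 0 ≤ δ) :
    Integrable (willsF K δ) := by
  refine ((integrable_std_iff _).1 (wills_int_exp hK hδ)).mono'
    (wills_cont K δ).aestronglyMeasurable (ae_of_all _ fun z => ?_)
  rw [Real.norm_of_nonneg (wills_nonneg _ _ _)]
  exact wills_le hK hδ z

theorem wills_step {K : Set E} {R : ℝ} (hK : SymB K R) {c : ℝ} (hc : 0 ≤ c) :
    ∫ z, willsF K c z ≤ (∫ z, willsF K (c / 2) z) ^ 2 := by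
  obtain ⟨i1, e1⟩ := integral_dens_smul (E := E) (c := 1) one_pos
  simp only [one_smul, inv_one, one_pow] at i1 e1
  have a1 := ofReal_integral_eq_lintegral_ofReal (wills_int hK hc)
    (ae_of_all _ (wills_nonneg K c))
  have a2 := ofReal_integral_eq_lintegral_ofReal i1 (ae_of_all _ fun x => (dens_pos x).le)
  have a3 := ofReal_integral_eq_lintegral_ofReal (wills_int hK (δ := c / 2) (by linarith))
    (ae_of_all _ (wills_nonneg K _))
  have h := pl_mid (fun z => ENNReal.ofReal (willsF K c z)) (fun z => ENNReal.ofReal (dens z))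
    (fun z => ENNReal.ofReal (willsF K (c / 2) z)) (wills_cont K c).measurable.ennreal_ofReal
    continuous_dens.measurable.ennreal_ofReal (wills_cont K _).measurable.ennreal_ofReal
    (by rw [← a1]; exact ENNReal.ofReal_ne_top) (by rw [← a2]; exact ENNReal.ofReal_ne_top)
    (fun x y => by
      rw [← ENNReal.ofReal_mul (wills_nonneg _ _ _), ← ENNReal.ofReal_pow (wills_nonneg _ _ _)]
      exact ENNReal.ofReal_le_ofReal (wills_mid hK.1 c x y))
  rw [← a1, ← a2, ← a3, e1, ENNReal.ofReal_one, mul_one,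
    ← ENNReal.ofReal_pow (integral_nonneg (wills_nonneg K _))] at h
  exact (ENNReal.ofReal_le_ofReal_iff (sq_nonneg _)).1 h

theorem wills_iter {K : Set E} {R : ℝ} (hK : SymB K R) {c : ℝ} (hc : 0 ≤ c) (k : ℕ) :
    ∫ z, willsF K c z ≤ (∫ z, willsF K (c / 2 ^ k) z) ^ (2 ^ k) := by
  induction k with
  | zero => simp
  | succ k ih =>
    refine ih.trans ?_
    have h := wills_step hK (c := c / 2 ^ k) (by positivity)
    rw [div_div, ← pow_succ] at h
    rw [pow_succ' (2 : ℕ) k, pow_mul]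
    exact pow_le_pow_left₀ (integral_nonneg (wills_nonneg K _)) h _

theorem wills_small {K : Set E} {R : ℝ} (hK : SymB K R) {w : ℝ}
    (hw : ∫ x, supf K x ∂(stdGaussian E) ≤ w) :
    ∃ M : ℝ, ∀ δ : ℝ, 0 ≤ δ → δ ≤ 1 → ∫ z, willsF K δ z ≤ Real.exp (δ * w + δ ^ 2 * M) := by
  have hN := supf_subL hK
  have iG := (integrable_exp_normsq (E := E) (c := 1 / 4) (by norm_num)).const_mul
    (2 * Real.exp ((2 * R) ^ 2))
  refine ⟨∫ z, 2 * Real.exp ((2 * R) ^ 2) * Real.exp (1 / 4 * ‖z‖ ^ 2) ∂(stdGaussian E),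
    fun δ h0 h1 => ?_⟩
  have i1 := wills_int_exp hK h0
  have s1 : ∫ z, willsF K δ z ≤ ∫ z, Real.exp (δ * supf K z) ∂(stdGaussian E) := by
    have e := setIntegral_std (E := E) Set.univ MeasurableSet.univ
      fun z => Real.exp (δ * supf K z)
    rw [Measure.restrict_univ, Measure.restrict_univ] at e
    rw [e]
    exact integral_mono (wills_int hK h0) ((integrable_std_iff _).1 i1) (wills_le hK h0)
  have j1 : Integrable (fun z => 1 + δ * supf K z) (stdGaussian E) :=
    (integrable_const 1).add (hN.integrable_std.const_mul δ)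
  have s2 := integral_mono i1 (j1.add (iG.const_mul (δ ^ 2))) (fun z => by
    have n0 := hN.1 z
    have a1 := wills_exp_le (mul_nonneg h0 n0)
    have a2 : Real.exp (δ * supf K z) ≤ Real.exp (supf K z) :=
      Real.exp_le_exp.2 (mul_le_of_le_one_left n0 h1)
    have a3 : supf K z ^ 2 / 2 ≤ Real.exp (supf K z) := by
      simpa using Real.pow_div_factorial_le_exp _ n0 2
    have a4 : Real.exp (supf K z) * Real.exp (supf K z) ≤
        Real.exp ((2 * R) ^ 2) * Real.exp (1 / 4 * ‖z‖ ^ 2) := by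
      refine le_trans ?_ (wills_exp_norm (2 * R) ‖z‖)
      rw [← Real.exp_add]
      exact Real.exp_le_exp.2 (by linarith [hN.2.2.2 z])
    have a5 : supf K z ^ 2 * Real.exp (δ * supf K z) ≤
        2 * Real.exp ((2 * R) ^ 2) * Real.exp (1 / 4 * ‖z‖ ^ 2) := by
      have := mul_le_mul a3 a2 (Real.exp_pos _).le (Real.exp_pos _).le
      linarith
    simp only [Pi.add_apply]
    nlinarith [mul_le_mul_of_nonneg_left a5 (sq_nonneg δ)])
  rw [integral_add' j1 (iG.const_mul _), integral_add (integrable_const 1)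
    (hN.integrable_std.const_mul δ), integral_const_mul, integral_const_mul (δ ^ 2)] at s2
  simp only [integral_const, probReal_univ, smul_eq_mul, mul_one] at s2
  refine le_trans ?_ (Real.add_one_le_exp _)
  linarith [mul_le_mul_of_nonneg_left hw h0]

theorem wills_total {K : Set E} {R : ℝ} (hK : SymB K R) {w c : ℝ} (hc : 0 < c)
    (hw : ∫ x, supf K x ∂(stdGaussian E) ≤ w) : ∫ z, willsF K c z ≤ Real.exp (c * w) := by
  obtain ⟨M, hM⟩ := wills_small hK hw
  have t0 : Filter.Tendsto (fun k : ℕ => c / 2 ^ k) Filter.atTop (nhds 0) :=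
    Filter.Tendsto.const_div_atTop (tendsto_pow_atTop_atTop_of_one_lt one_lt_two) c
  have t1 : Filter.Tendsto (fun k : ℕ => Real.exp (c * w + c / 2 ^ k * (c * M))) Filter.atTop
      (nhds (Real.exp (c * w + 0 * (c * M)))) :=
    (Real.continuous_exp.tendsto _).comp ((t0.mul_const _).const_add _)
  rw [zero_mul, add_zero] at t1
  refine ge_of_tendsto t1 ?_
  filter_upwards [t0.eventually (ge_mem_nhds one_pos)] with k hk
  refine (wills_iter hK hc.le k).trans ((pow_le_pow_left₀ (integral_nonneg (wills_nonneg K _))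
    (hM _ (by positivity) hk) _).trans (le_of_eq ?_))
  rw [← Real.exp_nat_mul]
  congr 1
  push_cast
  field_simp

/-- `W c = ∫ exp(-infDist z (c • K)²/2) dz`. `pl_mid` gives `W c * W 0 ≤ W (c/2)²`
(`W 0 = ∫ exp(-‖z‖²/2)`; `infDist ((x+y)/2) ((c/2)•K) ≤ (infDist x (c•K) + ‖y‖)/2`), hence
`W c / W 0 ≤ (W (c/2^k) / W 0)^(2^k)`. Also `‖z‖² - infDist z (δ•K)² ≤ 2 δ supf K z`, so
`W δ / W 0 ≤ ∫ exp(δ supf K) dγ ≤ 1 + δ w + δ² M ≤ exp(δ w + δ² M)` for `δ ≤ 1` with
`M = ∫ R²‖z‖² exp(R‖z‖) dγ` finite. Let `k → ∞`: `vol (c • K) ≤ W c ≤ √(2π)^a exp(c w)`. -/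
theorem wills_exp {K : Set E} {R : ℝ} (hK : SymB K R) (hcl : IsClosed K) {w c : ℝ} (hc : 0 < c)
    (hw : ∫ x, supf K x ∂(stdGaussian E) ≤ w) :
    volume (c • K) ≤
      ENNReal.ofReal (Real.sqrt (2 * Real.pi) ^ (Module.finrank ℝ E) * Real.exp (c * w)) := by
  have hp : 0 < Real.sqrt (2 * Real.pi) := Real.sqrt_pos.2 (by positivity)
  have i1 := (wills_int hK hc.le).const_mul (Real.sqrt (2 * Real.pi) ^ (Module.finrank ℝ E))
  have h1 : volume (c • K) ≤ ∫⁻ z, ENNReal.ofReal
      (Real.sqrt (2 * Real.pi) ^ (Module.finrank ℝ E) * willsF K c z) := by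
    refine meas_le_lintegral₀ i1.aemeasurable.ennreal_ofReal fun z hz => ?_
    simp only [willsF]
    rw [Metric.infDist_zero_of_mem hz, ← mul_assoc, ← mul_pow, mul_inv_cancel₀ hp.ne']
    simp
  rw [← ofReal_integral_eq_lintegral_ofReal i1
    (ae_of_all _ fun z => mul_nonneg (by positivity) (wills_nonneg K c z)),
    integral_const_mul] at h1
  exact h1.trans (ENNReal.ofReal_le_ofReal
    (mul_le_mul_of_nonneg_left (wills_total hK hc hw) (by positivity)))

/-- Take `c = a / w` (`Measure.addHaar_smul`), `√(2π) e ≤ 7`. -/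
theorem wills {K : Set E} {R : ℝ} (hK : SymB K R) (hcl : IsClosed K) {w : ℝ} (hw0 : 0 < w)
    (ha : 1 ≤ Module.finrank ℝ E) (hw : ∫ x, supf K x ∂(stdGaussian E) ≤ w) :
    volume K ≤ ENNReal.ofReal ((7 * w / Module.finrank ℝ E) ^ (Module.finrank ℝ E)) := by
  have ha' : (0 : ℝ) < Module.finrank ℝ E := by exact_mod_cast ha
  have hc : 0 < (Module.finrank ℝ E : ℝ) / w := by positivity
  have h := wills_exp hK hcl hc hw
  have e : K = (w / Module.finrank ℝ E) • ((Module.finrank ℝ E : ℝ) / w) • K := by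
    rw [smul_smul, div_mul_div_cancel₀ ha'.ne', div_self hw0.ne', one_smul]
  have h7 : Real.sqrt (2 * Real.pi) * Real.exp 1 ≤ 7 := by
    have a1 : Real.sqrt (2 * Real.pi) ≤ 2.51 :=
      Real.sqrt_le_iff.2 ⟨by norm_num, by linarith [Real.pi_lt_d2]⟩
    have a2 := Real.exp_one_lt_d9
    nlinarith [mul_le_mul a1 a2.le (Real.exp_pos 1).le (by norm_num)]
  rw [e, Measure.addHaar_smul, abs_of_nonneg (by positivity)]
  refine (mul_le_mul_right h _).trans ?_
  rw [← ENNReal.ofReal_mul (by positivity), div_mul_cancel₀ _ hw0.ne', ← Real.exp_one_pow,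
    ← mul_pow, ← mul_pow]
  refine ENNReal.ofReal_le_ofReal (pow_le_pow_left₀ (by positivity) ?_ _)
  rw [mul_div_assoc, mul_comm]
  exact mul_le_mul_of_nonneg_right h7 (by positivity)

end Vale.Agent.RM
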