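import Vale.Agent.RM.Shift
import Vale.Agent.RM.Svd
import Vale.Agent.RM.KC
import Vale.Agent.RM.Wills

open MeasureTheory ProbabilityTheory
open scoped RealInnerProductSpace Pointwise

namespace Vale.Agent.RM

theorem geo_cav_le {a : ℕ} {f g : (Fin a → Bool) → ℝ} (h : ∀ ε, f ε ≤ g ε + 1) :
    cav f ≤ cav g + 1 := by
  have h1 : ∑ ε, f ε ≤ ∑ ε, (g ε + 1) := Finset.sum_le_sum fun ε _ => h ε
  have h2 : (0 : ℝ) < 2 ^ a := by positivity
  rw [Finset.sum_add_distrib] at h1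
  simp only [Finset.sum_const, Finset.card_univ, Fintype.card_pi, Fintype.card_bool,
    Finset.prod_const, Fintype.card_fin, nsmul_eq_mul, Nat.cast_pow, Nat.cast_ofNat,
    mul_one] at h1
  unfold cav
  rw [div_add_one h2.ne']
  exact div_le_div_of_nonneg_right h1 h2.le

theorem geo_lam {a : ℕ} : 1 ≤ Real.log (2 * (a : ℝ) + 2) + 1 := by
  have : 0 ≤ Real.log (2 * (a : ℝ) + 2) :=
    Real.log_nonneg (by linarith [(Nat.cast_nonneg a : (0 : ℝ) ≤ a)])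
  linarith

theorem geo_num {Λ l B : ℝ} (hΛ : 1 ≤ Λ) (hl : 1 ≤ l) (hB : 1 ≤ B) :
    Λ * (Λ * (8 * l ^ 2 + 1) * B * Λ + 1) ≤ 18 * Λ ^ 3 * l ^ 2 * B := by
  have h1 : 1 ≤ l ^ 2 := one_le_pow₀ hl
  have h2 : Λ ≤ Λ ^ 3 := le_self_pow₀ hΛ (by norm_num)
  have h3 : 0 ≤ Λ ^ 3 := by positivity
  have h4 : Λ ^ 3 * 1 ≤ Λ ^ 3 * B := mul_le_mul_of_nonneg_left hB h3
  have h5 : Λ ^ 3 * B * 1 ≤ Λ ^ 3 * B * l ^ 2 := mul_le_mul_of_nonneg_left h1 (by positivity)
  nlinarith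

variable {E : Type} [NormedAddCommGroup E] [InnerProductSpace ℝ E] [FiniteDimensional ℝ E]
  [MeasurableSpace E] [BorelSpace E]

theorem geo_symB {S : Set E} (hS : SymB S 1) {B : ℝ} (hB : 1 ≤ B)
    (H : ∀ (d : ℕ) (u : Fin d → E) (s : ℝ), 1 ≤ d → Orthonormal ℝ u → 0 < s →
      ∫ g : Fin d → ℝ, supf S (s • ∑ j, g j • u j) ∂(gp d) ≤ 1 → s * d ≤ B) :
    SymB (pol S) B := by
  refine ⟨fun ξ _ => by simp, fun ξ hξ => neg_mem_pol hS hξ, fun w hw => ?_⟩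
  by_cases h0 : w = 0
  · rw [h0, norm_zero]; linarith
  have hn : 0 < ‖w‖ := norm_pos_iff.2 h0
  have hN := supf_subL hS
  have h := H 1 (fun _ => ‖w‖⁻¹ • w) ‖w‖ le_rfl
    (orthonormal_subsingleton_iff.2 fun _ => norm_smul_inv_norm h0) hn (by
      have e : ∀ g : Fin 1 → ℝ, supf S (‖w‖ • ∑ j, g j • ‖w‖⁻¹ • w) = |g 0| * supf S w := by
        intro g
        rw [Fin.sum_univ_one, smul_comm, smul_inv_smul₀ hn.ne', hN.2.2.1]
      simp only [e]
      rw [integral_mul_const]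
      exact mul_le_one₀ integral_abs_gp (hN.1 w) ((mem_pol_iff hS w).1 hw))
  simpa using h

/-- Geometric part. `H` with `d = 1`, `u = w/‖w‖`, `s = ‖w‖` gives `‖w‖ ≤ B` on `K = pol S`
(`integral_abs_gp`), so `SymB K B`. Let `e` be an orthonormal basis, `X ε ∈ K` within `1` of
`supf K (∑ sg(ε i) • e i)`, `v = wh X`, `Y ε ∈ S` within `1` of `supf S (∑ sg(ε i) • v i)`.
`kconv`, `cav_inner`: the average of `supf S (∑ sg • v)` is `≤ 8l²+1`; `gp_le_cav`, `trace_le`: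
`∑ ⟪e i, v i⟫ ≤ Λ (8l²+1) B Λ` with `Λ = log(2a+2)+1`; `cav_inner`, `gp_le_cav` again and
`stdGaussian_eq_map_pi_orthonormalBasis`: `∫ supf K dγ ≤ Λ (Λ²(8l²+1)B + 1) ≤ 18 Λ³ l² B`;
finally `wills`. -/
theorem vol_le {S : Set E} (hS : SymB S 1) (ha : 1 ≤ Module.finrank ℝ E) {B : ℝ} (hB : 1 ≤ B)
    {l : ℕ} (hl : 1 ≤ l) (hBl : B ≤ 2 ^ l)
    (H : ∀ (d : ℕ) (u : Fin d → E) (s : ℝ), 1 ≤ d → Orthonormal ℝ u → 0 < s →
      ∫ g : Fin d → ℝ, supf S (s • ∑ j, g j • u j) ∂(gp d) ≤ 1 → s * d ≤ B) :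
    volume (pol S) ≤ ENNReal.ofReal
      ((126 * (Real.log (2 * Module.finrank ℝ E + 2) + 1) ^ 3 * (l : ℝ) ^ 2 * B /
        Module.finrank ℝ E) ^ (Module.finrank ℝ E)) := by
  have hK := geo_symB hS hB H
  have hNS := supf_subL hS
  have hNK := supf_subL hK
  set e := stdOrthonormalBasis ℝ E
  have hΛ : 1 ≤ Real.log (2 * (Module.finrank ℝ E : ℝ) + 2) + 1 := geo_lam
  have hlog : Real.log (Module.finrank ℝ E : ℝ) + 1 ≤
      Real.log (2 * (Module.finrank ℝ E : ℝ) + 2) + 1 := by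
    have h0 : (0 : ℝ) < Module.finrank ℝ E := by exact_mod_cast ha
    linarith [Real.log_le_log h0 (by linarith :
      (Module.finrank ℝ E : ℝ) ≤ 2 * (Module.finrank ℝ E : ℝ) + 2)]
  set Λ := Real.log (2 * (Module.finrank ℝ E : ℝ) + 2) + 1 with hΛe
  have hl' : (1 : ℝ) ≤ l := by exact_mod_cast hl
  choose X hX hX' using fun ε : Fin (Module.finrank ℝ E) → Bool =>
    supf_near hK (∑ i, sg (ε i) • e i) one_pos
  choose Y hY hY' using fun ε : Fin (Module.finrank ℝ E) → Bool =>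
    supf_near hS (∑ i, sg (ε i) • wh X i) one_pos
  have k1 := kconv X Y hl (fun ε ε' => by
      have a1 := hX ε' _ (hY ε)
      have a2 := hX ε' _ (hS.2.1 _ (hY ε))
      rw [inner_neg_left] at a2
      exact abs_le.2 ⟨by linarith, a1⟩)
    (fun ε => (hK.2.2 _ (hX ε)).trans hBl) (fun ε => hS.2.2 _ (hY ε))
  have k2 := geo_cav_le hY'
  rw [cav_inner] at k2
  have k3 : ∫ g, supf S (∑ i, g i • wh X i) ∂(gp (Module.finrank ℝ E)) ≤
      Λ * (8 * (l : ℝ) ^ 2 + 1) :=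
    (gp_le_cav hNS (wh X)).trans (mul_le_mul_of_nonneg_left (by linarith) (by linarith))
  have k4 := trace_le hNS e (wh X) (by positivity) (by linarith) k3 H
  have k5 := geo_cav_le hX'
  rw [cav_inner] at k5
  have k6 : ∑ i, ⟪wh X i, e i⟫ ≤ Λ * (8 * (l : ℝ) ^ 2 + 1) * B * Λ := by
    simp only [real_inner_comm (e _)]
    exact k4.trans (mul_le_mul_of_nonneg_left hlog (by positivity))
  have k7 : ∫ x, supf (pol S) x ∂(stdGaussian E) ≤ 18 * Λ ^ 3 * (l : ℝ) ^ 2 * B := by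
    rw [stdGaussian_eq_map_pi_orthonormalBasis e, integral_map
      (Measurable.aemeasurable (by fun_prop)) hNK.continuous.aestronglyMeasurable]
    refine (gp_le_cav hNK e).trans (le_trans ?_ (geo_num hΛ hl' hB))
    exact mul_le_mul_of_nonneg_left (by linarith) (by linarith)
  refine (wills hK (isClosed_pol S) (by positivity) ha k7).trans (le_of_eq ?_)
  congr 3
  ring

theorem geo_mom {K : Set E} (ha : 1 ≤ Module.finrank ℝ E) {η : ℝ} (hη : 0 < η)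
    (iso : ∀ u v : E, ‖u‖ = 1 → ‖v‖ = 1 → ⟪u, v⟫ = 0 → mom K u - mom K v ≤ η / 2 * gm K)
    (h : ∫ x in K, ‖x‖ ^ 2 ∂(stdGaussian E) < (1 - η) * Module.finrank ℝ E * gm K)
    {u : E} (hu : ‖u‖ = 1) : mom K u ≤ (1 - η / 2) * gm K := by
  obtain ⟨e, he⟩ := Orthonormal.exists_orthonormalBasis_extension_of_card_eq (𝕜 := ℝ) (E := E)
    (ι := Fin (Module.finrank ℝ E)) (by simp) (v := fun _ => u) (s := {⟨0, ha⟩})
    (orthonormal_subsingleton_iff.2 fun _ => hu)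
  have e0 : e ⟨0, ha⟩ = u := he _ rfl
  have h1 : ∑ i, mom K (e i) < ∑ _i : Fin (Module.finrank ℝ E), (1 - η) * gm K := by
    rw [sum_mom]
    simp only [Finset.sum_const, Finset.card_univ, Fintype.card_fin, nsmul_eq_mul]
    linarith
  obtain ⟨i, -, hi⟩ := Finset.exists_lt_of_sum_lt h1
  have h2 : 0 ≤ η / 2 * gm K := mul_nonneg (by linarith) (gm_nonneg K)
  by_cases hi0 : (⟨0, ha⟩ : Fin (Module.finrank ℝ E)) = i
  · rw [← hi0, e0] at hi
    linarith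
  · have h3 := iso u (e i) hu (e.orthonormal.1 i) (e0 ▸ e.orthonormal.2 hi0)
    linarith

theorem geo_pow {a N : ℕ} (ha : 1 ≤ a) (hN : a ≤ N) {η : ℝ} (hη : 0 < η) (hη1 : η ≤ 1 / 2) :
    ∃ l : ℕ, 1 ≤ l ∧ (l : ℝ) ≤ 6 * Real.log (N / η) + 16 ∧
      1024 * (a : ℝ) / (η / 2) ^ 4 ≤ 2 ^ l := by
  have h1 : (1 : ℝ) ≤ N := by exact_mod_cast ha.trans hN
  have h2 : (a : ℝ) ≤ N := by exact_mod_cast hN
  have h3 : 1 ≤ N / η := by rw [le_div_iff₀ hη]; linarith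
  have hx := Real.log_nonneg h3
  have h4 := Nat.lt_floor_add_one (6 * Real.log (N / η) + 16)
  refine ⟨⌊6 * Real.log (N / η) + 16⌋₊, Nat.le_floor (by push_cast; linarith),
    Nat.floor_le (by linarith), ?_⟩
  set l := ⌊6 * Real.log (N / η) + 16⌋₊
  have h5 : 1024 * (a : ℝ) / (η / 2) ^ 4 ≤ 2 ^ 14 * (N / η) ^ 4 := by
    have : (N : ℝ) ≤ N ^ 4 := le_self_pow₀ h1 (by norm_num)
    rw [div_pow, div_pow, div_div_eq_mul_div, ← mul_div_assoc]
    exact div_le_div_of_nonneg_right (by linarith) (by positivity)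
  refine h5.trans ?_
  rw [← Real.log_le_log_iff (by positivity) (by positivity), Real.log_mul (by positivity)
    (by positivity), Real.log_pow, Real.log_pow, Real.log_pow]
  have h6 := Real.log_two_gt_d9
  push_cast
  nlinarith [mul_le_mul_of_nonneg_right h4.le (by linarith : 0 ≤ Real.log 2),
    mul_le_mul_of_nonneg_left h6.le hx]

/-- By contradiction. Any orthonormal family extends to an orthonormal basis
(`Orthonormal.exists_orthonormalBasis_extension_of_card_eq`), some basis vector has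
`mom < (1-η) gm` (`sum_mom`), so all have `mom ≤ (1-η/2) gm`. `shift` with `η/2` gives `H` with
`B = 16384 a/η⁴`; take `l = Nat.clog 2 ⌈B⌉₊ ≤ 6 log(N/η) + 16` and compare `vol_le` with `hvol`. -/
theorem geo {S : Set E} (hS : SymB S 1) {N : ℕ} (ha : 1 ≤ Module.finrank ℝ E)
    (hN : Module.finrank ℝ E ≤ N) {η t : ℝ} (hη : 0 < η) (hη1 : η ≤ 1 / 2) (ht : T0 N η ≤ t)
    (iso : ∀ u v : E, ‖u‖ = 1 → ‖v‖ = 1 → ⟪u, v⟫ = 0 →
      mom (pol S) u - mom (pol S) v ≤ η / 2 * gm (pol S))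
    (hvol : ENNReal.ofReal (t ^ (Module.finrank ℝ E)) ≤ volume (pol S)) :
    (1 - η) * Module.finrank ℝ E * gm (pol S) ≤ ∫ x in pol S, ‖x‖ ^ 2 ∂(stdGaussian E) := by
  by_contra hcon
  have hm := fun (u : E) (hu : ‖u‖ = 1) => geo_mom ha hη iso (not_le.1 hcon) hu
  obtain ⟨l, hl, hl', hBl⟩ := geo_pow ha hN hη hη1
  have ha' : (1 : ℝ) ≤ Module.finrank ℝ E := by exact_mod_cast ha
  have hN' : (Module.finrank ℝ E : ℝ) ≤ N := by exact_mod_cast hN
  have hB : 1 ≤ 1024 * (Module.finrank ℝ E : ℝ) / (η / 2) ^ 4 := by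
    rw [le_div_iff₀ (by positivity)]
    have : (η / 2) ^ 4 ≤ 1 := pow_le_one₀ (by linarith) (by linarith)
    linarith
  have h1 := vol_le hS ha hB hl hBl fun d u s hd hu hs hI =>
    shift hS hd u hu hs (η := η / 2) (by linarith) (by linarith) hI (by
      refine (Finset.sum_le_sum fun j _ => hm (u j) (hu.1 j)).trans (le_of_eq ?_)
      simp only [Finset.sum_const, Finset.card_univ, Fintype.card_fin, nsmul_eq_mul]
      ring)
  have hΛ : 1 ≤ Real.log (2 * (Module.finrank ℝ E : ℝ) + 2) + 1 := geo_lam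
  have hΛ' : Real.log (2 * (Module.finrank ℝ E : ℝ) + 2) + 1 ≤ Real.log (2 * (N : ℝ) + 2) + 1 := by
    linarith [Real.log_le_log (by linarith : 0 < 2 * (Module.finrank ℝ E : ℝ) + 2)
      (by linarith : 2 * (Module.finrank ℝ E : ℝ) + 2 ≤ 2 * (N : ℝ) + 2)]
  have h2 := (ENNReal.ofReal_le_ofReal_iff (by positivity)).1 (hvol.trans h1)
  have h3 := le_of_pow_le_pow_left₀ (by omega) (by positivity) h2
  have hl0 : (1 : ℝ) ≤ l := by exact_mod_cast hl
  have h4 : (Real.log (2 * (Module.finrank ℝ E : ℝ) + 2) + 1) ^ 3 * (l : ℝ) ^ 2 ≤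
      (Real.log (2 * (N : ℝ) + 2) + 1) ^ 3 * (6 * Real.log (N / η) + 16) ^ 2 :=
    mul_le_mul (pow_le_pow_left₀ (by linarith) hΛ' 3) (pow_le_pow_left₀ (by linarith) hl' 2)
      (by positivity) (pow_nonneg (by linarith) 3)
  have h5 : 0 < (Real.log (2 * (Module.finrank ℝ E : ℝ) + 2) + 1) ^ 3 * (l : ℝ) ^ 2 := by
    positivity
  have e : 126 * (Real.log (2 * (Module.finrank ℝ E : ℝ) + 2) + 1) ^ 3 * (l : ℝ) ^ 2 *
      (1024 * (Module.finrank ℝ E : ℝ) / (η / 2) ^ 4) / Module.finrank ℝ E =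
      2064384 * ((Real.log (2 * (Module.finrank ℝ E : ℝ) + 2) + 1) ^ 3 * (l : ℝ) ^ 2) / η ^ 4 := by
    field_simp
    ring
  rw [e] at h3
  have h6 := ht.trans h3
  unfold T0 at h6
  rw [div_le_div_iff_of_pos_right (by positivity), mul_assoc] at h6
  linarith

end Vale.Agent.RM
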