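import Vale.Agent.RM.Pack

open MeasureTheory ProbabilityTheory
open scoped RealInnerProductSpace Pointwise

namespace Vale.Agent.RM

variable {E : Type} [NormedAddCommGroup E] [InnerProductSpace ℝ E] [FiniteDimensional ℝ E]
  [MeasurableSpace E] [BorelSpace E]

/-- `Submodule.orthogonalDecomposition`, `LinearIsometryEquiv.measurePreserving`,
`WithLp.volume_preserving_ofLp`, `std_eq` on the three spaces, and Fubini. -/
theorem gm_prod (U : Submodule ℝ E) (A : Set U) (B : Set (Uᗮ : Submodule ℝ E))
    (hA : MeasurableSet A) (hB : MeasurableSet B) :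
    gm {x : E | U.orthogonalProjectionOnto x ∈ A ∧ (Uᗮ).orthogonalProjectionOnto x ∈ B} =
      gm A * gm B := by
  let e : E ≃ᵐ U × (Uᗮ : Submodule ℝ E) :=
    U.orthogonalDecomposition.toHomeomorph.toMeasurableEquiv.trans
      (MeasurableEquiv.toLp 2 _).symm
  have hmp : MeasurePreserving e :=
    U.orthogonalDecomposition.measurePreserving.trans (WithLp.volume_preserving_ofLp _ _)
  have ha : ∀ x : E, e x = (U.orthogonalProjectionOnto x, (Uᗮ).orthogonalProjectionOnto x) :=
    fun x => by simp [e]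
  have hS : {x : E | U.orthogonalProjectionOnto x ∈ A ∧ (Uᗮ).orthogonalProjectionOnto x ∈ B} =
      e ⁻¹' (A ×ˢ B) := by
    ext x; simp [ha]
  have hd : ∀ x : E, dens x = dens (e x).1 * dens (e x).2 := by
    intro x
    rw [ha]
    simp only [dens]
    rw [← U.finrank_add_finrank_orthogonal, pow_add, Submodule.norm_sq_eq_add_norm_sq_projection x U,
      mul_mul_mul_comm, ← Real.exp_add]
    congr 2; ring
  rw [hS, gm_eq _ (e.measurable (hA.prod hB)), gm_eq _ hA, gm_eq _ hB,
    ← setIntegral_prod_mul, ← Measure.volume_eq_prod,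
    ← hmp.setIntegral_preimage_emb e.measurableEmbedding]
  exact integral_congr_ae (ae_of_all _ hd)

/-- For `0 < s < 1` the product of the shrunk cells is a packing set of `L`
(`pack_vor` twice); use `pack_le_vor`, `gm_prod`, `gm_smul` and let `s → 1`. -/
theorem split {L : Submodule ℤ E} (hL : Sep L) (U : Submodule ℝ E) :
    gm (vor (lsub U L)) * gm (vor (lquo U L)) ≤ gm (vor L) := by
  have hA := (isClosed_vor (lsub U L)).measurableSet
  have hB := (isClosed_vor (lquo U L)).measurableSet
  have key : ∀ s ∈ Set.Ioo (0 : ℝ) 1,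
      s ^ Module.finrank ℝ U * gm (vor (lsub U L)) *
        (s ^ Module.finrank ℝ (Uᗮ : Submodule ℝ E) * gm (vor (lquo U L))) ≤ gm (vor L) := by
    intro s hs
    have hA' := hA.const_smul₀ s
    have hB' := hB.const_smul₀ s
    refine (mul_le_mul (gm_smul _ hA hs.1 hs.2.le) (gm_smul _ hB hs.1 hs.2.le)
      (mul_nonneg (pow_nonneg hs.1.le _) (gm_nonneg _)) (gm_nonneg _)).trans ?_
    rw [← gm_prod U _ _ hA' hB']
    refine pack_le_vor hL ((U.orthogonalProjectionOnto.continuous.measurable hA').inter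
      ((Uᗮ).orthogonalProjectionOnto.continuous.measurable hB')) ?_
    rintro x ⟨h1, h2⟩ y hy h0 ⟨h3, h4⟩
    rw [map_add] at h3 h4
    by_cases hq : (Uᗮ).orthogonalProjectionOnto y = 0
    · have hU : y ∈ U := by
        have := Submodule.orthogonalProjectionOnto_eq_zero_iff.1 hq
        rwa [Submodule.orthogonal_orthogonal] at this
      have he : U.orthogonalProjectionOnto y = ⟨y, hU⟩ :=
        Submodule.orthogonalProjectionOnto_mem_subspace_eq_self (⟨y, hU⟩ : U)
      rw [he] at h3
      exact pack_vor _ hs.1 hs.2 _ h1 ⟨y, hU⟩ (mem_lsub.2 hy)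
        (fun h => h0 (congrArg Subtype.val h)) h3
    · exact pack_vor _ hs.1 hs.2 _ h2 _ (mem_lquo.2 ⟨y, hy, rfl⟩) hq h4
  have hc : Continuous fun s : ℝ => s ^ Module.finrank ℝ U * gm (vor (lsub U L)) *
      (s ^ Module.finrank ℝ (Uᗮ : Submodule ℝ E) * gm (vor (lquo U L))) := by fun_prop
  have h1 := (isClosed_le hc continuous_const).closure_subset_iff.2 key
    (show (1 : ℝ) ∈ closure (Set.Ioo 0 1) by rw [closure_Ioo zero_ne_one]; simp)
  simpa using h1

end Vale.Agent.RM
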