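import Vale.Agent.RM.Dens

open MeasureTheory ProbabilityTheory
open scoped RealInnerProductSpace Pointwise

namespace Vale.Agent.RM

variable {E : Type} [NormedAddCommGroup E] [InnerProductSpace ℝ E] [FiniteDimensional ℝ E]
  [MeasurableSpace E] [BorelSpace E]

theorem integrable_normsq : Integrable (fun x : E => ‖x‖ ^ 2) (stdGaussian E) := by
  exact (IsGaussian.memLp_two_id (μ := stdGaussian E)).integrable_norm_pow two_ne_zero

theorem integrable_inner_sq (u : E) : Integrable (fun x : E => ⟪u, x⟫ ^ 2) (stdGaussian E) := by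
  refine (integrable_normsq.const_mul (‖u‖ ^ 2)).mono' (by fun_prop) (ae_of_all _ fun x => ?_)
  rw [Real.norm_eq_abs, abs_pow, ← mul_pow]
  exact pow_le_pow_left₀ (abs_nonneg _) (abs_real_inner_le_norm u x) 2

theorem integral_normsq : ∫ x : E, ‖x‖ ^ 2 ∂(stdGaussian E) = Module.finrank ℝ E := by
  have e := stdOrthonormalBasis ℝ E
  have h : ∀ i, ∫ x : E, ⟪e i, x⟫ ^ 2 ∂(stdGaussian E) = 1 := by
    intro i
    have h1 := variance_dual_stdGaussian (innerSL ℝ (e i))
    rw [variance_of_integral_eq_zero (innerSL ℝ (e i)).continuous.aemeasurable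
      (integral_strongDual_stdGaussian _), innerSL_apply_norm, e.orthonormal.1 i] at h1
    simpa using h1
  simp only [← e.sum_sq_inner_right]
  rw [integral_finsetSum _ fun i _ => integrable_inner_sq (e i)]
  simp [h]

theorem sum_mom {a : ℕ} (e : OrthonormalBasis (Fin a) ℝ E) (K : Set E) :
    ∑ i, mom K (e i) = ∫ x in K, ‖x‖ ^ 2 ∂(stdGaussian E) := by
  simp only [← e.sum_sq_inner_right, mom]
  rw [integral_finsetSum _ fun i _ => (integrable_inner_sq (e i)).integrableOn]

/-- Markov. -/
theorem gm_ball {t : ℝ} (ht : 0 < t) :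
    1 - Module.finrank ℝ E / t ^ 2 ≤ gm (Metric.closedBall (0 : E) t) := by
  have h := mul_meas_ge_le_integral_of_nonneg (μ := stdGaussian E) (f := fun x : E => ‖x‖ ^ 2)
    (ae_of_all _ fun x => by positivity) integrable_normsq (t ^ 2)
  rw [integral_normsq] at h
  have h1 : (stdGaussian E).real (Metric.closedBall (0 : E) t)ᶜ ≤
      (stdGaussian E).real {x : E | t ^ 2 ≤ ‖x‖ ^ 2} := by
    refine measureReal_mono fun x hx => ?_
    rw [Set.mem_compl_iff, mem_closedBall_zero_iff, not_le] at hx
    exact pow_le_pow_left₀ ht.le hx.le 2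
  rw [probReal_compl_eq_one_sub Metric.isClosed_closedBall.measurableSet] at h1
  have h2 : (stdGaussian E).real {x : E | t ^ 2 ≤ ‖x‖ ^ 2} ≤ Module.finrank ℝ E / t ^ 2 := by
    rw [le_div_iff₀ (by positivity), mul_comm]
    exact h
  unfold gm
  linarith

/-- The density is positive and the ball has positive volume. -/
theorem gm_ball_pos {t : ℝ} (ht : 0 < t) : 0 < gm (Metric.closedBall (0 : E) t) := by
  rw [gm_eq _ Metric.isClosed_closedBall.measurableSet,
    setIntegral_pos_iff_support_of_nonneg_ae (ae_of_all _ fun x => (dens_pos x).le)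
      (continuous_dens.continuousOn.integrableOn_compact (isCompact_closedBall _ _))]
  have h : Function.support (dens : E → ℝ) = Set.univ :=
    Set.eq_univ_of_forall fun x => (dens_pos x).ne'
  rw [h, Set.univ_inter]
  exact Metric.measure_closedBall_pos _ _ ht

/-- Jensen on `K`: integrate `exp (φ x) ≥ exp m * (1 + φ x - m)` with `m` the mean. -/
theorem jensen_exp (K : Set E) (hK : MeasurableSet K) (h0 : 0 < gm K) (φ : E → ℝ)
    (h1 : IntegrableOn φ K (stdGaussian E))
    (h2 : IntegrableOn (fun x => Real.exp (φ x)) K (stdGaussian E)) :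
    gm K * Real.exp ((∫ x in K, φ x ∂(stdGaussian E)) / gm K) ≤
      ∫ x in K, Real.exp (φ x) ∂(stdGaussian E) := by
  set m := (∫ x in K, φ x ∂(stdGaussian E)) / gm K with hm
  have hc : IntegrableOn (fun _ : E => 1 - m) K (stdGaussian E) := integrableOn_const
  have h := setIntegral_mono_on ((h1.add hc).const_mul (Real.exp m)) h2 hK fun x _ => by
    have := Real.add_one_le_exp (φ x - m)
    have h3 : Real.exp (φ x) = Real.exp m * Real.exp (φ x - m) := by
      rw [← Real.exp_add]; congr 1; ring
    rw [h3]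
    refine mul_le_mul_of_nonneg_left ?_ (Real.exp_pos _).le
    simp only [Pi.add_apply]
    linarith
  refine le_trans (le_of_eq ?_) h
  have h4 : ∫ x in K, φ x ∂(stdGaussian E) = m * gm K := by
    rw [hm, div_mul_cancel₀ _ h0.ne']
  rw [integral_const_mul, integral_add' h1 hc, h4, setIntegral_const, smul_eq_mul]
  unfold gm
  ring

theorem integrable_exp_normsq {c : ℝ} (hc : c < 1 / 2) :
    Integrable (fun x : E => Real.exp (c * ‖x‖ ^ 2)) (stdGaussian E) := by
  rw [integrable_std_iff]
  have hs : 0 < Real.sqrt (1 - 2 * c) := Real.sqrt_pos.2 (by linarith)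
  refine (integral_dens_smul (E := E) hs).1.congr (ae_of_all _ fun x => ?_)
  simp only [dens]
  rw [norm_smul, mul_pow, Real.norm_eq_abs, sq_abs, Real.sq_sqrt (by linarith), mul_assoc,
    ← Real.exp_add]
  congr 2
  ring

end Vale.Agent.RM
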