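import Vale.Agent.RM.VarA
import Vale.Agent.RM.Mom

open MeasureTheory ProbabilityTheory
open scoped RealInnerProductSpace Pointwise

namespace Vale.Agent.RM

variable {E : Type} [NormedAddCommGroup E] [InnerProductSpace ℝ E] [FiniteDimensional ℝ E]
  [MeasurableSpace E] [BorelSpace E]

theorem varB_exp (t : ℝ) : Real.exp t ≤ 1 + t + t ^ 2 * Real.exp |t| := by
  have h1 : Real.exp t ≤ 1 + t * Real.exp t := by
    have h2 := Real.add_one_le_exp (-t)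
    have h3 : Real.exp (-t) * Real.exp t = 1 := by rw [← Real.exp_add]; simp
    nlinarith [mul_le_mul_of_nonneg_right h2 (Real.exp_pos t).le]
  rcases le_total 0 t with h | h
  · rw [abs_of_nonneg h]
    nlinarith [mul_le_mul_of_nonneg_left h1 h]
  · have h2 := Real.add_one_le_exp t
    have h3 : 1 ≤ Real.exp |t| := Real.one_le_exp (abs_nonneg t)
    nlinarith [mul_le_mul_of_nonneg_left h2 (neg_nonneg.2 h),
      mul_le_mul_of_nonneg_left h3 (sq_nonneg t)]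

theorem varB_real {ε r w q : ℝ} (hε : 0 < ε) (hε1 : ε ≤ 1 / 2) (hr : 0 ≤ r)
    (hw : |w| ≤ ε * r / 2) (hq : r + 2 * w ≤ q) :
    Real.exp (-q / 2) ≤ Real.exp (-r / 2) - Real.exp (-r / 2) * w +
      ε ^ 2 * (128 * Real.exp (-(r / 4) / 2)) := by
  have h1 : Real.exp (-q / 2) ≤ Real.exp (-r / 2) * Real.exp (-w) := by
    rw [← Real.exp_add]
    exact Real.exp_le_exp.2 (by linarith)
  have h2 := varB_exp (-w)
  rw [abs_neg, neg_sq] at h2
  have h3 : w ^ 2 ≤ ε ^ 2 * r ^ 2 := by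
    rw [← sq_abs, ← mul_pow]
    have : 0 ≤ ε * r := by positivity
    gcongr
    linarith
  have h4 : Real.exp |w| ≤ Real.exp (r / 4) := Real.exp_le_exp.2 (by nlinarith)
  have h5 : r ^ 2 ≤ 128 * Real.exp (r / 8) := by
    have := Real.quadratic_le_exp_of_nonneg (x := r / 8) (by positivity)
    nlinarith
  have h6 : Real.exp (-r / 2) * (w ^ 2 * Real.exp |w|) ≤
      ε ^ 2 * (128 * Real.exp (-(r / 4) / 2)) := by
    calc _ ≤ Real.exp (-r / 2) * (ε ^ 2 * (128 * Real.exp (r / 8)) * Real.exp (r / 4)) := by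
          gcongr
          exact h3.trans (by gcongr)
      _ = ε ^ 2 * (128 * (Real.exp (-r / 2) * Real.exp (r / 8) * Real.exp (r / 4))) := by ring
      _ = _ := by
          rw [← Real.exp_add, ← Real.exp_add]
          congr 3
          ring
  nlinarith [mul_le_mul_of_nonneg_left h2 (Real.exp_pos (-r / 2)).le]

omit [FiniteDimensional ℝ E] [MeasurableSpace E] [BorelSpace E] in
theorem varB_pt {ε : ℝ} (hε : 0 < ε) (hε1 : ε ≤ 1 / 2)
    {u v : E} (hu : ‖u‖ = 1) (hv : ‖v‖ = 1) (huv : ⟪u, v⟫ = 0) (x : E) :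
    dens (sq (Real.sqrt (1 + ε)) u v x) ≤
      dens x - ε / 2 * (dens x * ⟪u, x⟫ ^ 2 - dens x * ⟪v, x⟫ ^ 2) +
        ε ^ 2 * 128 * dens ((1 / 2 : ℝ) • x) := by
  have h : 0 < 1 + ε := by linarith
  have hb := bessel_two hu hv huv x
  have ha := sq_nonneg ⟪u, x⟫
  have hc := sq_nonneg ⟪v, x⟫
  have h1 := varB_real (r := ‖x‖ ^ 2) (w := ε / 2 * (⟪u, x⟫ ^ 2 - ⟪v, x⟫ ^ 2))
    (q := ‖sq (Real.sqrt (1 + ε)) u v x‖ ^ 2) hε hε1 (sq_nonneg _) (by
      rw [abs_le]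
      constructor <;> nlinarith) (by
      rw [sq_norm_sq (Real.sqrt_pos.2 h) hu hv huv, Real.sq_sqrt h.le]
      nlinarith [mul_le_mul_of_nonneg_right (varA_inv hε).1 hc])
  have h2 : ‖(1 / 2 : ℝ) • x‖ ^ 2 = ‖x‖ ^ 2 / 4 := by
    rw [norm_smul, Real.norm_of_nonneg (by norm_num)]
    ring
  unfold dens
  rw [h2]
  have h3 : 0 ≤ (Real.sqrt (2 * Real.pi))⁻¹ ^ (Module.finrank ℝ E) := by positivity
  refine (mul_le_mul_of_nonneg_left h1 h3).trans (le_of_eq ?_)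
  ring

/-- `dens (g x) = dens x * exp (-w)`, `w ≥ w' = (ε/2)(⟪u,x⟫² - ⟪v,x⟫²)`, `|w'| ≤ ε‖x‖²/2`,
`exp (-w') ≤ 1 - w' + w'² exp |w'|`, and `dens x ‖x‖⁴ exp(‖x‖²/4) ≤ 128 dens ((1/2) • x)`. -/
theorem varB (K : Set E) (hK : MeasurableSet K) {ε : ℝ} (hε : 0 < ε) (hε1 : ε ≤ 1 / 2)
    {u v : E} (hu : ‖u‖ = 1) (hv : ‖v‖ = 1) (huv : ⟪u, v⟫ = 0) :
    (∫ x in K, dens (sq (Real.sqrt (1 + ε)) u v x)) ≤
      gm K - ε / 2 * (mom K u - mom K v) + ε ^ 2 * (128 * 2 ^ (Module.finrank ℝ E)) := by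
  have i0 : IntegrableOn (dens : E → ℝ) K := pack_int_dens.integrableOn
  have i1 : ∀ w : E, IntegrableOn (fun x => dens x * ⟪w, x⟫ ^ 2) K := fun w =>
    ((integrable_std_iff _).1 (integrable_inner_sq w)).integrableOn
  obtain ⟨i2, e2⟩ := integral_dens_smul (E := E) (c := 1 / 2) (by norm_num)
  have i3 : IntegrableOn (fun x => dens x * ⟪u, x⟫ ^ 2 - dens x * ⟪v, x⟫ ^ 2) K :=
    (i1 u).sub (i1 v)
  have i4 : IntegrableOn
      (fun x => dens x - ε / 2 * (dens x * ⟪u, x⟫ ^ 2 - dens x * ⟪v, x⟫ ^ 2)) K :=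
    i0.sub (i3.const_mul _)
  have i5 : IntegrableOn (fun x : E => ε ^ 2 * 128 * dens ((1 / 2 : ℝ) • x)) K :=
    i2.integrableOn.const_mul _
  have h1 : ∫ x in K, dens ((1 / 2 : ℝ) • x) ≤ 2 ^ (Module.finrank ℝ E) := by
    refine (setIntegral_le_integral i2 (Filter.Eventually.of_forall fun x =>
      (dens_pos _).le)).trans (le_of_eq ?_)
    rw [e2]
    norm_num
  refine (integral_mono_of_nonneg (Filter.Eventually.of_forall fun x => (dens_pos _).le)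
    (i4.add i5) (Filter.Eventually.of_forall fun x => varB_pt hε hε1 hu hv huv x)).trans ?_
  simp only [Pi.add_apply]
  rw [integral_add i4 i5, integral_sub i0 (i3.const_mul _), integral_const_mul,
    integral_const_mul, integral_sub (i1 u) (i1 v), ← gm_eq K hK, mom, mom, setIntegral_std K hK,
    setIntegral_std K hK]
  have h2 := mul_le_mul_of_nonneg_left h1 (by positivity : 0 ≤ ε ^ 2 * 128)
  generalize ∫ x in K, dens ((1 / 2 : ℝ) • x) = t at h2 ⊢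
  clear e2 h1
  linarith

/-- Choose `ρ` with `128 2^a / ρ² ≤ κ m / 16`, then `ε₀` small; combine `varA` and `varB`. -/
theorem var_step {m κ : ℝ} (hm : 0 < m) (hκ : 0 < κ) :
    ∃ ε₀ > (0 : ℝ), ∀ ε, 0 < ε → ε ≤ ε₀ → ∀ L : Submodule ℤ E, Sep L → m ≤ gm (vor L) →
      ∀ u v : E, ‖u‖ = 1 → ‖v‖ = 1 → ⟪u, v⟫ = 0 →
        κ * gm (vor L) ≤ mom (vor L) u - mom (vor L) v →
        gm (vor (lmap (sq (Real.sqrt (1 + ε)) u v) L)) ≤ (1 - ε * κ / 4) * gm (vor L) := by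
  obtain ⟨C, hC⟩ : ∃ C : ℝ, C = 128 * 2 ^ (Module.finrank ℝ E) := ⟨_, rfl⟩
  have hC0 : 0 < C := by rw [hC]; positivity
  have hkm : 0 < κ * m := mul_pos hκ hm
  obtain ⟨ρ, hρ1, hρ2⟩ : ∃ ρ : ℝ, 1 ≤ ρ ∧ C / ρ ^ 2 ≤ κ * m / 16 := by
    refine ⟨max 1 (16 * C / (κ * m)), le_max_left _ _, ?_⟩
    have h0 : 1 ≤ max 1 (16 * C / (κ * m)) := le_max_left _ _
    have h1 : 16 * C / (κ * m) ≤ max 1 (16 * C / (κ * m)) := le_max_right _ _
    generalize max 1 (16 * C / (κ * m)) = ρ at h0 h1 ⊢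
    rw [div_le_iff₀ hkm] at h1
    rw [div_le_iff₀ (by positivity)]
    have h2 : ρ ≤ ρ ^ 2 := by nlinarith
    nlinarith [mul_le_mul_of_nonneg_right h2 hkm.le]
  obtain ⟨B, hB⟩ : ∃ B : ℝ, B = ρ ^ 2 * Real.exp (ρ ^ 2 / 4) * Module.finrank ℝ E := ⟨_, rfl⟩
  have hB0 : 0 ≤ B := by rw [hB]; positivity
  have hD : 0 < C + B * (1 + 4 * ρ) := by positivity
  refine ⟨min (1 / 2 / (1 + 4 * ρ)) (κ * m / 8 / (C + B * (1 + 4 * ρ))), by positivity,
    fun ε hε hε0 L hL hmL u v hu hv huv hmom => ?_⟩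
  have h1 : ε * (1 + 4 * ρ) ≤ 1 / 2 :=
    (le_div_iff₀ (by positivity)).1 (hε0.trans (min_le_left _ _))
  have h2 : ε * (C + B * (1 + 4 * ρ)) ≤ κ * m / 8 :=
    (le_div_iff₀ hD).1 (hε0.trans (min_le_right _ _))
  have a1 := varA hL hε hρ1 h1 hu hv huv
  rw [← hC, ← hB] at a1
  generalize C / ρ ^ 2 = t at a1 hρ2
  clear hε0 hB
  have h3 : ε ≤ 1 / 2 := by nlinarith
  have a2 := varB (vor L) (isClosed_vor L).measurableSet hε h3 hu hv huv
  rw [← hC] at a2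
  have h4 : κ * m ≤ κ * gm (vor L) := mul_le_mul_of_nonneg_left hmL hκ.le
  have h5 : ε * C + (B * (ε * (1 + 4 * ρ)) + t) ≤ κ * gm (vor L) / 4 := by nlinarith
  nlinarith [mul_le_mul_of_nonneg_left h5 hε.le, mul_le_mul_of_nonneg_left hmom hε.le]

end Vale.Agent.RM
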