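import Vale.Agent.RM.Defs

open MeasureTheory ProbabilityTheory
open scoped RealInnerProductSpace Pointwise

namespace Vale.Agent.RM

variable {E : Type} [NormedAddCommGroup E] [InnerProductSpace ℝ E]

theorem sq_inner {s : ℝ} (hs : 0 < s) {u v : E} (hu : ‖u‖ = 1) (hv : ‖v‖ = 1) (huv : ⟪u, v⟫ = 0)
    (x y : E) : ⟪sq s u v x, sq s u v y⟫ =
      ⟪x, y⟫ + (s ^ 2 - 1) * (⟪u, x⟫ * ⟪u, y⟫) + ((s ^ 2)⁻¹ - 1) * (⟪v, x⟫ * ⟪v, y⟫) := by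
  have h1 : ⟪v, u⟫ = 0 := by rw [real_inner_comm]; exact huv
  have h2 : ⟪u, u⟫ = 1 := by rw [real_inner_self_eq_norm_sq, hu]; norm_num
  have h3 : ⟪v, v⟫ = 1 := by rw [real_inner_self_eq_norm_sq, hv]; norm_num
  simp only [sq_apply, inner_add_left, inner_add_right, real_inner_smul_left,
    real_inner_smul_right, huv, h1, h2, h3, real_inner_comm u x, real_inner_comm v x]
  rw [← inv_pow]
  ring

theorem sq_norm_sq {s : ℝ} (hs : 0 < s) {u v : E} (hu : ‖u‖ = 1) (hv : ‖v‖ = 1)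
    (huv : ⟪u, v⟫ = 0) (x : E) : ‖sq s u v x‖ ^ 2 =
      ‖x‖ ^ 2 + (s ^ 2 - 1) * ⟪u, x⟫ ^ 2 + ((s ^ 2)⁻¹ - 1) * ⟪v, x⟫ ^ 2 := by
  rw [← real_inner_self_eq_norm_sq, sq_inner hs hu hv huv, real_inner_self_eq_norm_sq]
  ring

theorem sq_inv {s : ℝ} (hs : 0 < s) {u v : E} (hu : ‖u‖ = 1) (hv : ‖v‖ = 1) (huv : ⟪u, v⟫ = 0)
    (x : E) : sq s⁻¹ u v (sq s u v x) = x := by
  have h1 : ⟪v, u⟫ = 0 := by rw [real_inner_comm]; exact huv
  have h2 : ⟪u, u⟫ = 1 := by rw [real_inner_self_eq_norm_sq, hu]; norm_num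
  have h3 : ⟪v, v⟫ = 1 := by rw [real_inner_self_eq_norm_sq, hv]; norm_num
  rw [sq_apply s⁻¹, sq_apply s]
  simp only [inner_add_right, real_inner_smul_right, huv, h1, h2, h3, inv_inv]
  have e1 : (s⁻¹ - 1) * (⟪u, x⟫ + (s - 1) * ⟪u, x⟫ * 1 + (s⁻¹ - 1) * ⟪v, x⟫ * 0) =
      -((s - 1) * ⟪u, x⟫) := by field_simp; ring
  have e2 : (s - 1) * (⟪v, x⟫ + (s - 1) * ⟪u, x⟫ * 0 + (s⁻¹ - 1) * ⟪v, x⟫ * 1) =
      -((s⁻¹ - 1) * ⟪v, x⟫) := by field_simp; ring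
  rw [e1, e2, neg_smul, neg_smul]
  abel

/-- Bessel for the pair `u, v`. -/
theorem bessel_two {u v : E} (hu : ‖u‖ = 1) (hv : ‖v‖ = 1) (huv : ⟪u, v⟫ = 0) (x : E) :
    ⟪u, x⟫ ^ 2 + ⟪v, x⟫ ^ 2 ≤ ‖x‖ ^ 2 := by
  have h1 : ⟪v, u⟫ = 0 := by rw [real_inner_comm]; exact huv
  have h2 : ⟪u, u⟫ = 1 := by rw [real_inner_self_eq_norm_sq, hu]; norm_num
  have h3 : ⟪v, v⟫ = 1 := by rw [real_inner_self_eq_norm_sq, hv]; norm_num
  have h4 := real_inner_self_nonneg (x := x - ⟪u, x⟫ • u - ⟪v, x⟫ • v)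
  simp only [inner_sub_left, inner_sub_right, real_inner_smul_left,
    real_inner_smul_right, huv, h1, h2, h3, real_inner_comm u x, real_inner_comm v x] at h4
  rw [← real_inner_self_eq_norm_sq]
  nlinarith

theorem norm_le_sq {s : ℝ} (hs : 1 ≤ s) {u v : E} (hu : ‖u‖ = 1) (hv : ‖v‖ = 1)
    (huv : ⟪u, v⟫ = 0) (x : E) : ‖x‖ ≤ s * ‖sq s u v x‖ := by
  have h0 : 0 < s := one_pos.trans_le hs
  refine le_of_sq_le_sq ?_ (by positivity)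
  have h1 := bessel_two hu hv huv x
  have h2 : 1 ≤ s ^ 2 := one_le_pow₀ hs
  have h3 : s ^ 2 * (s ^ 2)⁻¹ = 1 := mul_inv_cancel₀ (by positivity)
  have e : (s * ‖sq s u v x‖) ^ 2 = s ^ 2 * ‖x‖ ^ 2 + s ^ 2 * (s ^ 2 - 1) * ⟪u, x⟫ ^ 2 +
      (1 - s ^ 2) * ⟪v, x⟫ ^ 2 := by
    rw [mul_pow, sq_norm_sq h0 hu hv huv]
    linear_combination ⟪v, x⟫ ^ 2 * h3
  rw [e]
  have h4 : 0 ≤ s ^ 2 * (s ^ 2 - 1) * ⟪u, x⟫ ^ 2 :=
    mul_nonneg (mul_nonneg (sq_nonneg _) (sub_nonneg.2 h2)) (sq_nonneg _)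
  have h5 : 0 ≤ (s ^ 2 - 1) * (‖x‖ ^ 2 - ⟪v, x⟫ ^ 2) :=
    mul_nonneg (sub_nonneg.2 h2) (by nlinarith [sq_nonneg ⟪u, x⟫])
  nlinarith

/-- `sq s u v` is the composition of `id + (s-1) u uᵀ` and `id + (1/s-1) v vᵀ`; each has the
determinant `1 + (c-1) ‖u‖²` (`Matrix.det_one_add_replicateCol_mul_replicateRow` in an
orthonormal basis), or extend `u, v` to an orthonormal basis in which the map is diagonal. -/
theorem sq_det [FiniteDimensional ℝ E] {s : ℝ} (hs : 0 < s) {u v : E} (hu : ‖u‖ = 1)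
    (hv : ‖v‖ = 1) (huv : ⟪u, v⟫ = 0) : LinearMap.det (sq s u v) = 1 := by
  have h2 : ⟪u, u⟫ = 1 := by rw [real_inner_self_eq_norm_sq, hu]; norm_num
  have h3 : ⟪v, v⟫ = 1 := by rw [real_inner_self_eq_norm_sq, hv]; norm_num
  have e : sq s u v = (LinearMap.transvection (innerₛₗ ℝ u) ((s - 1) • u)).comp
      (LinearMap.transvection (innerₛₗ ℝ v) ((s⁻¹ - 1) • v)) := by
    ext x
    simp only [sq_apply, LinearMap.comp_apply, LinearMap.transvection.apply, innerₛₗ_apply_apply,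
      inner_add_right, real_inner_smul_right, huv, smul_smul, mul_zero, add_zero]
    rw [mul_comm (s - 1), mul_comm (s⁻¹ - 1)]
    abel
  rw [e, LinearMap.det_comp, LinearMap.transvection.det, LinearMap.transvection.det]
  simp only [innerₛₗ_apply_apply, real_inner_smul_right, h2, h3]
  field_simp
  ring

end Vale.Agent.RM
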