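import Vale.Agent.RM.Gd
import Vale.Agent.RM.Sq

open MeasureTheory ProbabilityTheory
open scoped RealInnerProductSpace Pointwise

namespace Vale.Agent.RM

variable {E : Type} [NormedAddCommGroup E] [InnerProductSpace ℝ E] [FiniteDimensional ℝ E]

theorem Stab.norm_le {L : Submodule ℤ E} {t : ℝ} (h : Stab L t) (ht : 0 ≤ t) {y : E} (hy : y ∈ L)
    (h0 : y ≠ 0) : t ≤ ‖y‖ := by
  have hp : 0 < gd ![y] := by
    rw [gd_one]
    exact pow_pos (norm_pos_iff.2 h0) 2
  have h1 := h 1 ![y] (fun i => by fin_cases i; exact hy) ((gd_pos_iff _).1 hp)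
  rw [gd_one, mul_one] at h1
  exact (pow_le_pow_iff_left₀ ht (norm_nonneg y) two_ne_zero).1 h1

theorem Stab.sep {L : Submodule ℤ E} {t : ℝ} (h : Stab L t) (ht : 1 ≤ t) : Sep L := by
  intro y hy h0
  exact ht.trans (h.norm_le (zero_le_one.trans ht) hy h0)

theorem Stab.mono {L : Submodule ℤ E} {t t' : ℝ} (h : Stab L t) (h0 : 0 ≤ t') (ht : t' ≤ t) :
    Stab L t' := by
  intro r b hb hi
  exact (pow_le_pow_left₀ h0 ht _).trans (h r b hb hi)

theorem Stab.lsc {L : Submodule ℤ E} {t s : ℝ} (h : Stab L t) (hs : 0 < s) :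
    Stab (lsc s L) (s * t) := by
  intro r b hb hi
  choose c hc e using fun i => mem_lsc.1 (hb i)
  obtain rfl : b = fun i => s • c i := funext fun i => (e i).symm
  have hp := (gd_pos_iff _).2 hi
  rw [gd_smul] at hp ⊢
  have hs' : 0 < s ^ (2 * r) := pow_pos hs _
  rw [mul_pow]
  exact mul_le_mul_of_nonneg_left
    (h r c hc ((gd_pos_iff _).1 ((mul_pos_iff_of_pos_left hs').1 hp))) hs'.le

theorem Stab.lsub {L : Submodule ℤ E} {t : ℝ} (h : Stab L t) (U : Submodule ℝ E) :
    Stab (lsub U L) t := by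
  intro r b hb hi
  have hp := (gd_pos_iff _).2 hi
  rw [← gd_coe] at hp ⊢
  exact h r _ hb ((gd_pos_iff _).1 hp)

/-- Lift a family of the quotient to `c` in `L`; `Fin.append b c` is independent
(`gd_append`, `gd_pos_iff`), so `t^(2(r+r')) ≤ gd b * gd (proj c)`. -/
theorem Stab.lquo {L : Submodule ℤ E} {t δ : ℝ} (h : Stab L t) (ht : 0 < t) (hδ : 0 ≤ δ) {r : ℕ}
    (b : Fin r → E) (hb : ∀ i, b i ∈ L) (hi : LinearIndependent ℝ b)
    (hg : gd b ≤ (1 + δ) * t ^ (2 * r)) :
    Stab (RM.lsc (1 + δ) (lquo (Submodule.span ℝ (Set.range b)) L)) t := by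
  intro r' d hd hdi
  rcases Nat.eq_zero_or_pos r' with rfl | hr'
  · rw [gd_zero, mul_zero, pow_zero]
  choose p hp e using fun i => mem_lsc.1 (hd i)
  choose c hc e' using fun i => mem_lquo.1 (hp i)
  obtain rfl : d = fun i => (1 + δ) • p i := funext fun i => (e i).symm
  obtain rfl : p = fun i => (Submodule.span ℝ (Set.range b))ᗮ.orthogonalProjectionOnto (c i) :=
    funext fun i => (e' i).symm
  have h1 := (gd_pos_iff _).2 hdi
  rw [gd_smul] at h1 ⊢
  have hδ' : (1 : ℝ) ≤ 1 + δ := by linarith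
  have h2 := (mul_pos_iff_of_pos_left (pow_pos (by linarith) _)).1 h1
  have h3 := gd_append b c
  have h4 := h (r + r') (Fin.append b c)
    (fun i => Fin.addCases (fun j => by rw [Fin.append_left]; exact hb j)
      (fun j => by rw [Fin.append_right]; exact hc j) i)
    ((gd_pos_iff _).1 (h3 ▸ mul_pos ((gd_pos_iff _).2 hi) h2))
  rw [h3, mul_add, pow_add] at h4
  have h5 := h4.trans (mul_le_mul_of_nonneg_right hg h2.le)
  rw [mul_comm (1 + δ), mul_assoc] at h5
  have h6 := le_of_mul_le_mul_left h5 (pow_pos ht _)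
  refine h6.trans (mul_le_mul_of_nonneg_right ?_ h2.le)
  exact le_self_pow₀ hδ' (by omega)

/-- Families of full rank keep their Gram determinant (`gd_map_full`, `sq_det`); the others lose
at most the factor `(1+ε)^r ≤ 1+δ` (`norm_le_sq`, `gd_mono`, `gd_smul`). -/
theorem Stab.sq {L : Submodule ℤ E} {t δ ε : ℝ} (h : Stab L t) (ht : 0 < t) (hε : 0 < ε)
    (hεδ : (1 + ε) ^ (Module.finrank ℝ E) ≤ 1 + δ)
    (hsl : ∀ (r : ℕ) (b : Fin r → E), 1 ≤ r → r < Module.finrank ℝ E → (∀ i, b i ∈ L) →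
      LinearIndependent ℝ b → (1 + δ) * t ^ (2 * r) ≤ gd b)
    {u v : E} (hu : ‖u‖ = 1) (hv : ‖v‖ = 1) (huv : ⟪u, v⟫ = 0) :
    Stab (lmap (RM.sq (Real.sqrt (1 + ε)) u v) L) t := by
  intro r d hd hdi
  have hs1 : 1 ≤ Real.sqrt (1 + ε) := Real.one_le_sqrt.2 (by linarith)
  have hs : 0 < Real.sqrt (1 + ε) := zero_lt_one.trans_le hs1
  choose b hb e using fun i => mem_lmap.1 (hd i)
  obtain rfl : d = fun i => RM.sq (Real.sqrt (1 + ε)) u v (b i) := funext fun i => (e i).symm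
  have hi : LinearIndependent ℝ b := LinearIndependent.of_comp _ hdi
  have hr : r ≤ Module.finrank ℝ E := by simpa using hi.fintype_card_le_finrank
  rcases Nat.eq_zero_or_pos r with rfl | hr0
  · rw [gd_zero, mul_zero, pow_zero]
  rcases hr.eq_or_lt with hr1 | hr1
  · rw [gd_map_full hr1, sq_det hs hu hv huv, one_pow, one_mul]
    exact h r b hb hi
  have h1 := hsl r b hr0 hr1 hb hi
  have h2 := gd_mono b (fun i => Real.sqrt (1 + ε) • RM.sq (Real.sqrt (1 + ε)) u v (b i))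
    fun w => by
      refine (norm_le_sq hs1 hu hv huv _).trans (le_of_eq ?_)
      rw [← Real.norm_of_nonneg hs.le, ← norm_smul, Real.norm_of_nonneg hs.le, map_sum,
        Finset.smul_sum]
      refine congrArg _ (Finset.sum_congr rfl fun i _ => ?_)
      rw [map_smul, smul_comm]
  rw [gd_smul, pow_mul, Real.sq_sqrt (by linarith)] at h2
  have h3 : (1 + ε) ^ r ≤ 1 + δ := (pow_le_pow_right₀ (by linarith) hr).trans hεδ
  have h4 : 0 < 1 + δ := (pow_pos (by linarith) r).trans_le h3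
  exact le_of_mul_le_mul_left
    ((h1.trans h2).trans (mul_le_mul_of_nonneg_right h3 (gd_nonneg _))) h4

end Vale.Agent.RM
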