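import Vale.Agent.RM.Vor
import Vale.Agent.RM.Stb

open MeasureTheory ProbabilityTheory
open scoped RealInnerProductSpace Pointwise

namespace Vale.Agent.RM

variable {E : Type} [NormedAddCommGroup E] [InnerProductSpace ℝ E] [FiniteDimensional ℝ E]
  [MeasurableSpace E] [BorelSpace E]

omit [FiniteDimensional ℝ E] [MeasurableSpace E] [BorelSpace E] in
theorem vol_discrete {L : Submodule ℤ E} (h : Sep L) : DiscreteTopology L := by
  refine discreteTopology_iff_isOpen_singleton_zero.mpr ⟨Metric.ball 0 1, Metric.isOpen_ball, ?_⟩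
  ext y
  simp only [Set.mem_preimage, mem_ball_zero_iff, Set.mem_singleton_iff]
  constructor
  · intro hy
    by_contra h0
    have h1 : (y : E) ≠ 0 := fun h2 => h0 (Subtype.ext h2)
    exact absurd (h y y.2 h1) (not_le.2 hy)
  · rintro rfl
    simp

/-- The volume of the fundamental domain of a basis is the square root of the Gram
determinant. -/
theorem vol_fund (B : Module.Basis (Fin (Module.finrank ℝ E)) ℝ E) :
    volume (ZSpan.fundamentalDomain B) = ENNReal.ofReal (Real.sqrt (gd B)) := by
  have o := stdOrthonormalBasis ℝ E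
  have h1 : volume (ZSpan.fundamentalDomain o.toBasis) = 1 := by
    rw [measure_congr (ZSpan.fundamentalDomain_ae_parallelepiped o.toBasis volume)]
    exact o.volume_parallelepiped
  have h2 : gd B = o.toBasis.det B ^ 2 := by
    have h3 : o.toBasis.det B = (Matrix.of fun i j => o.repr (B j) i).det := by
      rw [Module.Basis.det_apply]
      rfl
    rw [h3, gd, Matrix.gram_eq_conjTranspose_mul o, Matrix.det_mul, Matrix.det_conjTranspose,
      star_trivial, pow_two]
  rw [ZSpan.measure_fundamentalDomain B volume o.toBasis, h1, mul_one, h2, Real.sqrt_sq_eq_abs]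

/-- `L` is discrete and spans, so it is a `IsZLattice`; take a `ℤ`-basis `b` (indexed by
`Fin (finrank)`), the fundamental domain `F` of `b.ofZLatticeBasis ℝ L` has volume
`|det| = sqrt (gd b) ≥ t^a`, and `vol F ≤ ∑ y, vol (F ∩ (vor L + y)) = vol (vor L)`
(`Sep.cover`, `IsAddFundamentalDomain.measure_eq_tsum`). -/
theorem vol_vor {L : Submodule ℤ E} {t : ℝ} (h : Stab L t) (ht : 1 ≤ t)
    (hsp : Submodule.span ℝ (L : Set E) = ⊤) :
    ENNReal.ofReal (t ^ (Module.finrank ℝ E)) ≤ volume (vor L) := by
  have hs : Sep L := h.sep ht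
  have hd : DiscreteTopology L := vol_discrete hs
  have hz : IsZLattice ℝ L := ⟨hsp⟩
  have hfr : Module.Free ℤ L := ZLattice.module_free ℝ L
  have hfin : Module.Finite ℤ L := ZLattice.module_finite ℝ L
  have b : Module.Basis (Fin (Module.finrank ℝ E)) ℤ L :=
    Module.finBasisOfFinrankEq ℤ L (ZLattice.rank ℝ L)
  have hF := ZLattice.isAddFundamentalDomain b (volume : Measure E)
  have hm : MeasurableVAdd L E := (inferInstance : MeasurableVAdd L.toAddSubgroup E)
  have hi : VAddInvariantMeasure L E volume :=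
    (inferInstance : VAddInvariantMeasure L.toAddSubgroup E volume)
  have hg : t ^ (2 * Module.finrank ℝ E) ≤ gd (b.ofZLatticeBasis ℝ L) :=
    h _ _ (fun i => by rw [Module.Basis.ofZLatticeBasis_apply]; exact (b i).2)
      (b.ofZLatticeBasis ℝ L).linearIndependent
  have h1 : t ^ Module.finrank ℝ E ≤ Real.sqrt (gd (b.ofZLatticeBasis ℝ L)) := by
    refine Real.le_sqrt_of_sq_le ?_
    rw [← pow_mul, mul_comm]
    exact hg
  refine (ENNReal.ofReal_le_ofReal h1).trans ?_
  rw [← vol_fund, hF.measure_eq_tsum (vor L)]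
  refine le_trans (measure_mono ?_) (measure_iUnion_le _)
  intro x hx
  obtain ⟨y, hy, hxy⟩ := hs.cover x
  refine Set.mem_iUnion.2 ⟨⟨y, hy⟩, ⟨x - y, hxy, ?_⟩, hx⟩
  change y + (x - y) = x
  abel

end Vale.Agent.RM
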