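import Vale.Agent.RM.Geo
import Vale.Agent.RM.VarB
import Vale.Agent.RM.Vol
import Vale.Agent.RM.Split

open MeasureTheory ProbabilityTheory
open scoped RealInnerProductSpace Pointwise

namespace Vale.Agent.RM

theorem two_le_T0 {N : ℕ} (hN : 1 ≤ N) {η : ℝ} (hη : 0 < η) (hη1 : η ≤ 1 / 2) :
    2 ≤ T0 N η := by
  have h1 : (1 : ℝ) ≤ N := by exact_mod_cast hN
  have h3 : 1 ≤ N / η := by rw [le_div_iff₀ hη]; linarith
  have hx := Real.log_nonneg h3
  have a1 : 1 ≤ (Real.log (2 * (N : ℝ) + 2) + 1) ^ 3 := one_le_pow₀ geo_lam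
  have a2 : 1 ≤ (6 * Real.log (N / η) + 16) ^ 2 := one_le_pow₀ (by linarith)
  have a3 : η ^ 4 ≤ 1 := pow_le_one₀ hη.le (by linarith)
  have a4 := one_le_mul_of_one_le_of_one_le a1 a2
  unfold T0
  rw [le_div_iff₀ (by positivity), mul_assoc]
  linarith

theorem ind_eps {m M ε₀ : ℝ} (hm : m < M) (hε₀ : 0 < ε₀) (a : ℕ) :
    ∃ ε : ℝ, 0 < ε ∧ ε ≤ ε₀ ∧ ε ≤ 1 ∧ ((1 + ε) ^ a) ^ (a + 1) * m < M := by
  have hc : Continuous fun ε : ℝ => ((1 + ε) ^ a) ^ (a + 1) * m := by fun_prop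
  have h1 : ∀ᶠ ε in nhds (0 : ℝ), ((1 + ε) ^ a) ^ (a + 1) * m < M :=
    (hc.tendsto 0).eventually_lt_const (by simpa using hm)
  have h2 : ∀ᶠ ε in nhds (0 : ℝ), ε ≤ ε₀ := ge_mem_nhds hε₀
  have h3 : ∀ᶠ ε in nhds (0 : ℝ), ε ≤ 1 := ge_mem_nhds one_pos
  obtain ⟨ε, ⟨k1, k2, k3⟩, k4⟩ := (((h1.and (h2.and h3)).filter_mono
    (nhdsWithin_le_nhds (s := Set.Ioi 0))).and self_mem_nhdsWithin).exists
  exact ⟨ε, k4, k2, k3, k1⟩

section
variable {E : Type} [NormedAddCommGroup E] [InnerProductSpace ℝ E] [FiniteDimensional ℝ E]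
  [MeasurableSpace E] [BorelSpace E]

theorem ind_unsc (L : Submodule ℤ E) {s : ℝ} (hs : 1 ≤ s) :
    gm (vor (lsc s L)) ≤ s ^ (Module.finrank ℝ E) * gm (vor L) := by
  have h0 : 0 < s := by linarith
  have h := gm_smul (vor (lsc s L)) (isClosed_vor _).measurableSet (inv_pos.2 h0)
    (inv_le_one_of_one_le₀ hs)
  have e : s⁻¹ • vor (lsc s L) = vor L := by rw [vor_lsc h0, inv_smul_smul₀ h0.ne']
  rw [e, inv_pow, inv_mul_le_iff₀ (by positivity)] at h
  exact h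

theorem ind_span {L : Submodule ℤ E} (hL : Sep L) :
    gm (vor (lsub (Submodule.span ℝ (L : Set E)) L)) ≤ gm (vor L) := by
  have h := split hL (Submodule.span ℝ (L : Set E))
  have e : lquo (Submodule.span ℝ (L : Set E)) L = ⊥ := by
    rw [eq_bot_iff]
    intro y hy
    obtain ⟨x, hx, rfl⟩ := mem_lquo.1 hy
    rw [Submodule.mem_bot]
    exact Submodule.orthogonalProjectionOnto_orthogonal_apply_eq_zero (Submodule.subset_span hx)
  rwa [e, vor_bot, gm_univ, mul_one] at h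

theorem ind_iso {N : ℕ} {η t β : ℝ} (hη : 0 < η) (hη1 : η ≤ 1 / 2) (ht : T0 N η ≤ t) (ht2 : 2 ≤ t)
    (hQ : Q N ((1 + η) * t) β) (ha : 1 ≤ Module.finrank ℝ E) (hN : Module.finrank ℝ E ≤ N)
    {L : Submodule ℤ E} (hL : Stab L t) (h0 : 0 < gm (vor L))
    (hsp : Submodule.span ℝ (L : Set E) = ⊤)
    (iso : ∀ u v : E, ‖u‖ = 1 → ‖v‖ = 1 → ⟪u, v⟫ = 0 →
      mom (vor L) u - mom (vor L) v ≤ η / 2 * gm (vor L)) :
    Real.exp (-((β + 3 * η ^ 2) * Module.finrank ℝ E)) ≤ gm (vor L) := by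
  obtain ⟨S, hS, e⟩ := exists_pol (L := L) fun y hy h => ht2.trans (hL.norm_le (by linarith) hy h)
  have h1 := geo hS ha hN hη hη1 ht (e ▸ iso) (e ▸ vol_vor hL (by linarith) hsp)
  rw [← e] at h1
  have h2 := step (isClosed_vor L).measurableSet (convex_vor L) h0 hη hη1 hη.le h1
  have h3 := hQ E hN _ (hL.lsc (s := 1 + η) (by linarith))
  rw [vor_lsc (by linarith)] at h3
  have h4 := mul_le_mul_of_nonneg_right (h3.trans h2)
    (Real.exp_pos (-(Module.finrank ℝ E * (η * η + 2 * η ^ 2)))).le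
  rw [mul_assoc, ← Real.exp_add, ← Real.exp_add, add_neg_cancel, Real.exp_zero, mul_one] at h4
  refine le_trans (le_of_eq ?_) h4
  congr 1
  ring

end

/-- Strong induction on `a = finrank E` (for all `E`). `a = 0`: `vor L = univ`. Let `m` be the
infimum of `gm (vor L)` over `t`-stable `L` in `E` (`m ≥ gm (closedBall 0 1) > 0`), and suppose
`m < exp(-β' a)`, `β' = β + 3η²`. Pick `δ > 0` with `(1+δ)^(a+1) m < exp(-β' a)`, `ε₀` from
`var_step m (η/2)`, `ε ≤ ε₀` with `(1+ε)^a ≤ 1+δ`, `ε ≤ 1`, then a stable `L` with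
`gm (vor L) < m * min (1+δ) (1/(1 - εη/8))`.
(A') `L` does not span: `split` with `U = span L`, `lquo U L = ⊥`, induction in `U`.
(A) some independent `b`, `1 ≤ r < a`, `gd b < (1+δ) t^(2r)`: `split`, `Stab.lsub`, `Stab.lquo`,
`vor_lsc`, `gm_smul` with `s = 1/(1+δ)`, `finrank U + finrank Uᗮ = a`.
(B) otherwise `Stab.sq` and `var_step` give `iso`; `exists_pol`, `vol_vor`, `geo`, `step` with
`l = η`, `vor_lsc`, `Stab.lsc` and `hQ` give `gm (vor L) ≥ exp(-β' a)`. -/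
theorem ind_step {N : ℕ} (hN : 1 ≤ N) {η t β : ℝ} (hη : 0 < η) (hη1 : η ≤ 1 / 2)
    (ht : T0 N η ≤ t) (hβ : 0 ≤ β) (hQ : Q N ((1 + η) * t) β) : Q N t (β + 3 * η ^ 2) := by
  have ht2 : 2 ≤ t := (two_le_T0 hN hη hη1).trans ht
  have hβ' : 0 ≤ β + 3 * η ^ 2 := by positivity
  suffices key : ∀ a : ℕ, ∀ (E : Type) [NormedAddCommGroup E] [InnerProductSpace ℝ E]
      [FiniteDimensional ℝ E] [MeasurableSpace E] [BorelSpace E], Module.finrank ℝ E = a →
      Module.finrank ℝ E ≤ N → ∀ L : Submodule ℤ E, Stab L t →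
        Real.exp (-((β + 3 * η ^ 2) * Module.finrank ℝ E)) ≤ gm (vor L) from
    fun E _ _ _ _ _ hE L hL => key _ E rfl hE L hL
  intro a
  induction a using Nat.strong_induction_on with
  | _ a ih =>
  intro E _ _ _ _ _ hEa hE L₀ hL₀
  subst hEa
  rcases Nat.eq_zero_or_pos (Module.finrank ℝ E) with h0 | ha
  · have : Subsingleton E := Module.finrank_zero_iff.1 h0
    rw [Subsingleton.elim L₀ ⊥, vor_bot, gm_univ, h0]
    simp
  by_contra hcon
  have hpos : 0 < gm (Metric.closedBall (0 : E) (2 / 2)) := gm_ball_pos (by norm_num)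
  have hlow : ∀ L : Submodule ℤ E, Stab L t →
      gm (Metric.closedBall (0 : E) (2 / 2)) ≤ gm (vor L) := fun L hL =>
    gm_mono (ball_subset_vor fun y hy h => ht2.trans (hL.norm_le (by linarith) hy h))
  set 𝓜 : Set ℝ := {x | ∃ L : Submodule ℤ E, Stab L t ∧ gm (vor L) = x} with h𝓜
  have hne : 𝓜.Nonempty := ⟨_, L₀, hL₀, rfl⟩
  have hbd : gm (Metric.closedBall (0 : E) (2 / 2)) ∈ lowerBounds 𝓜 := by
    rintro _ ⟨L, hL, rfl⟩
    exact hlow L hL
  have hm : ∀ L : Submodule ℤ E, Stab L t → sInf 𝓜 ≤ gm (vor L) := fun L hL =>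
    csInf_le ⟨_, hbd⟩ ⟨L, hL, rfl⟩
  have hm0 : 0 < sInf 𝓜 := hpos.trans_le (le_csInf hne hbd)
  set m := sInf 𝓜 with hme
  obtain ⟨ε₀, hε₀, hvar⟩ := var_step (E := E) hm0 (κ := η / 2) (by linarith)
  obtain ⟨ε, hε, hεε, hε1, hsm⟩ := ind_eps ((hm L₀ hL₀).trans_lt (not_le.1 hcon)) hε₀
    (Module.finrank ℝ E)
  have hD : 1 < (1 + ε) ^ (Module.finrank ℝ E) := one_lt_pow₀ (by linarith) ha.ne'
  obtain ⟨δ, hδ⟩ : ∃ δ : ℝ, (1 + ε) ^ (Module.finrank ℝ E) = 1 + δ := ⟨_, (add_sub_cancel _ _).symm⟩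
  rw [hδ] at hD hsm
  have hq : 0 < 1 - ε * (η / 2) / 4 := by nlinarith
  have hlt : m < min ((1 + δ) * m) (m / (1 - ε * (η / 2) / 4)) := by
    refine lt_min (by nlinarith) ?_
    rw [lt_div_iff₀ hq]
    nlinarith [mul_pos hm0 (mul_pos hε hη)]
  obtain ⟨_, ⟨L, hL, rfl⟩, hG⟩ := exists_lt_of_csInf_lt hne hlt
  obtain ⟨hG1, hG2⟩ := lt_min_iff.1 hG
  rw [lt_div_iff₀ hq] at hG2
  have hsep : Sep L := hL.sep (by linarith)
  have hG0 : 0 < gm (vor L) := hm0.trans_le (hm L hL)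
  have hD1 : 1 ≤ (1 + δ) ^ (Module.finrank ℝ E) := one_le_pow₀ hD.le
  have hfin : (1 + δ) ^ (Module.finrank ℝ E) * gm (vor L) <
      Real.exp (-((β + 3 * η ^ 2) * Module.finrank ℝ E)) := by
    refine lt_trans ?_ hsm
    rw [pow_succ, mul_assoc]
    exact mul_lt_mul_of_pos_left hG1 (by linarith)
  refine absurd hfin (not_lt.2 ?_)
  by_cases hsp : Submodule.span ℝ (L : Set E) = ⊤
  swap
  · have hr := Submodule.finrank_lt hsp
    have h1 := ih _ hr (Submodule.span ℝ (L : Set E)) rfl (hr.le.trans hE) _ (hL.lsub _)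
    have h2 : (Module.finrank ℝ (Submodule.span ℝ (L : Set E)) : ℝ) ≤ Module.finrank ℝ E := by
      exact_mod_cast hr.le
    refine le_trans ?_ (le_mul_of_one_le_left hG0.le hD1)
    refine le_trans (Real.exp_le_exp.2 ?_) (h1.trans (ind_span hsep))
    linarith [mul_le_mul_of_nonneg_left h2 hβ']
  by_cases hA : ∀ (r : ℕ) (b : Fin r → E), 1 ≤ r → r < Module.finrank ℝ E → (∀ i, b i ∈ L) →
      LinearIndependent ℝ b → (1 + δ) * t ^ (2 * r) ≤ gd b
  · refine le_trans ?_ (le_mul_of_one_le_left hG0.le hD1)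
    refine ind_iso hη hη1 ht ht2 hQ ha hE hL hG0 hsp fun u v hu hv huv => ?_
    by_contra hc
    have h1 := hm _ (hL.sq (by linarith) hε hδ.le hA hu hv huv)
    have h2 := hvar ε hε hεε L hsep (hm L hL) u v hu hv huv (not_le.1 hc).le
    linarith
  · push Not at hA
    obtain ⟨r, b, hr1, hra, hb, hi, hg⟩ := hA
    set U := Submodule.span ℝ (Set.range b) with hU
    have e1 : Module.finrank ℝ U = r := by rw [hU, finrank_span_eq_card hi, Fintype.card_fin]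
    have e2 := U.finrank_add_finrank_orthogonal
    have h1 := ih _ (by omega) U rfl (by omega) _ (hL.lsub U)
    have h2 := ih _ (by omega) (Uᗮ : Submodule ℝ E) rfl (by omega) _
      (hL.lquo (by linarith) (by linarith) b hb hi hg.le)
    have h3 := ind_unsc (lquo U L) hD.le
    have h4 : (1 + δ) ^ (Module.finrank ℝ (Uᗮ : Submodule ℝ E)) ≤
        (1 + δ) ^ (Module.finrank ℝ E) := pow_le_pow_right₀ hD.le (by omega)
    have h5 := (h2.trans h3).trans (mul_le_mul_of_nonneg_right h4 (gm_nonneg _))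
    have h6 := mul_le_mul h1 h5 (Real.exp_pos _).le (gm_nonneg _)
    have h7 := mul_le_mul_of_nonneg_left (split hsep U) (zero_le_one.trans hD1)
    have e3 : (Module.finrank ℝ E : ℝ) =
        Module.finrank ℝ U + Module.finrank ℝ (Uᗮ : Submodule ℝ E) := by exact_mod_cast e2.symm
    rw [← Real.exp_add, ← neg_add, ← mul_add, ← e3] at h6
    linarith

end Vale.Agent.RM
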