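import Vale.Agent.RM.Vor
import Vale.Agent.RM.Dens

open MeasureTheory ProbabilityTheory
open scoped RealInnerProductSpace Pointwise

namespace Vale.Agent.RM

variable {E : Type} [NormedAddCommGroup E] [InnerProductSpace ℝ E] [FiniteDimensional ℝ E]
  [MeasurableSpace E] [BorelSpace E]

theorem pack_int_dens : Integrable (dens : E → ℝ) := by
  simpa using (integral_dens_smul (E := E) (c := 1) one_pos).1

theorem pack_cover {L : Submodule ℤ E} (hL : Sep L) (ψ : E → ENNReal) (hψ : Measurable ψ) :
    ∫⁻ z, ψ z ≤ ∫⁻ x in vor L, ∑' y : L, ψ (x - y) := by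
  have : Countable L := hL.countable.to_subtype
  have hV : MeasurableSet (vor L) := (isClosed_vor L).measurableSet
  have hm : ∀ y : L, Measurable ((vor L).indicator fun x => ψ (x - y)) := fun y =>
    (hψ.comp (measurable_sub_const (y : E))).indicator hV
  calc ∫⁻ z, ψ z ≤ ∫⁻ z, ∑' y : L, (vor L).indicator (fun x => ψ (x - y)) (z + y) := by
        refine lintegral_mono fun z => ?_
        obtain ⟨y, hy, hz⟩ := hL.cover z
        refine le_trans ?_ (ENNReal.le_tsum (⟨-y, L.neg_mem hy⟩ : L))
        have e : z + -y = z - y := by abel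
        simp only
        rw [e, Set.indicator_of_mem hz]
        simp
    _ = ∑' y : L, ∫⁻ z, (vor L).indicator (fun x => ψ (x - y)) (z + y) :=
        lintegral_tsum fun y => ((hm y).comp (measurable_add_const (y : E))).aemeasurable
    _ = ∑' y : L, ∫⁻ x in vor L, ψ (x - y) := by
        refine tsum_congr fun y => ?_
        rw [lintegral_add_right_eq_self, lintegral_indicator hV]
    _ = ∫⁻ x in vor L, ∑' y : L, ψ (x - y) :=
        (lintegral_tsum fun y : L =>
          (hψ.comp (measurable_sub_const (y : E))).aemeasurable).symm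

/-- `gm K = ∫_{g⁻¹ K} dens (g x) dx` (`|det g| = 1`); cover the space by the countably many
translates `vor L - y` (`Sep.cover`, `Sep.countable`), translate back, and note that for each
`x` at most one `y ∈ L` has `g (x - y) ∈ K`. Work with `lintegral`. -/
theorem pack_le_sup {L : Submodule ℤ E} (hL : Sep L) (g : E →ₗ[ℝ] E)
    (hg : LinearMap.det g = 1) {K : Set E} (hK : MeasurableSet K) (hp : Pack (lmap g L) K)
    (H : E → ℝ) (hH : IntegrableOn H (vor L))
    (hb : ∀ x ∈ vor L, ∀ y ∈ L, dens (g (x - y)) ≤ H x) :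
    gm K ≤ ∫ x in vor L, H x := by
  have hV : MeasurableSet (vor L) := (isClosed_vor L).measurableSet
  have hgm : Measurable g := (LinearMap.continuous_of_finiteDimensional g).measurable
  have hg0 : LinearMap.det g ≠ 0 := by rw [hg]; exact one_ne_zero
  have hmp : MeasurePreserving g (volume : Measure E) volume := by
    refine ⟨hgm, ?_⟩
    rw [Measure.map_linearMap_addHaar_eq_smul_addHaar _ hg0, hg]
    simp
  have hinj : Function.Injective g := (LinearMap.equivOfDetNeZero g hg0).injective
  have hφ : Measurable (K.indicator fun z => ENNReal.ofReal (dens z)) :=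
    (continuous_dens.measurable.ennreal_ofReal).indicator hK
  have hH0 : 0 ≤ᵐ[volume.restrict (vor L)] H := by
    filter_upwards [ae_restrict_mem hV] with x hx
    exact (dens_pos _).le.trans (hb x hx 0 L.zero_mem)
  rw [← ENNReal.ofReal_le_ofReal_iff (integral_nonneg_of_ae hH0),
    ofReal_integral_eq_lintegral_ofReal hH hH0, gm_eq K hK,
    ofReal_integral_eq_lintegral_ofReal pack_int_dens.integrableOn
      (ae_of_all _ fun x => (dens_pos x).le), ← lintegral_indicator hK, ← hmp.lintegral_comp hφ]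
  refine (pack_cover hL _ (hφ.comp hgm)).trans (setLIntegral_mono' hV fun x hx => ?_)
  by_cases h : ∃ y : L, g (x - y) ∈ K
  · obtain ⟨y, hy⟩ := h
    rw [tsum_eq_single y]
    · simp only [Function.comp_apply]
      rw [Set.indicator_of_mem hy]
      exact ENNReal.ofReal_le_ofReal (hb x hx y y.2)
    · intro y' hy'
      refine Set.indicator_of_notMem ?_ _
      have h1 : g ((y : E) - y') ≠ 0 := by
        rw [← map_zero g]
        exact fun h => hy' (Subtype.ext (sub_eq_zero.1 (hinj h)).symm)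
      have h2 := hp _ hy _ (mem_lmap.2 ⟨_, L.sub_mem y.2 y'.2, rfl⟩) h1
      rwa [← map_add, sub_add_sub_cancel] at h2
  · push Not at h
    have : ∀ y : L, ((K.indicator fun z => ENNReal.ofReal (dens z)) ∘ g) (x - y) = 0 :=
      fun y => Set.indicator_of_notMem (h y) _
    simp only [this, tsum_zero, zero_le]

theorem pack_le_vor {L : Submodule ℤ E} (hL : Sep L) {K : Set E} (hK : MeasurableSet K)
    (hp : Pack L K) : gm K ≤ gm (vor L) := by
  rw [gm_eq _ (isClosed_vor L).measurableSet]
  refine pack_le_sup hL LinearMap.id LinearMap.det_id hK ?_ dens pack_int_dens.integrableOn ?_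
  · rintro x hx _ ⟨y, hy, rfl⟩ h0
    exact hp x hx y hy h0
  · intro x hx y hy
    have h1 : ‖x‖ ^ 2 ≤ ‖x - y‖ ^ 2 :=
      pow_le_pow_left₀ (norm_nonneg _) (norm_le_of_mem_vor hx hy) 2
    exact mul_le_mul_of_nonneg_left (Real.exp_le_exp.2 (by
      rw [LinearMap.id_apply]; linarith)) (by positivity)

omit [FiniteDimensional ℝ E] [MeasurableSpace E] [BorelSpace E] in
theorem pack_cosh (x y : E) :
    2 * (Real.exp (-‖y‖ ^ 2 / 2) * dens x) ≤ dens (x + y) + dens (x - y) := by
  have e1 : Real.exp (-‖x + y‖ ^ 2 / 2) =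
      Real.exp (-‖y‖ ^ 2 / 2) * Real.exp (-‖x‖ ^ 2 / 2) * Real.exp (-⟪x, y⟫) := by
    rw [← Real.exp_add, ← Real.exp_add, norm_add_sq_real]; congr 1; ring
  have e2 : Real.exp (-‖x - y‖ ^ 2 / 2) =
      Real.exp (-‖y‖ ^ 2 / 2) * Real.exp (-‖x‖ ^ 2 / 2) * Real.exp ⟪x, y⟫ := by
    rw [← Real.exp_add, ← Real.exp_add, norm_sub_sq_real]; congr 1; ring
  have h1 := Real.add_one_le_exp ⟪x, y⟫
  have h2 := Real.add_one_le_exp (-⟪x, y⟫)
  have h3 : 0 ≤ (Real.sqrt (2 * Real.pi))⁻¹ ^ (Module.finrank ℝ E) *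
      (Real.exp (-‖y‖ ^ 2 / 2) * Real.exp (-‖x‖ ^ 2 / 2)) := by positivity
  simp only [dens]
  rw [e1, e2]
  nlinarith [mul_le_mul_of_nonneg_left (add_le_add h1 h2) h3]

theorem pack_shift {K : Set E} (hK : MeasurableSet K) (hs : ∀ x ∈ K, -x ∈ K) (y : E) :
    Real.exp (-‖y‖ ^ 2 / 2) * gm K ≤ gm {z | z - y ∈ K} := by
  have hT : MeasurableSet {z | z - y ∈ K} := measurable_sub_const y hK
  have e1 : gm {z | z - y ∈ K} = ∫ x in K, dens (x + y) := by
    rw [gm_eq _ hT, ← integral_indicator hT, ← integral_indicator hK,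
      ← integral_sub_right_eq_self (K.indicator fun x => dens (x + y)) y]
    refine integral_congr_ae (ae_of_all _ fun z => ?_)
    by_cases hz : z - y ∈ K
    · simp only
      rw [Set.indicator_of_mem hz, Set.indicator_of_mem (show z ∈ {z | z - y ∈ K} from hz),
        sub_add_cancel]
    · simp only
      rw [Set.indicator_of_notMem hz, Set.indicator_of_notMem (show z ∉ {z | z - y ∈ K} from hz)]
  have e2 : ∫ x in K, dens (x + y) = ∫ x in K, dens (x - y) := by
    rw [← integral_indicator hK, ← integral_indicator hK,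
      ← integral_neg_eq_self (K.indicator fun x => dens (x + y))]
    refine integral_congr_ae (ae_of_all _ fun z => ?_)
    by_cases hz : z ∈ K
    · simp only
      rw [Set.indicator_of_mem hz, Set.indicator_of_mem (hs z hz)]
      simp only [dens]
      rw [← norm_neg (z - y), neg_sub, neg_add_eq_sub]
    · simp only
      rw [Set.indicator_of_notMem hz, Set.indicator_of_notMem fun h => hz (by simpa using hs _ h)]
  have i1 : IntegrableOn (fun x => dens (x + y)) K := (pack_int_dens.comp_add_right y).integrableOn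
  have i2 : IntegrableOn (fun x => dens (x - y)) K := (pack_int_dens.comp_sub_right y).integrableOn
  have h := integral_mono (((pack_int_dens.integrableOn (s := K)).const_mul
    (Real.exp (-‖y‖ ^ 2 / 2))).const_mul 2) (i1.add i2) fun x => pack_cosh x y
  rw [integral_const_mul, integral_const_mul, integral_add' i1 i2, ← e2, ← e1, ← gm_eq K hK] at h
  linarith

/-- The translates `K + y`, `y ∈ S`, are disjoint, and by symmetry
`gm (K + y) = ∫_K dens x exp(-‖y‖²/2) cosh ⟪x,y⟫ ≥ exp(-‖y‖²/2) gm K`. -/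
theorem count_le {L : Submodule ℤ E} {K : Set E} (hK : MeasurableSet K) (hp : Pack L K)
    (hs : ∀ x ∈ K, -x ∈ K) (S : Finset E) {R : ℝ} (hS : ∀ y ∈ S, y ∈ L ∧ ‖y‖ ≤ R) :
    (S.card : ℝ) * Real.exp (-R ^ 2 / 2) * gm K ≤ 1 := by
  have hd : (S : Set E).PairwiseDisjoint fun y => {z | z - y ∈ K} := by
    intro y hy y' hy' hne
    refine Set.disjoint_left.2 fun z h1 h2 => ?_
    have h3 := hp _ h1 _ (L.sub_mem (hS y hy).1 (hS y' hy').1) (sub_ne_zero.2 hne)
    rw [sub_add_sub_cancel] at h3
    exact h3 h2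
  have e : gm (⋃ y ∈ S, {z | z - y ∈ K}) = ∑ y ∈ S, gm {z | z - y ∈ K} :=
    measureReal_biUnion_finset hd fun y _ => measurable_sub_const y hK
  refine le_trans ?_ (gm_le_one (⋃ y ∈ S, {z | z - y ∈ K}))
  rw [e, mul_assoc, ← nsmul_eq_mul]
  refine Finset.card_nsmul_le_sum _ _ _ fun y hy => le_trans ?_ (pack_shift hK hs y)
  have h1 : ‖y‖ ^ 2 ≤ R ^ 2 := pow_le_pow_left₀ (norm_nonneg _) (hS y hy).2 2
  exact mul_le_mul_of_nonneg_right (Real.exp_le_exp.2 (by linarith)) (gm_nonneg K)

end Vale.Agent.RM
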