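import Vale.Agent.RM.ShiftA
import Vale.Agent.RM.Mom
import Vale.Agent.RM.Sup

open MeasureTheory ProbabilityTheory
open scoped RealInnerProductSpace Pointwise

namespace Vale.Agent.RM

variable {E : Type} [NormedAddCommGroup E] [InnerProductSpace ℝ E] [FiniteDimensional ℝ E]
  [MeasurableSpace E] [BorelSpace E]

theorem shift_exp {x : ℝ} (h0 : 0 ≤ x) (h1 : x ≤ 1 / 2) : Real.exp (-(2 * x)) ≤ 1 - x := by
  rw [Real.exp_neg, inv_le_iff_one_le_mul₀ (Real.exp_pos _)]
  have := Real.add_one_le_exp (2 * x)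
  nlinarith [mul_nonneg h0 (sub_nonneg.2 h1), mul_le_mul_of_nonneg_left this (by linarith : 0 ≤ 1 - x)]

theorem shift_sqrt {η : ℝ} (h0 : 0 < η) :
    Real.exp ((η - η ^ 2 / 2) / 2) ≤ Real.sqrt (1 + η) := by
  refine Real.le_sqrt_of_sq_le ?_
  rw [← Real.exp_nat_mul, ← Real.le_log_iff_exp_le (by linarith)]
  refine le_trans ?_ (Real.le_log_one_add_of_nonneg h0.le)
  rw [le_div_iff₀ (by linarith)]
  push_cast
  nlinarith [pow_pos h0 3]

/-- Suppose `s d > 1024 a/η⁴`. Use `shiftA` with `K = pol S`, `δ = η`, `l = dη²/(32 a)`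
(`1 ≤ d ≤ a`). Markov: the probability is `≥ 1 - √δ'/(s l) ≥ 1 - η²/32 ≥ exp(-dη²/16)`;
`(1-l)^a ≥ exp(-2 l a) = exp(-dη²/16)`; `jensen_exp` and `log(1+η) ≥ η - η²/2` give the factor
`exp(dη²/4)`. So `gm K exp(dη²/8) ≤ gm K`, absurd (`gm K > 0` by `ball_subset_pol`). -/
theorem shift {S : Set E} (hS : SymB S 1) {d : ℕ} (hd : 1 ≤ d) (u : Fin d → E)
    (hu : Orthonormal ℝ u) {s η : ℝ} (hs : 0 < s) (hη : 0 < η) (hη1 : η ≤ 1 / 2)
    (hN : ∫ g : Fin d → ℝ, supf S (s • ∑ j, g j • u j) ∂(gp d) ≤ 1)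
    (hv : ∑ j, mom (pol S) (u j) ≤ (1 - η) * d * gm (pol S)) :
    s * d ≤ 1024 * Module.finrank ℝ E / η ^ 4 := by
  by_contra hcon
  rw [not_le, div_lt_iff₀ (by positivity)] at hcon
  set a := Module.finrank ℝ E with ha
  have hda : d ≤ a := by simpa using hu.linearIndependent.fintype_card_le_finrank
  have hd' : (1 : ℝ) ≤ d := by exact_mod_cast hd
  have hda' : (d : ℝ) ≤ a := by exact_mod_cast hda
  have ha0 : (0 : ℝ) < a := by linarith
  have hη2 : η ^ 2 ≤ 1 / 4 := by nlinarith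
  have hη3 : 0 < η ^ 2 := by positivity
  set l : ℝ := d * η ^ 2 / (32 * a) with hl
  have hl0 : 0 < l := by positivity
  have hla : l * a = d * η ^ 2 / 32 := by rw [hl]; field_simp
  have hl1 : l ≤ 1 / 2 := by
    rw [hl, div_le_iff₀ (by positivity)]
    nlinarith
  have hsl : 32 ≤ s * l * η ^ 2 := by
    have : s * l * η ^ 2 = s * d * η ^ 4 / (32 * a) := by rw [hl]; field_simp
    rw [this, le_div_iff₀ (by positivity)]
    linarith
  have hK := (isClosed_pol S).measurableSet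
  have hN' := supf_subL hS
  have hg : 0 < gm (pol S) := (gm_ball_pos one_pos).trans_le (gm_mono (ball_subset_pol hS))
  have key := shiftA hK (convex_pol S) u hu hη hl0 (by linarith : l < 1)
  set c := Real.sqrt (η / (1 + η)) with hc
  have hc0 : 0 ≤ c := Real.sqrt_nonneg _
  have hc1 : c ≤ 1 := Real.sqrt_le_one.2 (by rw [div_le_one (by linarith)]; linarith)
  set A := {g : Fin d → ℝ | c • ∑ j, g j • u j ∈ l • pol S} with hA
  -- Markov
  have hint : Integrable (fun g : Fin d → ℝ => supf S (s • ∑ j, g j • u j)) (gp d) := by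
    have := (hN'.integrable_gp u).const_mul s
    refine this.congr (Filter.Eventually.of_forall fun g => ?_)
    simp only [hN'.2.2.1, abs_of_pos hs]
  have hm := mul_meas_ge_le_integral_of_nonneg
    (Filter.Eventually.of_forall fun g => hN'.1 _) hint (s * l)
  have hcov : (Set.univ : Set (Fin d → ℝ)) ⊆
      A ∪ {g | s * l ≤ supf S (s • ∑ j, g j • u j)} := by
    intro g _
    by_cases h : s * l ≤ supf S (s • ∑ j, g j • u j)
    · exact Or.inr h
    · left
      rw [not_le, hN'.2.2.1, abs_of_pos hs] at h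
      have h1 : supf S (∑ j, g j • u j) < l := lt_of_mul_lt_mul_left h hs.le
      refine ⟨(c / l) • ∑ j, g j • u j, ?_, ?_⟩
      · rw [mem_pol_iff hS, hN'.2.2.1, abs_of_nonneg (div_nonneg hc0 hl0.le), div_mul_eq_mul_div,
          div_le_one hl0]
        nlinarith [hN'.1 (∑ j, g j • u j)]
      · show l • (c / l) • ∑ j, g j • u j = _
        rw [smul_smul, mul_div_cancel₀ _ hl0.ne']
  have h1 : 1 ≤ (gp d).real A + (gp d).real {g | s * l ≤ supf S (s • ∑ j, g j • u j)} := by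
    rw [← probReal_univ (μ := gp d)]
    exact (measureReal_mono hcov).trans (measureReal_union_le _ _)
  have h2 : (gp d).real {g | s * l ≤ supf S (s • ∑ j, g j • u j)} ≤ η ^ 2 / 32 := by
    have h0 : 0 ≤ (gp d).real {g | s * l ≤ supf S (s • ∑ j, g j • u j)} := measureReal_nonneg
    have := mul_le_mul_of_nonneg_right hsl h0
    have h3 := mul_le_mul_of_nonneg_right (hm.trans hN) hη3.le
    nlinarith
  have hPA : Real.exp (-(d * η ^ 2 / 16)) ≤ (gp d).real A := by
    have h3 := shift_exp (x := η ^ 2 / 32) (by positivity) (by linarith)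
    refine le_trans (Real.exp_le_exp.2 ?_) (h3.trans (by linarith))
    nlinarith
  have hL : Real.exp (-(d * η ^ 2 / 16)) ≤ (1 - l) ^ a := by
    refine le_trans (le_of_eq ?_) (pow_le_pow_left₀ (Real.exp_pos _).le (shift_exp hl0.le hl1) a)
    rw [← Real.exp_nat_mul]
    congr 1
    linarith
  have hQ : Real.exp (d * ((η - η ^ 2 / 2) / 2)) ≤ Real.sqrt (1 + η) ^ d := by
    rw [Real.exp_nat_mul]
    exact pow_le_pow_left₀ (Real.exp_pos _).le (shift_sqrt hη) d
  have i1 : Integrable (fun x : E => -(η * ∑ j, ⟪u j, x⟫ ^ 2) / 2) (stdGaussian E) :=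
    ((integrable_finsetSum _ fun j _ => integrable_inner_sq (u j)).const_mul η).neg.div_const 2
  have i2 : Integrable (fun x : E => Real.exp (-(η * ∑ j, ⟪u j, x⟫ ^ 2) / 2)) (stdGaussian E) := by
    refine Integrable.of_bound (by fun_prop) 1 (Filter.Eventually.of_forall fun x => ?_)
    rw [Real.norm_of_nonneg (Real.exp_pos _).le, Real.exp_le_one_iff]
    have : 0 ≤ η * ∑ j, ⟪u j, x⟫ ^ 2 := by positivity
    linarith
  have hJ := jensen_exp (pol S) hK hg _ i1.integrableOn i2.integrableOn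
  have e1 : ∫ x in pol S, -(η * ∑ j, ⟪u j, x⟫ ^ 2) / 2 ∂(stdGaussian E) =
      -(η * ∑ j, mom (pol S) (u j)) / 2 := by
    rw [integral_div, integral_neg, integral_const_mul,
      integral_finsetSum _ fun j _ => (integrable_inner_sq (u j)).integrableOn]
    rfl
  have hJ' : gm (pol S) * Real.exp (-(η * ((1 - η) * d)) / 2) ≤
      ∫ x in pol S, Real.exp (-(η * ∑ j, ⟪u j, x⟫ ^ 2) / 2) ∂(stdGaussian E) := by
    refine le_trans (mul_le_mul_of_nonneg_left (Real.exp_le_exp.2 ?_) hg.le) hJ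
    rw [e1, le_div_iff₀ hg]
    nlinarith [mul_le_mul_of_nonneg_left hv hη.le]
  have hfin : Real.exp (d * ((η - η ^ 2 / 2) / 2)) * Real.exp (-(d * η ^ 2 / 16)) *
      Real.exp (-(d * η ^ 2 / 16)) * (gm (pol S) * Real.exp (-(η * ((1 - η) * d)) / 2)) ≤
      gm (pol S) := by
    refine le_trans ?_ key
    have hl2 : 0 ≤ 1 - l := by linarith
    gcongr
  have e2 : Real.exp (d * ((η - η ^ 2 / 2) / 2)) * Real.exp (-(d * η ^ 2 / 16)) *
      Real.exp (-(d * η ^ 2 / 16)) * (gm (pol S) * Real.exp (-(η * ((1 - η) * d)) / 2)) =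
      gm (pol S) * Real.exp (d * η ^ 2 / 8) := by
    rw [mul_comm (gm _), ← mul_assoc, ← Real.exp_add, ← Real.exp_add, ← Real.exp_add, mul_comm]
    congr 2
    ring
  rw [e2] at hfin
  have h5 : 1 < Real.exp (d * η ^ 2 / 8) := Real.one_lt_exp_iff.2 (by positivity)
  nlinarith

end Vale.Agent.RM
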