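import Vale.Agent.RM.Dens

open MeasureTheory ProbabilityTheory
open scoped RealInnerProductSpace Pointwise

namespace Vale.Agent.RM

variable {E : Type} [NormedAddCommGroup E] [InnerProductSpace ℝ E] [FiniteDimensional ℝ E]
  [MeasurableSpace E] [BorelSpace E]

/-- One dimensional convolution identity. -/
theorem conv_one {δ : ℝ} (hδ : 0 < δ) (x : ℝ) :
    Real.sqrt (1 + δ) * ∫ g, Real.exp (-((1 + δ) * (x - Real.sqrt (δ / (1 + δ)) * g) ^ 2) / 2)
      ∂(gaussianReal 0 1) = Real.exp (-x ^ 2 / 2) := by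
  have h1 : 0 < 1 + δ := by linarith
  have hc : Real.sqrt (δ / (1 + δ)) ^ 2 = δ / (1 + δ) := Real.sq_sqrt (by positivity)
  set c := Real.sqrt (δ / (1 + δ))
  have hc' : (1 + δ) * c ^ 2 = δ := by rw [hc]; field_simp
  rw [integral_gaussianReal_eq_integral_smul one_ne_zero]
  have e : ∀ g : ℝ, gaussianPDFReal 0 1 g • Real.exp (-((1 + δ) * (x - c * g) ^ 2) / 2) =
      ((Real.sqrt (2 * Real.pi))⁻¹ * Real.exp (-x ^ 2 / 2)) *
        Real.exp (-((1 + δ) / 2) * (g - c * x) ^ 2) := by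
    intro g
    simp only [gaussianPDFReal, NNReal.coe_one, mul_one, sub_zero, smul_eq_mul, mul_assoc,
      ← Real.exp_add]
    congr 2
    linear_combination ((x ^ 2 - g ^ 2) / 2) * hc'
  simp_rw [e]
  rw [integral_const_mul,
    integral_sub_right_eq_self (fun g : ℝ => Real.exp (-((1 + δ) / 2) * g ^ 2)) (c * x),
    integral_gaussian]
  have h2 : Real.sqrt (1 + δ) * Real.sqrt (Real.pi / ((1 + δ) / 2)) = Real.sqrt (2 * Real.pi) := by
    rw [← Real.sqrt_mul h1.le]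
    congr 1
    field_simp
  have h3 : Real.sqrt (2 * Real.pi) ≠ 0 := (Real.sqrt_pos.2 (by positivity)).ne'
  calc _ = (Real.sqrt (1 + δ) * Real.sqrt (Real.pi / ((1 + δ) / 2))) *
        (Real.sqrt (2 * Real.pi))⁻¹ * Real.exp (-x ^ 2 / 2) := by ring
    _ = _ := by rw [h2, mul_inv_cancel₀ h3, one_mul]

/-- The weight. -/
noncomputable def shiftA_e {d : ℕ} (u : Fin d → E) (δ : ℝ) (x : E) : ℝ :=
  dens x * Real.exp (-(δ * ∑ j, ⟪u j, x⟫ ^ 2) / 2)

theorem shiftA_pos {d : ℕ} (u : Fin d → E) (δ : ℝ) (x : E) : 0 < shiftA_e u δ x :=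
  mul_pos (dens_pos x) (Real.exp_pos _)

theorem shiftA_cont {d : ℕ} (u : Fin d → E) (δ : ℝ) : Continuous (shiftA_e u δ) :=
  continuous_dens.mul (by fun_prop)

theorem shiftA_le {d : ℕ} (u : Fin d → E) {δ : ℝ} (hδ : 0 < δ) (x : E) :
    shiftA_e u δ x ≤ dens x := by
  refine mul_le_of_le_one_right (dens_pos x).le (Real.exp_le_one_iff.2 ?_)
  have : 0 ≤ δ * ∑ j, ⟪u j, x⟫ ^ 2 := by positivity
  linarith

theorem shiftA_dint : Integrable (dens : E → ℝ) := by
  simpa using (integral_dens_smul (E := E) one_pos).1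

theorem shiftA_int {d : ℕ} (u : Fin d → E) {δ : ℝ} (hδ : 0 < δ) : Integrable (shiftA_e u δ) :=
  shiftA_dint.mono' (shiftA_cont u δ).aestronglyMeasurable (ae_of_all _ fun x => by
    rw [Real.norm_of_nonneg (shiftA_pos u δ x).le]; exact shiftA_le u hδ x)

omit [FiniteDimensional ℝ E] [MeasurableSpace E] [BorelSpace E] in
theorem shiftA_bd (x : E) :
    dens x ≤ (Real.sqrt (2 * Real.pi))⁻¹ ^ (Module.finrank ℝ E) := by
  refine mul_le_of_le_one_right (by positivity) (Real.exp_le_one_iff.2 ?_)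
  have := sq_nonneg ‖x‖
  linarith

omit [FiniteDimensional ℝ E] [MeasurableSpace E] [BorelSpace E] in
theorem shiftA_smul {d : ℕ} (u : Fin d → E) {δ : ℝ} (hδ : 0 < δ) {s : ℝ} (h0 : 0 < s)
    (h1 : s ≤ 1) (x : E) : shiftA_e u δ x ≤ shiftA_e u δ (s • x) := by
  have hs : s ^ 2 ≤ 1 := pow_le_one₀ h0.le h1
  unfold shiftA_e dens
  refine mul_le_mul (mul_le_mul_of_nonneg_left (Real.exp_le_exp.2 ?_) (by positivity))
    (Real.exp_le_exp.2 ?_) (by positivity) (by positivity)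
  · rw [norm_smul, mul_pow, Real.norm_eq_abs, sq_abs]
    nlinarith [sq_nonneg ‖x‖]
  · simp only [inner_smul_right, mul_pow, ← Finset.mul_sum]
    have : 0 ≤ δ * ∑ j, ⟪u j, x⟫ ^ 2 := by positivity
    nlinarith

omit [FiniteDimensional ℝ E] [MeasurableSpace E] [BorelSpace E] in
theorem shiftA_fact {d : ℕ} (u : Fin d → E) (hu : Orthonormal ℝ u) (δ c : ℝ) (x : E)
    (g : Fin d → ℝ) : shiftA_e u δ (x - c • ∑ j, g j • u j) =
      (dens x * ∏ j, Real.exp (⟪u j, x⟫ ^ 2 / 2)) *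
        ∏ j, Real.exp (-((1 + δ) * (⟪u j, x⟫ - c * g j) ^ 2) / 2) := by
  have h1 : ∀ j, ⟪u j, x - c • ∑ j, g j • u j⟫ = ⟪u j, x⟫ - c * g j := by
    intro j
    rw [inner_sub_right, inner_smul_right, hu.inner_right_fintype]
  have h2 : ⟪x, c • ∑ j, g j • u j⟫ = ∑ j, c * g j * ⟪u j, x⟫ := by
    rw [inner_smul_right, inner_sum, Finset.mul_sum]
    refine Finset.sum_congr rfl fun j _ => ?_
    rw [inner_smul_right, real_inner_comm, mul_assoc]
  have h3 : ‖c • ∑ j, g j • u j‖ ^ 2 = ∑ j, (c * g j) ^ 2 := by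
    rw [← real_inner_self_eq_norm_sq, inner_smul_left, inner_smul_right, hu.inner_sum,
      Finset.mul_sum, Finset.mul_sum]
    refine Finset.sum_congr rfl fun j _ => ?_
    simp only [conj_trivial]
    ring
  unfold shiftA_e dens
  simp only [h1, norm_sub_sq_real, h2, h3, ← Real.exp_sum, mul_assoc, ← Real.exp_add]
  congr 2
  have h4 : ∑ j, ⟪u j, x⟫ ^ 2 / 2 + ∑ j, -((1 + δ) * (⟪u j, x⟫ - c * g j) ^ 2) / 2 =
      ∑ j, c * (g j * ⟪u j, x⟫) - (∑ j, (c * g j) ^ 2) / 2 -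
        δ * (∑ j, (⟪u j, x⟫ - c * g j) ^ 2) / 2 := by
    rw [Finset.mul_sum, Finset.sum_div, Finset.sum_div, ← Finset.sum_add_distrib,
      ← Finset.sum_sub_distrib, ← Finset.sum_sub_distrib]
    exact Finset.sum_congr rfl fun j _ => by ring
  linear_combination -h4

omit [FiniteDimensional ℝ E] [MeasurableSpace E] [BorelSpace E] in
theorem shiftA_conv {d : ℕ} (u : Fin d → E) (hu : Orthonormal ℝ u) {δ : ℝ} (hδ : 0 < δ) (x : E) :
    Real.sqrt (1 + δ) ^ d *
      ∫ g, shiftA_e u δ (x - Real.sqrt (δ / (1 + δ)) • ∑ j, g j • u j) ∂(gp d) = dens x := by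
  simp_rw [shiftA_fact u hu]
  rw [integral_const_mul, integral_fintype_prod_eq_prod (fun j (t : ℝ) =>
    Real.exp (-((1 + δ) * (⟪u j, x⟫ - Real.sqrt (δ / (1 + δ)) * t) ^ 2) / 2))]
  have h1 : Real.sqrt (1 + δ) ^ d = ∏ _j : Fin d, Real.sqrt (1 + δ) := by simp
  rw [h1, mul_left_comm, ← Finset.prod_mul_distrib]
  simp only [conv_one hδ]
  rw [mul_assoc, ← Finset.prod_mul_distrib, Finset.prod_eq_one, mul_one]
  intro j _
  rw [← Real.exp_add, Real.exp_eq_one_iff]
  ring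

theorem shiftA_low {K : Set E} (hK : MeasurableSet K) (hc : Convex ℝ K) {d : ℕ} (u : Fin d → E)
    {δ l : ℝ} (hδ : 0 < δ) (hl : 0 < l) (hl1 : l < 1) {w : E} (hw : w ∈ l • K) :
    (1 - l) ^ (Module.finrank ℝ E) * ∫ x in K, shiftA_e u δ x ≤
      ∫ x in K, shiftA_e u δ (x - w) := by
  have hs : 0 < 1 - l := by linarith
  have hK' : MeasurableSet ((1 - l) • K) := hK.const_smul_of_ne_zero hs.ne'
  have hi := shiftA_int u hδ
  calc _ ≤ (1 - l) ^ (Module.finrank ℝ E) * ∫ x in K, shiftA_e u δ ((1 - l) • x) :=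
        mul_le_mul_of_nonneg_left (integral_mono hi.integrableOn
          (hi.comp_smul hs.ne').integrableOn
          fun x => shiftA_smul u hδ hs (by linarith) x) (by positivity)
    _ = ∫ x, ((1 - l) • K).indicator (shiftA_e u δ) x := by
        rw [← setIntegral_smul_set K hK hs, integral_indicator hK']
    _ ≤ ∫ x, K.indicator (fun y => shiftA_e u δ (y - w)) (x + w) := by
        refine integral_mono (hi.indicator hK')
          (((hi.comp_sub_right w).indicator hK).comp_add_right w) fun x => ?_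
        by_cases hx : x ∈ (1 - l) • K
        · obtain ⟨a, ha, rfl⟩ := hw
          have hm : x + l • a ∈ K := by
            obtain ⟨b, hb, rfl⟩ := hx
            exact hc hb ha hs.le hl.le (by ring)
          simp only [Set.indicator_of_mem hx, Set.indicator_of_mem hm, add_sub_cancel_right,
            le_refl]
        · rw [Set.indicator_of_notMem hx]
          exact Set.indicator_nonneg (fun y _ => (shiftA_pos u δ _).le) _
    _ = _ := by
        rw [integral_add_right_eq_self (K.indicator fun y => shiftA_e u δ (y - w)) w,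
          integral_indicator hK]

/-- Put `q x = ‖x‖² + δ ∑ ⟪u j, x⟫²`, `w g = √(δ/(1+δ)) ∑ g j • u j`. By `conv_one` and
`integral_fintype_prod_eq_prod`, `exp(-‖x‖²/2) = √(1+δ)^d ∫ exp(-q(x - w g)/2) dgp`
(`q(x - w g) = ‖x‖² - ∑ ⟪u j,x⟫² + (1+δ) ∑ (⟪u j,x⟫ - √(δ/(1+δ)) g j)²`). Swap the integrals;
for `w g ∈ l • K` one has `(1-l) • K + w g ⊆ K`, so
`∫_K exp(-q(x - w g)/2) dx ≥ ∫_{(1-l)K} exp(-q/2) ≥ (1-l)^a ∫_K exp(-q/2)`. -/
theorem shiftA {K : Set E} (hK : MeasurableSet K) (hc : Convex ℝ K) {d : ℕ} (u : Fin d → E)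
    (hu : Orthonormal ℝ u) {δ l : ℝ} (hδ : 0 < δ) (hl : 0 < l) (hl1 : l < 1) :
    Real.sqrt (1 + δ) ^ d *
        (gp d).real {g | Real.sqrt (δ / (1 + δ)) • ∑ j, g j • u j ∈ l • K} *
        (1 - l) ^ (Module.finrank ℝ E) *
        (∫ x in K, Real.exp (-(δ * ∑ j, ⟪u j, x⟫ ^ 2) / 2) ∂(stdGaussian E)) ≤ gm K := by
  set c := Real.sqrt (δ / (1 + δ))
  have hsq : 0 < Real.sqrt (1 + δ) ^ d := pow_pos (Real.sqrt_pos.2 (by linarith)) d
  have hcont : Continuous fun p : E × (Fin d → ℝ) =>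
      shiftA_e u δ (p.1 - c • ∑ j, p.2 j • u j) := (shiftA_cont u δ).comp (by fun_prop)
  have hI : Integrable (fun p : E × (Fin d → ℝ) => shiftA_e u δ (p.1 - c • ∑ j, p.2 j • u j))
      ((volume.restrict K).prod (gp d)) := by
    rw [integrable_prod_iff hcont.aestronglyMeasurable]
    refine ⟨ae_of_all _ fun x => ?_, ?_⟩
    · refine Integrable.of_bound
        (hcont.comp (Continuous.prodMk_right x)).aestronglyMeasurable
        ((Real.sqrt (2 * Real.pi))⁻¹ ^ (Module.finrank ℝ E)) (ae_of_all _ fun g => ?_)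
      rw [Real.norm_of_nonneg (shiftA_pos u δ _).le]
      exact (shiftA_le u hδ _).trans (shiftA_bd _)
    · refine ((shiftA_dint (E := E)).integrableOn.const_mul (Real.sqrt (1 + δ) ^ d)⁻¹).congr
        (ae_of_all _ fun x => ?_)
      simp only [Real.norm_of_nonneg (shiftA_pos u δ _).le]
      rw [← shiftA_conv u hu hδ x, ← mul_assoc, inv_mul_cancel₀ hsq.ne', one_mul]
  have e1 : gm K = Real.sqrt (1 + δ) ^ d *
      ∫ g, (∫ x in K, shiftA_e u δ (x - c • ∑ j, g j • u j)) ∂(gp d) := by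
    rw [gm_eq K hK, ← integral_integral_swap hI, ← integral_const_mul]
    exact integral_congr_ae (ae_of_all _ fun x => (shiftA_conv u hu hδ x).symm)
  have e2 : ∫ x in K, Real.exp (-(δ * ∑ j, ⟪u j, x⟫ ^ 2) / 2) ∂(stdGaussian E) =
      ∫ x in K, shiftA_e u δ x := setIntegral_std K hK _
  have h0 : 0 ≤ (1 - l) ^ (Module.finrank ℝ E) * ∫ x in K, shiftA_e u δ x :=
    mul_nonneg (pow_nonneg (by linarith) _) (integral_nonneg fun x => (shiftA_pos u δ x).le)
  have h1 := mul_meas_ge_le_integral_of_nonneg (μ := gp d)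
    (f := fun g => ∫ x in K, shiftA_e u δ (x - c • ∑ j, g j • u j))
    (ae_of_all _ fun g => integral_nonneg fun x => (shiftA_pos u δ _).le) hI.integral_prod_right
    ((1 - l) ^ (Module.finrank ℝ E) * ∫ x in K, shiftA_e u δ x)
  have h2 : (gp d).real {g | c • ∑ j, g j • u j ∈ l • K} ≤ (gp d).real
      {g | (1 - l) ^ (Module.finrank ℝ E) * ∫ x in K, shiftA_e u δ x ≤
        ∫ x in K, shiftA_e u δ (x - c • ∑ j, g j • u j)} :=
    measureReal_mono fun g hg => shiftA_low hK hc u hδ hl hl1 hg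
  rw [e1, e2, mul_assoc, mul_assoc]
  refine mul_le_mul_of_nonneg_left ?_ hsq.le
  rw [mul_comm]
  exact (mul_le_mul_of_nonneg_left h2 h0).trans h1

end Vale.Agent.RM
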