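import Vale.Agent.RM.Mom
import Vale.Agent.P074.PLd

open MeasureTheory ProbabilityTheory
open scoped RealInnerProductSpace Pointwise

namespace Vale.Agent.RM

variable {E : Type} [NormedAddCommGroup E] [InnerProductSpace ℝ E] [FiniteDimensional ℝ E]
  [MeasurableSpace E] [BorelSpace E]

theorem step_four : P074.FourFn (volume : Measure E) (fun x y => (1 / 2 : ℝ) • (x + y)) := by
  refine P074.FourFn.transfer (stdOrthonormalBasis ℝ E).repr.symm
    (stdOrthonormalBasis ℝ E).repr.symm.measurePreserving (fun x y => ?_)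
    (P074.fourFn_euclid (Module.finrank ℝ E))
  simp only [map_smul, map_add]

theorem step_half (p : ENNReal) : p ^ (1 / 2 : ℝ) * p ^ (1 / 2 : ℝ) = p := by
  rw [← ENNReal.rpow_add_of_nonneg _ _ (by norm_num) (by norm_num)]
  norm_num

/-- Midpoint Prekopa-Leindler: `P074.fourFn_euclid` with `A = f`, `B = 0`, transferred along
`(stdOrthonormalBasis ℝ E).repr.symm` by `P074.FourFn.transfer`. -/
theorem pl_mid (f g h : E → ENNReal) (hf : Measurable f) (hg : Measurable g) (hh : Measurable h)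
    (hf1 : ∫⁻ x, f x ≠ ⊤) (hg1 : ∫⁻ x, g x ≠ ⊤)
    (H : ∀ x y, f x * g y ≤ h ((1 / 2 : ℝ) • (x + y)) ^ 2) :
    (∫⁻ x, f x) * (∫⁻ x, g x) ≤ (∫⁻ x, h x) ^ 2 := by
  have h1 := step_four f g f (fun _ => 0) h hf hg hf measurable_const hh (fun x y => by
    rw [mul_zero, add_zero]
    have h2 : (f x * g y) ^ (1 / 2 : ℝ) ≤ h ((1 / 2 : ℝ) • (x + y)) := by
      refine (ENNReal.rpow_le_rpow (H x y) (by norm_num)).trans (le_of_eq ?_)
      rw [← ENNReal.rpow_two, ← ENNReal.rpow_mul]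
      norm_num
    calc f x * g y = (f x * g y) ^ (1 / 2 : ℝ) * (f x * g y) ^ (1 / 2 : ℝ) := (step_half _).symm
      _ ≤ _ := by gcongr)
  rw [lintegral_zero, mul_zero, add_zero] at h1
  have ht : (∫⁻ x, f x) * (∫⁻ x, g x) ≠ ⊤ := ENNReal.mul_ne_top hf1 hg1
  generalize (∫⁻ x, f x) * (∫⁻ x, g x) = p at h1 ht ⊢
  by_cases h0 : p = 0
  · rw [h0]
    exact zero_le
  have h3 : p ^ (1 / 2 : ℝ) ≤ ∫⁻ x, h x := by
    refine (ENNReal.mul_le_mul_iff_right (a := p ^ (1 / 2 : ℝ)) ?_ ?_).1 ?_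
    · exact (ENNReal.rpow_pos (pos_iff_ne_zero.2 h0) ht).ne'
    · exact ENNReal.rpow_ne_top_of_nonneg (by norm_num) ht
    · rw [step_half]
      exact h1
  calc p = p ^ (1 / 2 : ℝ) * p ^ (1 / 2 : ℝ) := (step_half _).symm
    _ ≤ (∫⁻ x, h x) * ∫⁻ x, h x := by gcongr
    _ = _ := (pow_two _).symm

omit [FiniteDimensional ℝ E] [MeasurableSpace E] [BorelSpace E] in
theorem step_dens (x y : E) : dens x * dens y ≤ dens ((1 / 2 : ℝ) • (x + y)) ^ 2 := by
  have h1 : ‖(1 / 2 : ℝ) • (x + y)‖ ^ 2 ≤ (‖x‖ ^ 2 + ‖y‖ ^ 2) / 2 := by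
    rw [norm_smul, Real.norm_of_nonneg (by norm_num), mul_pow]
    have h2 : ‖x + y‖ ^ 2 ≤ (‖x‖ + ‖y‖) ^ 2 := by gcongr; exact norm_add_le _ _
    nlinarith [sq_nonneg (‖x‖ - ‖y‖)]
  unfold dens
  have h2 : Real.exp (-‖x‖ ^ 2 / 2) * Real.exp (-‖y‖ ^ 2 / 2) ≤
      Real.exp (-‖(1 / 2 : ℝ) • (x + y)‖ ^ 2 / 2) ^ 2 := by
    rw [pow_two (Real.exp _), ← Real.exp_add, ← Real.exp_add]
    exact Real.exp_le_exp.2 (by linarith)
  have h3 : 0 ≤ ((Real.sqrt (2 * Real.pi))⁻¹ ^ (Module.finrank ℝ E)) ^ 2 := by positivity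
  calc _ = ((Real.sqrt (2 * Real.pi))⁻¹ ^ (Module.finrank ℝ E)) ^ 2 *
        (Real.exp (-‖x‖ ^ 2 / 2) * Real.exp (-‖y‖ ^ 2 / 2)) := by ring
    _ ≤ _ := (mul_le_mul_of_nonneg_left h2 h3).trans (le_of_eq (by ring))

theorem step_meas {A : Set E} (hA : MeasurableSet A) :
    ∫⁻ x, A.indicator (fun x => ENNReal.ofReal (dens x)) x = stdGaussian E A := by
  rw [lintegral_indicator hA, std_eq, withDensity_apply _ hA]

theorem gm_mid {A B K : Set E} (hA : MeasurableSet A) (hB : MeasurableSet B)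
    (hK : MeasurableSet K) (H : ∀ x ∈ A, ∀ y ∈ B, (1 / 2 : ℝ) • (x + y) ∈ K) :
    gm A * gm B ≤ gm K ^ 2 := by
  have hm : Measurable fun x : E => ENNReal.ofReal (dens x) :=
    continuous_dens.measurable.ennreal_ofReal
  have h1 := pl_mid _ _ _ (hm.indicator hA) (hm.indicator hB) (hm.indicator hK)
    (by rw [step_meas hA]; exact measure_ne_top _ _)
    (by rw [step_meas hB]; exact measure_ne_top _ _) (fun x y => by
      by_cases hx : x ∈ A
      · by_cases hy : y ∈ B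
        · rw [Set.indicator_of_mem hx, Set.indicator_of_mem hy, Set.indicator_of_mem (H x hx y hy),
            ← ENNReal.ofReal_mul (dens_pos x).le, ← ENNReal.ofReal_pow (dens_pos _).le]
          exact ENNReal.ofReal_le_ofReal (step_dens x y)
        · rw [Set.indicator_of_notMem hy, mul_zero]
          exact zero_le
      · rw [Set.indicator_of_notMem hx, zero_mul]
        exact zero_le)
  rw [step_meas hA, step_meas hB, step_meas hK] at h1
  unfold gm Measure.real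
  rw [← ENNReal.toReal_mul, ← ENNReal.toReal_pow]
  exact ENNReal.toReal_mono (ENNReal.pow_ne_top (measure_ne_top _ _)) h1

theorem step_log {l : ℝ} (hl : 0 < l) (hl1 : l ≤ 1 / 2) :
    Real.exp (-(l + 3 / 2 * l ^ 2)) ≤ 1 - l := by
  have h1 := Real.quadratic_le_exp_of_nonneg (x := l + 3 / 2 * l ^ 2) (by positivity)
  have h2 : 1 + l + 2 * l ^ 2 ≤ Real.exp (l + 3 / 2 * l ^ 2) := by
    nlinarith [pow_pos hl 3, pow_pos hl 4]
  rw [Real.exp_neg, inv_le_iff_one_le_mul₀ (Real.exp_pos _)]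
  have h3 : 0 ≤ 1 - l := by linarith
  nlinarith [mul_le_mul_of_nonneg_left h2 h3, mul_nonneg (sq_nonneg l) (sub_nonneg.2 hl1)]

/-- `gm ((1-l) • K) = (1-l)^a ∫_K exp((l - l²/2)‖x‖²) dγ ≥ gm K exp(-a(lη + 2l²))`
(`setIntegral_smul_set`, `jensen_exp`, `log(1-l) ≥ -l-l²`), then `gm_mid` with
`A = (1-l) • K`, `B = (1+l) • K`. -/
theorem step {K : Set E} (hK : MeasurableSet K) (hc : Convex ℝ K) (h0 : 0 < gm K) {l η : ℝ}
    (hl : 0 < l) (hl1 : l ≤ 1 / 2) (hη : 0 ≤ η)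
    (h : (1 - η) * Module.finrank ℝ E * gm K ≤ ∫ x in K, ‖x‖ ^ 2 ∂(stdGaussian E)) :
    gm ((1 + l) • K) ≤ gm K * Real.exp (Module.finrank ℝ E * (l * η + 2 * l ^ 2)) := by
  have hm : 0 < 1 - l := by linarith
  have hp : 0 < 1 + l := by linarith
  have hA : MeasurableSet ((1 - l) • K) := hK.const_smul₀ _
  have hB : MeasurableSet ((1 + l) • K) := hK.const_smul₀ _
  set c : ℝ := l - l ^ 2 / 2 with hcd
  have hc0 : 0 ≤ c := by nlinarith
  have hc1 : c < 1 / 2 := by nlinarith [sq_pos_of_pos hm]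
  have ha : (0 : ℝ) ≤ Module.finrank ℝ E := Nat.cast_nonneg _
  have e1 : gm ((1 - l) • K) =
      (1 - l) ^ Module.finrank ℝ E * ∫ x in K, Real.exp (c * ‖x‖ ^ 2) ∂(stdGaussian E) := by
    rw [gm_eq _ hA, setIntegral_smul_set K hK hm, setIntegral_std K hK]
    congr 1
    refine setIntegral_congr_fun hK fun x _ => ?_
    simp only [dens]
    rw [mul_assoc, ← Real.exp_add, norm_smul, Real.norm_of_nonneg hm.le]
    congr 2
    rw [hcd]
    ring
  have j := jensen_exp K hK h0 (fun x => c * ‖x‖ ^ 2) (integrable_normsq.const_mul c).integrableOn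
    (integrable_exp_normsq hc1).integrableOn
  rw [integral_const_mul] at j
  have j1 : Module.finrank ℝ E * (c - l * η) ≤
      c * (∫ x in K, ‖x‖ ^ 2 ∂(stdGaussian E)) / gm K := by
    rw [le_div_iff₀ h0]
    have h1 : c - l * η ≤ c * (1 - η) := by nlinarith [mul_nonneg (sq_nonneg l) hη]
    calc _ ≤ Module.finrank ℝ E * (c * (1 - η)) * gm K := by gcongr
      _ = c * ((1 - η) * Module.finrank ℝ E * gm K) := by ring
      _ ≤ _ := mul_le_mul_of_nonneg_left h hc0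
  have j2 : gm K * Real.exp (-(Module.finrank ℝ E * (l * η + 2 * l ^ 2))) ≤ gm ((1 - l) • K) := by
    rw [e1]
    calc _ = Real.exp (-(l + 3 / 2 * l ^ 2)) ^ Module.finrank ℝ E *
          (gm K * Real.exp (Module.finrank ℝ E * (c - l * η))) := by
          rw [← Real.exp_nat_mul, mul_left_comm, ← Real.exp_add]
          congr 2
          rw [hcd]
          ring
      _ ≤ (1 - l) ^ Module.finrank ℝ E *
          (gm K * Real.exp (c * (∫ x in K, ‖x‖ ^ 2 ∂(stdGaussian E)) / gm K)) := by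
          gcongr
          exact step_log hl hl1
      _ ≤ _ := by gcongr
  have j3 := gm_mid hA hB hK (by
    rintro _ ⟨p, hp', rfl⟩ _ ⟨q, hq, rfl⟩
    have := hc hp' hq (a := (1 - l) / 2) (b := (1 + l) / 2) (by linarith) (by linarith) (by ring)
    simp only [smul_add, smul_smul]
    rw [show 1 / 2 * (1 - l) = (1 - l) / 2 by ring, show 1 / 2 * (1 + l) = (1 + l) / 2 by ring]
    exact this)
  have j4 : gm K * Real.exp (-(Module.finrank ℝ E * (l * η + 2 * l ^ 2))) * gm ((1 + l) • K) ≤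
      gm K ^ 2 := (mul_le_mul_of_nonneg_right j2 (gm_nonneg _)).trans j3
  rw [Real.exp_neg] at j4
  have he := Real.exp_pos (Module.finrank ℝ E * (l * η + 2 * l ^ 2))
  generalize Real.exp (Module.finrank ℝ E * (l * η + 2 * l ^ 2)) = e at j4 he ⊢
  rw [← div_le_iff₀ he]
  refine le_of_mul_le_mul_left (le_trans (le_of_eq ?_) (j4.trans (le_of_eq (pow_two _)))) h0
  ring

end Vale.Agent.RM
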