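import Vale.Agent.RM.Pack
import Vale.Agent.RM.Sq

open MeasureTheory ProbabilityTheory
open scoped RealInnerProductSpace Pointwise

namespace Vale.Agent.RM

variable {E : Type} [NormedAddCommGroup E] [InnerProductSpace ℝ E]

theorem varA_inv {ε : ℝ} (hε : 0 < ε) : -ε ≤ (1 + ε)⁻¹ - 1 ∧ (1 + ε)⁻¹ - 1 ≤ 0 := by
  have h : 0 < 1 + ε := by linarith
  have h1 : (1 + ε)⁻¹ * (1 + ε) = 1 := inv_mul_cancel₀ h.ne'
  have h2 : 0 < (1 + ε)⁻¹ := inv_pos.2 h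
  constructor <;> nlinarith [mul_pos h2 hε, mul_pos (mul_pos h2 hε) hε]

theorem varA_norm {ε : ℝ} (hε : 0 < ε) {u v : E} (hu : ‖u‖ = 1) (hv : ‖v‖ = 1)
    (huv : ⟪u, v⟫ = 0) (x : E) :
    (1 - ε) * ‖x‖ ^ 2 ≤ ‖sq (Real.sqrt (1 + ε)) u v x‖ ^ 2 ∧
      ‖sq (Real.sqrt (1 + ε)) u v x‖ ^ 2 ≤ (1 + ε) * ‖x‖ ^ 2 := by
  have h : 0 < 1 + ε := by linarith
  rw [sq_norm_sq (Real.sqrt_pos.2 h) hu hv huv, Real.sq_sqrt h.le]
  obtain ⟨h1, h2⟩ := varA_inv hε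
  have hb := bessel_two hu hv huv x
  have ha := sq_nonneg ⟪u, x⟫
  have hc := sq_nonneg ⟪v, x⟫
  constructor
  · nlinarith [mul_le_mul_of_nonneg_right h1 hc, mul_nonneg hε.le ha]
  · nlinarith [mul_le_mul_of_nonneg_right h2 hc, mul_nonneg hε.le hc]

theorem varA_inner {ε : ℝ} (hε : 0 < ε) {u v : E} (hu : ‖u‖ = 1) (hv : ‖v‖ = 1)
    (huv : ⟪u, v⟫ = 0) (x y : E) :
    ⟪sq (Real.sqrt (1 + ε)) u v x, sq (Real.sqrt (1 + ε)) u v y⟫ ≤
      ⟪x, y⟫ + 2 * ε * (‖x‖ * ‖y‖) := by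
  have h : 0 < 1 + ε := by linarith
  rw [sq_inner (Real.sqrt_pos.2 h) hu hv huv, Real.sq_sqrt h.le]
  obtain ⟨h1, h2⟩ := varA_inv hε
  have key : ∀ w : E, ‖w‖ = 1 → |⟪w, x⟫ * ⟪w, y⟫| ≤ ‖x‖ * ‖y‖ := by
    intro w hw
    have a := abs_real_inner_le_norm w x
    have b := abs_real_inner_le_norm w y
    rw [hw, one_mul] at a b
    rw [abs_mul]
    exact mul_le_mul a b (abs_nonneg _) (norm_nonneg _)
  have k1 := abs_le.1 (key u hu)
  have k2 := abs_le.1 (key v hv)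
  have hn : 0 ≤ ‖x‖ * ‖y‖ := by positivity
  nlinarith [mul_le_mul_of_nonneg_left k1.2 hε.le,
    mul_nonneg (sub_nonneg.2 h2) (neg_le_iff_add_nonneg'.1 k2.1),
    mul_le_mul_of_nonneg_right h1 hn]

theorem varA_off {L : Submodule ℤ E} (hL : Sep L) {ε ρ : ℝ} (hε : 0 < ε) (hρ : 1 ≤ ρ)
    (hθ : ε * (1 + 4 * ρ) ≤ 1 / 2) {u v : E} (hu : ‖u‖ = 1) (hv : ‖v‖ = 1) (huv : ⟪u, v⟫ = 0)
    {x y : E} (hx : x ∈ (1 - ε * (1 + 4 * ρ)) • vor L) (hxρ : ‖x‖ ≤ ρ) (hy : y ∈ L) :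
    ‖sq (Real.sqrt (1 + ε)) u v x‖ ^ 2 ≤ ‖sq (Real.sqrt (1 + ε)) u v (x - y)‖ ^ 2 := by
  by_cases h0 : y = 0
  · rw [h0, sub_zero]
  have h1 := hL y hy h0
  obtain ⟨z, hz, rfl⟩ := hx
  have h2 := hz y hy
  have h3 := varA_inner hε hu hv huv ((1 - ε * (1 + 4 * ρ)) • z) y
  have h4 := (varA_norm hε hu hv huv y).1
  simp only at hxρ h3 ⊢
  rw [map_sub, norm_sub_sq_real]
  rw [real_inner_smul_left] at h3
  have h5 : (1 - ε * (1 + 4 * ρ)) * (2 * ⟪z, y⟫) ≤ (1 - ε * (1 + 4 * ρ)) * ‖y‖ ^ 2 :=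
    mul_le_mul_of_nonneg_left h2 (by linarith)
  have h6 : ‖(1 - ε * (1 + 4 * ρ)) • z‖ * ‖y‖ ≤ ρ * ‖y‖ ^ 2 :=
    mul_le_mul hxρ (by nlinarith) (norm_nonneg _) (by linarith)
  nlinarith [mul_le_mul_of_nonneg_left h6 hε.le]

theorem varA_exp {ε r a b : ℝ} (hε : 0 < ε) (hε1 : ε ≤ 1 / 2) (hr : 0 ≤ r) (ha : (1 - ε) * r ≤ a)
    (hb : b ≤ (1 + ε) * r) :
    Real.exp (-a / 2) ≤ Real.exp (-b / 2) + ε * r * Real.exp (-r / 4) := by
  have h1 : Real.exp (-a / 2) ≤ Real.exp (-((1 - ε) * r) / 2) := Real.exp_le_exp.2 (by linarith)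
  have h2 : Real.exp (-((1 - ε) * r) / 2) * Real.exp (-(ε * r)) ≤ Real.exp (-b / 2) := by
    rw [← Real.exp_add]
    exact Real.exp_le_exp.2 (by linarith)
  have h3 : Real.exp (-((1 - ε) * r) / 2) ≤ Real.exp (-r / 4) :=
    Real.exp_le_exp.2 (by nlinarith)
  have h4 : -(ε * r) + 1 ≤ Real.exp (-(ε * r)) := Real.add_one_le_exp _
  have h5 : 0 ≤ ε * r := by positivity
  nlinarith [mul_le_mul_of_nonneg_left h4 (Real.exp_pos (-((1 - ε) * r) / 2)).le,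
    mul_le_mul_of_nonneg_left h3 h5]

theorem varA_far {r q : ℝ} (hq : 0 < q) (hr : q ≤ r) :
    r * Real.exp (-r / 4) ≤ 128 / q * Real.exp (-(r / 4) / 2) := by
  have h1 : (r / 8) ^ 2 / 2 ≤ Real.exp (r / 8) := by
    have := Real.pow_div_factorial_le_exp (r / 8) (by linarith) 2
    simpa using this
  have h2 : Real.exp (-(r / 4) / 2) = Real.exp (r / 8) * Real.exp (-r / 4) := by
    rw [← Real.exp_add]; congr 1; ring
  rw [h2, ← mul_assoc]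
  refine mul_le_mul_of_nonneg_right ?_ (Real.exp_pos _).le
  rw [div_mul_eq_mul_div, le_div_iff₀ hq]
  nlinarith [mul_le_mul_of_nonneg_left hr (hq.le.trans hr)]

theorem varA_near {r q : ℝ} (hr0 : 0 ≤ r) (hr : r ≤ q) :
    r * Real.exp (-r / 4) ≤ q * Real.exp (q / 4) * Real.exp (-r / 2) := by
  have h2 : Real.exp (-r / 4) = Real.exp (r / 4) * Real.exp (-r / 2) := by
    rw [← Real.exp_add]; congr 1; ring
  rw [h2, ← mul_assoc]
  refine mul_le_mul_of_nonneg_right ?_ (Real.exp_pos _).le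
  exact mul_le_mul hr (Real.exp_le_exp.2 (by linarith)) (Real.exp_pos _).le (hr0.trans hr)

variable [FiniteDimensional ℝ E] [MeasurableSpace E] [BorelSpace E]

theorem varA_bound {L : Submodule ℤ E} (hL : Sep L) {ε ρ : ℝ} (hε : 0 < ε) (hρ : 1 ≤ ρ)
    (hθ : ε * (1 + 4 * ρ) ≤ 1 / 2) {u v : E} (hu : ‖u‖ = 1) (hv : ‖v‖ = 1) (huv : ⟪u, v⟫ = 0)
    {x y : E} (hx : x ∈ vor L) (hy : y ∈ L) :
    dens (sq (Real.sqrt (1 + ε)) u v (x - y)) ≤ dens (sq (Real.sqrt (1 + ε)) u v x) +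
      (ε * (ρ ^ 2 * Real.exp (ρ ^ 2 / 4)) * ((1 - ε * (1 + 4 * ρ)) • vor L)ᶜ.indicator dens x +
        ε * (128 / ρ ^ 2) * dens ((1 / 2 : ℝ) • x)) := by
  have hε1 : ε ≤ 1 / 2 := by nlinarith
  have hρ0 : 0 < ρ := by linarith
  have p1 : 0 ≤ ε * (ρ ^ 2 * Real.exp (ρ ^ 2 / 4)) *
      ((1 - ε * (1 + 4 * ρ)) • vor L)ᶜ.indicator dens x :=
    mul_nonneg (by positivity) (Set.indicator_nonneg (fun z _ => (dens_pos z).le) _)
  have p2 : 0 ≤ ε * (128 / ρ ^ 2) * dens ((1 / 2 : ℝ) • x) :=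
    mul_nonneg (by positivity) (dens_pos _).le
  set c : ℝ := (Real.sqrt (2 * Real.pi))⁻¹ ^ (Module.finrank ℝ E) with hc
  have hc0 : 0 ≤ c := by positivity
  have hon : dens (sq (Real.sqrt (1 + ε)) u v (x - y)) ≤ dens (sq (Real.sqrt (1 + ε)) u v x) +
      c * (ε * ‖x‖ ^ 2 * Real.exp (-‖x‖ ^ 2 / 4)) := by
    have h1 : ‖x‖ ^ 2 ≤ ‖x - y‖ ^ 2 :=
      pow_le_pow_left₀ (norm_nonneg _) (norm_le_of_mem_vor hx hy) 2
    have h2 := varA_exp hε hε1 (sq_nonneg ‖x‖)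
      ((mul_le_mul_of_nonneg_left h1 (by linarith)).trans (varA_norm hε hu hv huv (x - y)).1)
      (varA_norm hε hu hv huv x).2
    simp only [dens]
    rw [← hc, ← mul_add]
    exact mul_le_mul_of_nonneg_left h2 hc0
  by_cases hxρ : ‖x‖ ≤ ρ
  · by_cases hA : x ∈ (1 - ε * (1 + 4 * ρ)) • vor L
    · have h1 := varA_off hL hε hρ hθ hu hv huv hA hxρ hy
      have h2 : dens (sq (Real.sqrt (1 + ε)) u v (x - y)) ≤
          dens (sq (Real.sqrt (1 + ε)) u v x) :=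
        mul_le_mul_of_nonneg_left (Real.exp_le_exp.2 (by linarith)) hc0
      linarith
    · have h1 := varA_near (sq_nonneg ‖x‖) (pow_le_pow_left₀ (norm_nonneg _) hxρ 2)
      have h2 : c * (ε * ‖x‖ ^ 2 * Real.exp (-‖x‖ ^ 2 / 4)) ≤
          ε * (ρ ^ 2 * Real.exp (ρ ^ 2 / 4)) * dens x := by
        simp only [dens]
        rw [← hc]
        nlinarith [mul_le_mul_of_nonneg_left h1 (mul_nonneg hc0 hε.le)]
      rw [Set.indicator_of_mem (Set.mem_compl hA)]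
      linarith
  · have h1 := varA_far (r := ‖x‖ ^ 2) (pow_pos hρ0 2)
      (pow_le_pow_left₀ hρ0.le (not_le.1 hxρ).le 2)
    have h2 : c * (ε * ‖x‖ ^ 2 * Real.exp (-‖x‖ ^ 2 / 4)) ≤
        ε * (128 / ρ ^ 2) * dens ((1 / 2 : ℝ) • x) := by
      have e : ‖(1 / 2 : ℝ) • x‖ ^ 2 = ‖x‖ ^ 2 / 4 := by
        rw [norm_smul, mul_pow, Real.norm_eq_abs, sq_abs]; ring
      simp only [dens]
      rw [← hc, e]
      nlinarith [mul_le_mul_of_nonneg_left h1 (mul_nonneg hc0 hε.le)]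
    linarith

theorem varA_shell (L : Submodule ℤ E) {θ : ℝ} (h0 : 0 ≤ θ) (h1 : θ ≤ 1 / 2) :
    ∫ x in vor L, ((1 - θ) • vor L)ᶜ.indicator dens x ≤ Module.finrank ℝ E * θ := by
  have hV : MeasurableSet (vor L) := (isClosed_vor L).measurableSet
  have hW : MeasurableSet ((1 - θ) • vor L) := hV.const_smul₀ _
  have hsub : (1 - θ) • vor L ⊆ vor L := by
    rintro _ ⟨z, hz, rfl⟩ y hy
    have := hz y hy
    simp only
    rw [real_inner_smul_left]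
    nlinarith [mul_le_mul_of_nonneg_left this (by linarith : 0 ≤ 1 - θ),
      mul_nonneg h0 (sq_nonneg ‖y‖)]
  rw [setIntegral_indicator hW.compl, ← gm_eq _ (hV.inter hW.compl), ← Set.sdiff_eq]
  have e : gm (vor L \ (1 - θ) • vor L) = gm (vor L) - gm ((1 - θ) • vor L) :=
    measureReal_sdiff hsub hW
  have h2 := gm_smul (vor L) hV (by linarith : 0 < 1 - θ) (by linarith)
  have h3 := one_add_mul_le_pow (by linarith : (-2 : ℝ) ≤ -θ) (Module.finrank ℝ E)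
  rw [← sub_eq_add_neg] at h3
  have h4 := gm_le_one (vor L)
  have h5 := gm_nonneg (vor L)
  have h6 : 0 ≤ Module.finrank ℝ E * θ := by positivity
  rw [e]
  nlinarith [mul_le_mul_of_nonneg_right h3 h5, mul_le_mul_of_nonneg_left h4 h6]

theorem varA_lim {L : Submodule ℤ E} {M : ℝ}
    (h : ∀ s : ℝ, 0 < s → s < 1 → gm (s • vor L) ≤ M) : gm (vor L) ≤ M := by
  have hV : MeasurableSet (vor L) := (isClosed_vor L).measurableSet
  have hc : Continuous fun s : ℝ => s ^ (Module.finrank ℝ E) * gm (vor L) := by fun_prop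
  have ht := (hc.tendsto 1).mono_left (nhdsWithin_le_nhds (s := Set.Iio 1))
  simp only [one_pow, one_mul] at ht
  refine le_of_tendsto ht ?_
  filter_upwards [Ioo_mem_nhdsLT (zero_lt_one' ℝ)] with s hs
  exact (gm_smul _ hV hs.1 hs.2.le).trans (h s hs.1 hs.2)

/-- Put `g = sq √(1+ε) u v`, `θ = ε (1 + 4ρ)`, `c = (√(2π))⁻¹ ^ a`. Apply `pack_le_sup` to
`K = s • vor (g L)` (`pack_vor`, `gm_smul`, `s → 1`) with
`H x = dens (g x) + 1_B x * ε ‖x‖² c exp(-‖x‖²/4)`, where `B` is the complement of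
`(1-θ) • vor L ∩ closedBall 0 ρ`. Off `B`: `‖g(x-y)‖² - ‖g x‖² ≥ (θ-ε)‖y‖² - 4ερ‖y‖ ≥ 0`.
On `B`: `‖g(x-y)‖² ≥ (1-ε)‖x-y‖² ≥ (1-ε)‖x‖²`, `‖g x‖² ≤ (1+ε)‖x‖²`.
On the ball the extra term is `≤ ε ρ² exp(ρ²/4) dens x` and
`gm (vor L) - gm ((1-θ) • vor L) ≤ 1 - (1-θ)^a ≤ a θ`; outside the ball it is
`≤ ε (128/ρ²) dens ((1/2) • x)` (`r⁴ exp(-r²/8) ≤ 128`), of integral `ε 128 2^a / ρ²`. -/
theorem varA {L : Submodule ℤ E} (hL : Sep L) {ε ρ : ℝ} (hε : 0 < ε) (hρ : 1 ≤ ρ)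
    (hθ : ε * (1 + 4 * ρ) ≤ 1 / 2) {u v : E} (hu : ‖u‖ = 1) (hv : ‖v‖ = 1) (huv : ⟪u, v⟫ = 0) :
    gm (vor (lmap (sq (Real.sqrt (1 + ε)) u v) L)) ≤
      (∫ x in vor L, dens (sq (Real.sqrt (1 + ε)) u v x)) +
        ε * (ρ ^ 2 * Real.exp (ρ ^ 2 / 4) * Module.finrank ℝ E * (ε * (1 + 4 * ρ)) +
          128 * 2 ^ (Module.finrank ℝ E) / ρ ^ 2) := by
  have hε1 : ε ≤ 1 / 2 := by nlinarith
  have hρ0 : 0 < ρ := by linarith
  have hs : 0 < Real.sqrt (1 + ε) := Real.sqrt_pos.2 (by linarith)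
  have hW : MeasurableSet ((1 - ε * (1 + 4 * ρ)) • vor L) :=
    (isClosed_vor L).measurableSet.const_smul₀ _
  obtain ⟨i2, e2⟩ := integral_dens_smul (E := E) (c := 1 / 2) (by norm_num)
  have i1 : Integrable (dens : E → ℝ) := by
    simpa using (integral_dens_smul (E := E) (c := 1) one_pos).1
  have i0 : Integrable fun x : E => dens (sq (Real.sqrt (1 + ε)) u v x) := by
    refine i2.mono' (continuous_dens.comp
      (LinearMap.continuous_of_finiteDimensional _)).aestronglyMeasurable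
      (ae_of_all _ fun x => ?_)
    rw [Real.norm_of_nonneg (dens_pos _).le]
    have e : ‖(1 / 2 : ℝ) • x‖ ^ 2 = ‖x‖ ^ 2 / 4 := by
      rw [norm_smul, mul_pow, Real.norm_eq_abs, sq_abs]; ring
    have h1 := (varA_norm hε hu hv huv x).1
    refine mul_le_mul_of_nonneg_left (Real.exp_le_exp.2 ?_) (by positivity)
    rw [e]
    nlinarith [sq_nonneg ‖x‖]
  have j1 := ((i1.indicator hW.compl).const_mul
    (ε * (ρ ^ 2 * Real.exp (ρ ^ 2 / 4)))).integrableOn (s := vor L)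
  have j2 := (i2.const_mul (ε * (128 / ρ ^ 2))).integrableOn (s := vor L)
  refine varA_lim fun s h0 h1 => ?_
  refine (pack_le_sup hL _ (sq_det hs hu hv huv) ((isClosed_vor _).measurableSet.const_smul₀ s)
    (pack_vor _ h0 h1) _ (i0.integrableOn.add (j1.add j2))
    (fun x hx y hy => varA_bound hL hε hρ hθ hu hv huv hx hy)).trans ?_
  rw [integral_add' i0.integrableOn (j1.add j2), integral_add' j1 j2, integral_const_mul,
    integral_const_mul]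
  have b1 := varA_shell L (θ := ε * (1 + 4 * ρ)) (by positivity) hθ
  have b2 : ∫ x in vor L, dens ((1 / 2 : ℝ) • x) ≤ 2 ^ (Module.finrank ℝ E) := by
    refine (setIntegral_le_integral i2 (ae_of_all _ fun x => (dens_pos _).le)).trans ?_
    rw [e2]; norm_num
  have c1 := mul_le_mul_of_nonneg_left b1
    (by positivity : 0 ≤ ε * (ρ ^ 2 * Real.exp (ρ ^ 2 / 4)))
  have c2 := mul_le_mul_of_nonneg_left b2 (by positivity : 0 ≤ ε * (128 / ρ ^ 2))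
  have e3 : ε * (ρ ^ 2 * Real.exp (ρ ^ 2 / 4) * Module.finrank ℝ E * (ε * (1 + 4 * ρ)) +
      128 * 2 ^ (Module.finrank ℝ E) / ρ ^ 2) =
      ε * (ρ ^ 2 * Real.exp (ρ ^ 2 / 4)) * (Module.finrank ℝ E * (ε * (1 + 4 * ρ))) +
        ε * (128 / ρ ^ 2) * 2 ^ (Module.finrank ℝ E) := by ring
  rw [e3]
  linarith

end Vale.Agent.RM
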