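import Vale.Agent.RM.Defs

open MeasureTheory ProbabilityTheory
open scoped RealInnerProductSpace Pointwise

namespace Vale.Agent.RM

variable {E : Type} [NormedAddCommGroup E] [InnerProductSpace ℝ E] [FiniteDimensional ℝ E]

theorem isClosed_vor (L : Submodule ℤ E) : IsClosed (vor L) := by
  have : vor L = ⋂ y ∈ L, {x | 2 * ⟪x, y⟫ ≤ ‖y‖ ^ 2} := by
    ext x; simp [vor]
  rw [this]
  exact isClosed_biInter fun y _ => isClosed_le (by fun_prop) continuous_const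

theorem convex_vor (L : Submodule ℤ E) : Convex ℝ (vor L) := by
  intro x hx z hz a b ha hb hab y hy
  have h1 := mul_le_mul_of_nonneg_left (hx y hy) ha
  have h2 := mul_le_mul_of_nonneg_left (hz y hy) hb
  rw [inner_add_left, real_inner_smul_left, real_inner_smul_left]
  have : a * ‖y‖ ^ 2 + b * ‖y‖ ^ 2 = ‖y‖ ^ 2 := by rw [← add_mul, hab, one_mul]
  linarith

theorem neg_mem_vor {L : Submodule ℤ E} {x : E} (h : x ∈ vor L) : -x ∈ vor L := by
  intro y hy
  have := h (-y) (L.neg_mem hy)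
  rwa [inner_neg_right, norm_neg, ← inner_neg_left] at this

theorem vor_bot : vor (⊥ : Submodule ℤ E) = Set.univ := by
  refine Set.eq_univ_of_forall fun x y hy => ?_
  rw [(Submodule.mem_bot ℤ).1 hy]
  simp

theorem norm_le_of_mem_vor {L : Submodule ℤ E} {x y : E} (h : x ∈ vor L) (hy : y ∈ L) :
    ‖x‖ ≤ ‖x - y‖ := by
  have h1 := h y hy
  have h2 := norm_sub_sq_real x y
  exact (sq_le_sq₀ (norm_nonneg _) (norm_nonneg _)).1 (by linarith)

theorem vor_mem_smul {s : ℝ} (hs : 0 < s) {L : Submodule ℤ E} {x : E} :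
    x ∈ s • vor L ↔ ∀ y ∈ L, 2 * ⟪x, y⟫ ≤ s * ‖y‖ ^ 2 := by
  rw [Set.mem_smul_set_iff_inv_smul_mem₀ hs.ne']
  refine forall₂_congr fun y _ => ?_
  rw [real_inner_smul_left, mul_left_comm, inv_mul_le_iff₀ hs]

theorem vor_lsc {s : ℝ} (hs : 0 < s) (L : Submodule ℤ E) : vor (lsc s L) = s • vor L := by
  ext x
  rw [vor_mem_smul hs]
  have key : ∀ y : E, 2 * ⟪x, s • y⟫ ≤ ‖s • y‖ ^ 2 ↔ 2 * ⟪x, y⟫ ≤ s * ‖y‖ ^ 2 := fun y => by
    rw [real_inner_smul_right, norm_smul, Real.norm_of_nonneg hs.le, mul_pow, mul_left_comm, _root_.sq s,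
      mul_assoc, mul_le_mul_iff_right₀ hs]
  constructor
  · intro h y hy
    exact (key y).1 (h _ (mem_lsc.2 ⟨y, hy, rfl⟩))
  · intro h y hy
    obtain ⟨z, hz, rfl⟩ := mem_lsc.1 hy
    exact (key z).2 (h z hz)

theorem ball_subset_vor {L : Submodule ℤ E} {t : ℝ} (h : ∀ y ∈ L, y ≠ 0 → t ≤ ‖y‖) :
    Metric.closedBall (0 : E) (t / 2) ⊆ vor L := by
  intro x hx y hy
  rw [mem_closedBall_zero_iff] at hx
  by_cases h0 : y = 0
  · simp [h0]
  · have h1 := h y hy h0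
    have h2 := real_inner_le_norm x y
    have h3 := norm_nonneg y
    nlinarith

/-- If `x` and `x + y` lie in `s • vor L` then `2⟪x+y,y⟫ ≤ s‖y‖²` and `2⟪-x,y⟫ ≤ s‖y‖²`. -/
theorem pack_vor (L : Submodule ℤ E) {s : ℝ} (h0 : 0 < s) (h1 : s < 1) :
    Pack L (s • vor L) := by
  intro x hx y hy hy0 hxy
  have h2 := (vor_mem_smul h0).1 hxy y hy
  have h3 := (vor_mem_smul h0).1 hx (-y) (L.neg_mem hy)
  rw [inner_add_left, real_inner_self_eq_norm_sq] at h2
  rw [inner_neg_right, norm_neg] at h3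
  have h4 : 0 < ‖y‖ ^ 2 := pow_pos (norm_pos_iff.2 hy0) 2
  nlinarith

/-- Only finitely many points of `L` lie in a bounded set (they are `1`-separated; the closed
ball is compact, or use `Metric.finite_isBounded_inter_isClosed` for the discrete closed `L`). -/
theorem Sep.finite {L : Submodule ℤ E} (h : Sep L) (R : ℝ) :
    {y : E | y ∈ L ∧ ‖y‖ ≤ R}.Finite := by
  have : ProperSpace E := FiniteDimensional.proper ℝ E
  obtain ⟨t, ht, hc⟩ := Metric.totallyBounded_iff.1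
    (isCompact_closedBall (0 : E) R).totallyBounded (1 / 2) (by norm_num)
  refine (ht.biUnion (t := fun c => {y : E | y ∈ L ∧ y ∈ Metric.ball c (1 / 2)})
    fun c _ => Set.Subsingleton.finite ?_).subset fun y hy => ?_
  · intro y hy z hz
    by_contra hne
    have h1 := h (y - z) (L.sub_mem hy.1 hz.1) (sub_ne_zero.2 hne)
    have h2 := dist_triangle_right y z c
    have h3 := Metric.mem_ball.1 hy.2
    have h4 := Metric.mem_ball.1 hz.2
    rw [dist_eq_norm] at h2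
    linarith
  · have := hc (mem_closedBall_zero_iff.2 hy.2)
    simp only [Set.mem_iUnion] at this ⊢
    obtain ⟨c, hc1, hc2⟩ := this
    exact ⟨c, hc1, hy.1, hc2⟩

theorem Sep.countable {L : Submodule ℤ E} (h : Sep L) : (L : Set E).Countable := by
  refine (Set.countable_iUnion fun n : ℕ => (h.finite n).countable).mono fun y hy => ?_
  obtain ⟨n, hn⟩ := exists_nat_ge ‖y‖
  exact Set.mem_iUnion.2 ⟨n, hy, hn⟩

/-- Take `y` minimising `‖x - y‖` among the finitely many points of norm `≤ 2‖x‖`. -/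
theorem Sep.cover {L : Submodule ℤ E} (h : Sep L) (x : E) : ∃ y ∈ L, x - y ∈ vor L := by
  obtain ⟨y, hy, hmin⟩ := Set.exists_min_image _ (fun y => ‖x - y‖) (h.finite (2 * ‖x‖))
    ⟨0, L.zero_mem, by simp⟩
  have h0 : ‖x - y‖ ≤ ‖x‖ := by simpa using hmin 0 ⟨L.zero_mem, by simp⟩
  have hall : ∀ z ∈ L, ‖x - y‖ ≤ ‖x - z‖ := fun z hz => by
    by_cases hz2 : ‖z‖ ≤ 2 * ‖x‖
    · exact hmin z ⟨hz, hz2⟩
    · have := norm_sub_norm_le z x
      rw [norm_sub_rev z x] at this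
      linarith [not_le.1 hz2]
  refine ⟨y, hy.1, fun z hz => ?_⟩
  have h1 := hall (y + z) (L.add_mem hy.1 hz)
  rw [← sub_sub] at h1
  have h2 := norm_sub_sq_real (x - y) z
  have h3 : ‖x - y‖ ^ 2 ≤ ‖x - y - z‖ ^ 2 := by gcongr
  linarith

/-- `S = {0} ∪ {(2/‖y‖²) • y}` (the formula gives `0` at `y = 0`). -/
theorem exists_pol {L : Submodule ℤ E} (h : ∀ y ∈ L, y ≠ 0 → 2 ≤ ‖y‖) :
    ∃ S : Set E, SymB S 1 ∧ vor L = pol S := by
  refine ⟨(fun y : E => (2 / ‖y‖ ^ 2) • y) '' L, ⟨⟨0, L.zero_mem, by simp⟩, ?_, ?_⟩, ?_⟩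
  · rintro _ ⟨y, hy, rfl⟩
    exact ⟨-y, L.neg_mem hy, by simp⟩
  · rintro _ ⟨y, hy, rfl⟩
    by_cases h0 : y = 0
    · simp [h0]
    · have h1 := h y hy h0
      have h2 : 0 < ‖y‖ := by linarith
      rw [norm_smul, Real.norm_of_nonneg (by positivity), div_mul_eq_mul_div,
        div_le_one (by positivity)]
      nlinarith
  · have key : ∀ x y : E, 2 * ⟪x, y⟫ ≤ ‖y‖ ^ 2 ↔ ⟪(2 / ‖y‖ ^ 2) • y, x⟫ ≤ 1 := fun x y => by
      by_cases h0 : y = 0
      · simp [h0]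
      · have h2 : 0 < ‖y‖ ^ 2 := pow_pos (norm_pos_iff.2 h0) 2
        rw [real_inner_smul_left, real_inner_comm, div_mul_eq_mul_div, div_le_one h2]
    ext x
    constructor
    · rintro hx _ ⟨y, hy, rfl⟩
      exact (key x y).1 (hx y hy)
    · intro hx y hy
      exact (key x y).2 (hx _ ⟨y, hy, rfl⟩)

end Vale.Agent.RM
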